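import Mathlib

/-!
Definitions used in the statements for problem P161: the free Ising state on a tree and
factors of i.i.d. uniform labels.
-/

open MeasureTheory
open scoped Classical

noncomputable section

namespace Vale.Agent.P161

variable {V : Type*}

/-- the spin `1` or `-1` attached to a Boolean -/
def spin (b : Bool) : ℝ := if b then 1 else -1

/-- the factor `(1 + θ η_u η_v)/2` of an edge `{u, v}` -/
def edgeFactor (θ : ℝ) (η : V → Bool) : Sym2 V → ℝ :=
  Sym2.lift ⟨fun u v => (1 + θ * spin (η u) * spin (η v)) / 2, fun u v => by ring⟩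

/-- `1/2 · ∏_{e ∈ E(D)} (1 + θ η_u η_v)/2` -/
def isingCylinder (G : SimpleGraph V) (θ : ℝ) (D : Finset V) (η : V → Bool) : ℝ :=
  1 / 2 * ∏ e ∈ D.sym2 with e ∈ G.edgeSet, edgeFactor θ η e

/-- `ν` has, on every finite connected vertex set, the marginal of the free Ising state. -/
def IsFreeIsing (G : SimpleGraph V) (θ : ℝ) (ν : Measure (V → Bool)) : Prop :=
  ∀ D : Finset V, (G.induce (D : Set V)).Connected → ∀ η : V → Bool,
    ν {σ | ∀ v ∈ D, σ v = η v} = ENNReal.ofReal (isingCylinder G θ D η)

/-- the law of i.i.d. uniform labels in `[0,1]` indexed by the vertices -/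
def iidUniform (V : Type*) : Measure (V → unitInterval) :=
  Measure.infinitePi (fun _ : V => (volume : Measure unitInterval))

/-- `ν` is the image of i.i.d. uniform labels under a measurable map which, for each
automorphism `g`, almost surely commutes with `g`. -/
def IsFactorOfIID (G : SimpleGraph V) (ν : Measure (V → Bool)) : Prop :=
  ∃ Φ : (V → unitInterval) → (V → Bool), Measurable Φ ∧
    (∀ g : G ≃g G, ∀ᵐ U ∂iidUniform V,
      Φ (fun v => U (g.symm v)) = fun v => Φ U (g.symm v)) ∧
    (iidUniform V).map Φ = ν

end Vale.Agent.P161
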