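import Mathlib

/-!
Interpolation of a set function along random subsets of a finite set, and its derivative
(the Russo formula).
-/

open MeasureTheory Finset
open scoped Classical

noncomputable section

namespace Vale.Agent.P161

variable {ι κ : Type*}

/-- the mean of `h` over a random subset of `M` containing each point with probability `t` -/
def interp (M : Finset ι) (h : Finset ι → ℝ) (t : ℝ) : ℝ :=
  ∑ S ∈ M.powerset, t ^ S.card * (1 - t) ^ (M.card - S.card) * h S

/-- the increment of a set function at `v` -/
def dv (v : ι) (h : Finset ι → ℝ) (S : Finset ι) : ℝ := h (insert v S) - h S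

lemma interp_empty (h : Finset ι → ℝ) (t : ℝ) : interp ∅ h t = h ∅ := by simp [interp]

lemma interp_insert {a : ι} {M : Finset ι} (ha : a ∉ M) (h : Finset ι → ℝ) (t : ℝ) :
    interp (insert a M) h t = (1 - t) * interp M h t + t * interp M (fun S => h (insert a S)) t := by
  unfold interp
  rw [sum_powerset_insert ha, mul_sum, mul_sum]
  congr 1
  · refine sum_congr rfl (fun S hS => ?_)
    have hc := card_le_card (mem_powerset.1 hS)
    rw [card_insert_of_notMem ha, Nat.succ_sub hc, pow_succ]
    ring
  · refine sum_congr rfl (fun S hS => ?_)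
    have hc := card_le_card (mem_powerset.1 hS)
    rw [card_insert_of_notMem ha, card_insert_of_notMem (fun h' => ha (mem_powerset.1 hS h')),
      Nat.succ_sub_succ, pow_succ]
    ring

lemma interp_sub (M : Finset ι) (h k : Finset ι → ℝ) (t : ℝ) :
    interp M (fun S => h S - k S) t = interp M h t - interp M k t := by
  simp only [interp, mul_sub, sum_sub_distrib]

lemma interp_nonneg {M : Finset ι} {h : Finset ι → ℝ} (hh : ∀ S, S ⊆ M → 0 ≤ h S) {t : ℝ}
    (t0 : 0 ≤ t) (t1 : t ≤ 1) : 0 ≤ interp M h t :=
  sum_nonneg (fun S hS => mul_nonneg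
    (mul_nonneg (pow_nonneg t0 _) (pow_nonneg (by linarith) _)) (hh S (mem_powerset.1 hS)))

lemma abs_interp_le {M : Finset ι} {h k1 k2 : Finset ι → ℝ} {c1 c2 : ℝ}
    (hh : ∀ S, S ⊆ M → |h S| ≤ c1 * k1 S + c2 * k2 S) {t : ℝ} (t0 : 0 ≤ t) (t1 : t ≤ 1) :
    |interp M h t| ≤ c1 * interp M k1 t + c2 * interp M k2 t := by
  unfold interp
  rw [mul_sum, mul_sum, ← sum_add_distrib]
  refine (abs_sum_le_sum_abs _ _).trans (sum_le_sum (fun S hS => ?_))
  have hw : 0 ≤ t ^ S.card * (1 - t) ^ (M.card - S.card) :=
    mul_nonneg (pow_nonneg t0 _) (pow_nonneg (by linarith) _)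
  rw [abs_mul, abs_of_nonneg hw]
  refine (mul_le_mul_of_nonneg_left (hh S (mem_powerset.1 hS)) hw).trans (le_of_eq ?_)
  ring

@[fun_prop]
lemma continuous_interp (M : Finset ι) (h : Finset ι → ℝ) : Continuous (interp M h) := by
  unfold interp; fun_prop

lemma interp_restrict (B : Finset ι) : ∀ (M : Finset ι) (h : Finset ι → ℝ),
    (∀ S, S ⊆ M → h (S ∩ B) = h S) → ∀ t, interp M h t = interp (M ∩ B) h t := by
  intro M
  induction M using Finset.induction with
  | empty => simp
  | insert a M ha ih =>
    intro h hh t
    have h1 : ∀ S, S ⊆ M → h (S ∩ B) = h S := fun S hS => hh S (hS.trans (subset_insert a M))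
    rw [interp_insert ha, ih h h1]
    by_cases hb : a ∈ B
    · have h2 : ∀ S, S ⊆ M → (fun S => h (insert a S)) (S ∩ B) = (fun S => h (insert a S)) S := by
        intro S hS
        show h (insert a (S ∩ B)) = h (insert a S)
        rw [← hh _ (insert_subset_insert a hS), insert_inter_of_mem hb]
      rw [ih _ h2, insert_inter_of_mem hb, interp_insert (fun c => ha (mem_of_mem_inter_left c))]
    · have h2 : interp M (fun S => h (insert a S)) t = interp M h t := by
        refine sum_congr rfl (fun S hS => ?_)
        show _ * h (insert a S) = _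
        rw [← hh _ (insert_subset_insert a (mem_powerset.1 hS)), insert_inter_of_notMem hb,
          h1 S (mem_powerset.1 hS)]
      rw [h2, ih h h1, insert_inter_of_notMem hb]
      ring

lemma interp_image {f : ι → κ} (hf : Function.Injective f) (M : Finset ι) (h : Finset κ → ℝ)
    (t : ℝ) : interp (M.image f) h t = interp M (fun S => h (S.image f)) t := by
  unfold interp
  rw [powerset_image, sum_image (fun a _ b _ e => image_injective hf e)]
  refine sum_congr rfl (fun S _ => ?_)
  rw [card_image_of_injective _ hf, card_image_of_injective _ hf]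

lemma interp_zero : ∀ (M : Finset ι) (h : Finset ι → ℝ), interp M h 0 = h ∅ := by
  intro M
  induction M using Finset.induction with
  | empty => intro h; exact interp_empty h 0
  | insert a M ha ih => intro h; rw [interp_insert ha, ih]; ring

lemma interp_one : ∀ (M : Finset ι) (h : Finset ι → ℝ), interp M h 1 = h M := by
  intro M
  induction M using Finset.induction with
  | empty => intro h; exact interp_empty h 1
  | insert a M ha ih => intro h; rw [interp_insert ha, ih, ih]; ring

lemma hasDerivAt_interp : ∀ (M : Finset ι) (h : Finset ι → ℝ) (t : ℝ),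
    HasDerivAt (interp M h) (∑ v ∈ M, interp (M.erase v) (dv v h) t) t := by
  intro M
  induction M using Finset.induction with
  | empty =>
    intro h t
    rw [sum_empty, show interp (∅ : Finset ι) h = fun _ => h ∅ from funext (interp_empty h)]
    exact hasDerivAt_const t (h ∅)
  | insert a M ha ih =>
    intro h t
    rw [show interp (insert a M) h = fun t => (1 - t) * interp M h t
      + t * interp M (fun S => h (insert a S)) t from funext (interp_insert ha h)]
    have h1 := ((hasDerivAt_id t).const_sub 1).mul (ih h t)
    have h2 := (hasDerivAt_id t).mul (ih (fun S => h (insert a S)) t)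
    refine (h1.add h2).congr_deriv ?_
    rw [sum_insert ha, erase_insert ha]
    have e : ∀ v ∈ M, interp ((insert a M).erase v) (dv v h) t
        = (1 - t) * interp (M.erase v) (dv v h) t
          + t * interp (M.erase v) (dv v (fun S => h (insert a S))) t := by
      intro v hv
      have hva : a ≠ v := fun e => ha (e ▸ hv)
      rw [erase_insert_of_ne hva, interp_insert (fun c => ha (mem_of_mem_erase c))]
      congr 2
      unfold dv
      simp only [Finset.insert_comm a v]
    have e2 : interp M (dv a h) t = interp M (fun S => h (insert a S)) t - interp M h t :=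
      interp_sub M _ _ t
    rw [sum_congr rfl e, sum_add_distrib, ← mul_sum, ← mul_sum, e2]
    simp only [id_eq]
    ring

lemma integral_sum_interp_dv (M : Finset ι) (h : Finset ι → ℝ) :
    ∫ t in (0 : ℝ)..1, ∑ v ∈ M, interp (M.erase v) (dv v h) t = h M - h ∅ := by
  rw [intervalIntegral.integral_eq_sub_of_hasDerivAt (fun _ _ => hasDerivAt_interp M h _)
    (Continuous.intervalIntegrable (by fun_prop) _ _), interp_one, interp_zero]

/-- the influence of `v` on `h` -/
def infl (M : Finset ι) (h : Finset ι → ℝ) (v : ι) : ℝ :=
  ∫ t in (0 : ℝ)..1, interp (M.erase v) (dv v h) t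

lemma sum_infl (M : Finset ι) (h : Finset ι → ℝ) : ∑ v ∈ M, infl M h v = h M - h ∅ := by
  rw [← integral_sum_interp_dv, intervalIntegral.integral_finsetSum]
  · rfl
  · exact fun v _ => Continuous.intervalIntegrable (by fun_prop) _ _

lemma infl_nonneg {M : Finset ι} {h : Finset ι → ℝ} (hh : ∀ S T, S ⊆ T → h S ≤ h T) (v : ι) :
    0 ≤ infl M h v :=
  intervalIntegral.integral_nonneg zero_le_one (fun _t ht =>
    interp_nonneg (fun S _ => sub_nonneg.2 (hh _ _ (subset_insert v S))) ht.1 ht.2)

lemma infl_eq_of_local {B M : Finset ι} (hBM : B ⊆ M) {h : Finset ι → ℝ}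
    (hh : ∀ S, h (S ∩ B) = h S) (v : ι) : infl M h v = if v ∈ B then infl B h v else 0 := by
  have hd : ∀ S, dv v h (S ∩ B) = dv v h S := by
    intro S
    unfold dv
    rw [hh S, ← hh (insert v (S ∩ B)), ← hh (insert v S)]
    congr 2
    ext x; simp only [mem_inter, mem_insert]; tauto
  have e : (M.erase v) ∩ B = B.erase v := by
    ext x; simp only [mem_inter, mem_erase]
    exact ⟨fun hx => ⟨hx.1.1, hx.2⟩, fun hx => ⟨⟨hx.1, hBM hx.2⟩, hx.2⟩⟩
  unfold infl
  rw [intervalIntegral.integral_congr (g := fun t => interp (B.erase v) (dv v h) t)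
    (fun t _ => (interp_restrict B _ _ (fun S _ => hd S) t).trans (by rw [e]))]
  split_ifs with hv
  · rfl
  · have hz : ∀ S, dv v h S = 0 := by
      intro S
      unfold dv
      rw [← hh (insert v S), insert_inter_of_notMem hv, hh S, sub_self]
    simp [interp, hz]

lemma infl_image {f : ι → κ} (hf : Function.Injective f) {M : Finset ι} {h : Finset ι → ℝ}
    {h' : Finset κ → ℝ} (hh : ∀ S, h' (S.image f) = h S) (v : ι) :
    infl (M.image f) h' (f v) = infl M h v := by
  unfold infl
  refine intervalIntegral.integral_congr (fun t _ => ?_)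
  show interp ((M.image f).erase (f v)) _ t = _
  rw [← image_erase hf, interp_image hf]
  refine sum_congr rfl (fun S _ => ?_)
  show _ * dv (f v) h' (S.image f) = _ * dv v h S
  unfold dv
  rw [← image_insert (f := f) v S, hh, hh]

end Vale.Agent.P161
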