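import Mathlib

/-!
Elementary geometry of locally finite trees: geodesic steps, convex finite sets,
and geometric sums over finite vertex sets.
-/

open Finset
open scoped Classical

noncomputable section

namespace Vale.Agent.P161

variable {V : Type*} {G : SimpleGraph V}

lemma exists_toward (hT : G.IsTree) {x u : V} (h : x ≠ u) :
    ∃ y, G.Adj x y ∧ G.dist y u + 1 = G.dist x u := by
  obtain ⟨p, hp⟩ := hT.connected.exists_walk_length_eq_dist x u
  cases p with
  | nil => exact absurd rfl h
  | @cons _ y _ hadj q =>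
    refine ⟨y, hadj, ?_⟩
    have h1 : G.dist y u ≤ q.length := SimpleGraph.dist_le q
    have h2 : G.dist x u ≤ G.dist x y + G.dist y u := hT.connected.dist_triangle
    rw [SimpleGraph.dist_eq_one_iff_adj.2 hadj] at h2
    simp only [SimpleGraph.Walk.length_cons] at hp
    omega

lemma toward_unique (hT : G.IsTree) {x y y' u : V} (ha : G.Adj x y) (ha' : G.Adj x y')
    (h : G.dist y u + 1 = G.dist x u) (h' : G.dist y' u + 1 = G.dist x u) : y = y' := by
  obtain ⟨q, hq⟩ := hT.connected.exists_walk_length_eq_dist y u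
  obtain ⟨q', hq'⟩ := hT.connected.exists_walk_length_eq_dist y' u
  have hp : (SimpleGraph.Walk.cons ha q).IsPath := by
    apply SimpleGraph.Walk.isPath_of_length_eq_dist
    simp [hq, h]
  have hp' : (SimpleGraph.Walk.cons ha' q').IsPath := by
    apply SimpleGraph.Walk.isPath_of_length_eq_dist
    simp [hq', h']
  have he := (hT.existsUnique_path x u).unique hp hp'
  have := congrArg (fun w => w.snd) he
  simpa using this

lemma adj_cases (hT : G.IsTree) {x y : V} (ha : G.Adj x y) (u : V) :
    G.dist y u + 1 = G.dist x u ∨ G.dist x u + 1 = G.dist y u := by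
  rcases hT.dist_eq_dist_add_one_of_adj u ha with h | h
  · left
    rw [G.dist_comm (u := y), G.dist_comm (u := x)]
    omega
  · right
    rw [G.dist_comm (u := y), G.dist_comm (u := x)]
    omega

/-- if the neighbour `v'` of `v` is toward `u` but away from `w`, then `v` is on the geodesic
from `w` to `u`. -/
lemma dist_through (hT : G.IsTree) {w : V} : ∀ (n : ℕ) (v v' u : V),
    G.dist v u = n → G.Adj v v' → G.dist v' u + 1 = G.dist v u →
    G.dist v w + 1 = G.dist v' w → G.dist w u = G.dist w v + G.dist v u := by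
  intro n
  induction n with
  | zero => intro v v' u hn _ h _; omega
  | succ n ih =>
    intro v v' u hn ha h hw
    have hv' : G.dist v' u = n := by omega
    have c1 : G.dist w v' = G.dist v' w := G.dist_comm
    have c2 : G.dist w v = G.dist v w := G.dist_comm
    by_cases he : v' = u
    · subst he
      simp at h
      omega
    · obtain ⟨v'', ha', h''⟩ := exists_toward hT he
      have hne : v'' ≠ v := by
        intro e; subst e; omega
      have hw' : G.dist v' w + 1 = G.dist v'' w := by
        rcases adj_cases hT ha' w with h1 | h1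
        · exact absurd (toward_unique hT ha' ha.symm h1 hw) hne
        · exact h1
      have := ih v' v'' u hv' ha' h'' hw'
      omega

/-- finite sets of vertices that contain every geodesic step between their members -/
def Geo (G : SimpleGraph V) (D : Finset V) : Prop :=
  ∀ x ∈ D, ∀ u ∈ D, ∀ y, G.Adj x y → G.dist y u + 1 = G.dist x u → y ∈ D

lemma geo_singleton (v : V) : Geo G {v} := by
  intro x hx u hu y _ h
  simp only [Finset.mem_singleton] at hx hu
  subst hx hu
  simp at h

lemma geo_dist_of_leaf (hT : G.IsTree) {D : Finset V} (hD : Geo G D) {l w : V} (hl : l ∈ D)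
    (huniq : ∀ y ∈ D, G.Adj l y → y = w) {u : V} (hu : u ∈ D) (hne : u ≠ l) :
    G.dist l u = G.dist w u + 1 := by
  obtain ⟨y, ha, hy⟩ := exists_toward hT (Ne.symm hne)
  have := huniq y (hD l hl u hu y ha hy) ha
  subst this
  omega

lemma geo_erase_leaf (hT : G.IsTree) {D : Finset V} (hD : Geo G D) {l w : V} (hl : l ∈ D)
    (huniq : ∀ y ∈ D, G.Adj l y → y = w) : Geo G (D.erase l) := by
  intro x hx u hu y ha hy
  rw [Finset.mem_erase] at hx hu ⊢
  refine ⟨?_, hD x hx.2 u hu.2 y ha hy⟩
  intro e
  subst e
  have h1 := huniq x hx.2 ha.symm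
  subst h1
  have := geo_dist_of_leaf hT hD hl huniq hu.2 hu.1
  omega

/-- A vertex maximizing the distance to `u` within a geodesically convex set is a leaf. -/
lemma exists_leaf (hT : G.IsTree) {D : Finset V} (hD : Geo G D) {u : V} (hu : u ∈ D)
    (hne : ∃ x ∈ D, x ≠ u) :
    ∃ l ∈ D, l ≠ u ∧ ∃ w ∈ D.erase l, G.Adj l w ∧ ∀ y ∈ D, G.Adj l y → y = w := by
  obtain ⟨l, hl, hmax⟩ := Finset.exists_max_image D (fun x => G.dist x u) ⟨u, hu⟩
  have hlu : l ≠ u := by
    intro e
    subst e
    obtain ⟨x, hx, hxu⟩ := hne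
    have := hmax x hx
    simp only [SimpleGraph.dist_self] at this
    have := hT.connected.pos_dist_of_ne hxu
    omega
  obtain ⟨w, ha, hw⟩ := exists_toward hT hlu
  refine ⟨l, hl, hlu, w, ?_, ha, ?_⟩
  · exact Finset.mem_erase.2 ⟨(G.ne_of_adj ha).symm, hD l hl u hu w ha hw⟩
  · intro y hy hay
    rcases adj_cases hT hay u with h | h
    · exact toward_unique hT hay ha h hw
    · have := hmax y hy
      omega

/-- If `D ⊆ M` are convex and `D` is nonempty and proper, then `M` has a leaf outside `D`. -/
lemma exists_leaf_outside (hT : G.IsTree) {D M : Finset V} (hD : Geo G D) (hM : Geo G M)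
    (hDM : D ⊆ M) {u : V} (hu : u ∈ D) (hne : ∃ x ∈ M, x ∉ D) :
    ∃ l ∈ M, l ∉ D ∧ ∃ w ∈ M.erase l, G.Adj l w ∧ ∀ y ∈ M, G.Adj l y → y = w := by
  have hne' : (M \ D).Nonempty := by
    obtain ⟨x, hx, hx'⟩ := hne
    exact ⟨x, Finset.mem_sdiff.2 ⟨hx, hx'⟩⟩
  obtain ⟨l, hl, hmax⟩ := Finset.exists_max_image (M \ D) (fun x => G.dist x u) hne'
  obtain ⟨hlM, hlD⟩ := Finset.mem_sdiff.1 hl
  have hlu : l ≠ u := fun e => hlD (e ▸ hu)
  obtain ⟨w, ha, hw⟩ := exists_toward hT hlu
  refine ⟨l, hlM, hlD, w, ?_, ha, ?_⟩
  · exact Finset.mem_erase.2 ⟨(G.ne_of_adj ha).symm, hM l hlM u (hDM hu) w ha hw⟩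
  · intro y hy hay
    rcases adj_cases hT hay u with h | h
    · exact toward_unique hT hay ha h hw
    · exfalso
      by_cases hyD : y ∈ D
      · exact hlD (hD y hyD u hu l hay.symm h)
      · have := hmax y (Finset.mem_sdiff.2 ⟨hy, hyD⟩)
        omega

section ball

/-- Neighbours, as a finite set. -/
def nb (G : SimpleGraph V) (hf : ∀ v, (G.neighborSet v).Finite) (v : V) : Finset V :=
  (hf v).toFinset

/-- finite balls -/
def ball (G : SimpleGraph V) (hf : ∀ v, (G.neighborSet v).Finite) (v : V) : ℕ → Finset V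
  | 0 => {v}
  | n + 1 => ball G hf v n ∪ (ball G hf v n).biUnion (nb G hf)

lemma mem_ball_iff (hT : G.IsTree) (hf : ∀ v, (G.neighborSet v).Finite) (v : V) :
    ∀ (n : ℕ) (x : V), x ∈ ball G hf v n ↔ G.dist x v ≤ n := by
  intro n
  induction n with
  | zero =>
    intro x
    simp [ball, hT.connected.dist_eq_zero_iff]
  | succ n ih =>
    intro x
    simp only [ball, Finset.mem_union, Finset.mem_biUnion, nb, Set.Finite.mem_toFinset,
      SimpleGraph.mem_neighborSet, ih]
    constructor
    · rintro (h | ⟨y, hy, ha⟩)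
      · omega
      · rcases adj_cases hT ha v with h | h <;> omega
    · intro h
      by_cases hx : x = v
      · left; subst hx; simp
      · obtain ⟨y, ha, hy⟩ := exists_toward hT hx
        right
        exact ⟨y, by omega, ha.symm⟩

lemma self_mem_ball (hT : G.IsTree) (hf : ∀ v, (G.neighborSet v).Finite) (v : V) (n : ℕ) :
    v ∈ ball G hf v n := by
  rw [mem_ball_iff hT]; simp

lemma geo_ball (hT : G.IsTree) (hf : ∀ v, (G.neighborSet v).Finite) (v : V) (n : ℕ) :
    Geo G (ball G hf v n) := by
  intro x hx u hu y ha hy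
  rw [mem_ball_iff hT] at hx hu ⊢
  rcases adj_cases hT ha v with h | h
  · omega
  · have h2 := dist_through hT (G.dist x u) x y u rfl ha hy h
    have c1 : G.dist v x = G.dist x v := G.dist_comm
    have c2 : G.dist v u = G.dist u v := G.dist_comm
    omega

lemma exists_ball_superset (hT : G.IsTree) (hf : ∀ v, (G.neighborSet v).Finite) (v : V)
    (S : Finset V) : ∃ N, ∀ n, N ≤ n → S ⊆ ball G hf v n := by
  refine ⟨S.sup (fun x => G.dist x v), fun n hn x hx => ?_⟩
  rw [mem_ball_iff hT]
  exact le_trans (Finset.le_sup (f := fun x => G.dist x v) hx) hn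

lemma ball_mono (hT : G.IsTree) (hf : ∀ v, (G.neighborSet v).Finite) (v : V) {m n : ℕ}
    (h : m ≤ n) : ball G hf v m ⊆ ball G hf v n := by
  intro x hx
  rw [mem_ball_iff hT] at hx ⊢
  omega

lemma countable_verts (hT : G.IsTree) (hf : ∀ v, (G.neighborSet v).Finite) : Countable V := by
  obtain ⟨o⟩ := hT.connected.nonempty
  rw [← Set.countable_univ_iff]
  have : (Set.univ : Set V) = ⋃ n : ℕ, (ball G hf o n : Set V) := by
    ext x
    simp only [Set.mem_univ, Set.mem_iUnion, Finset.mem_coe, mem_ball_iff hT, true_iff]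
    exact ⟨_, le_rfl⟩
  rw [this]
  exact Set.countable_iUnion (fun n => (Finset.finite_toSet _).countable)

end ball

/-- A finite connected set is geodesically convex. -/
lemma geo_of_connected (hT : G.IsTree) {D : Finset V}
    (hc : (G.induce (D : Set V)).Connected) : Geo G D := by
  intro x hx u hu y ha hy
  by_contra hyD
  -- no edge inside `D` leaves the side of `x`
  have key : ∀ a b : (D : Set V), (G.induce (D : Set V)).Walk a b →
      G.dist x a + 1 = G.dist y a → G.dist x b + 1 = G.dist y b := by
    intro a b p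
    induction p with
    | nil => exact id
    | @cons a c b hac p ih =>
      intro h
      apply ih
      rcases adj_cases hT ha c.1 with h1 | h1
      · exfalso
        have hac' : G.Adj a.1 c.1 := hac
        have h3 := dist_through hT (G.dist x c.1) x y c.1 rfl ha h1 h
        rw [SimpleGraph.dist_eq_one_iff_adj.2 hac'] at h3
        have h4 : G.dist x c.1 ≠ 0 := by omega
        have h5 : G.dist y c.1 = 0 := by omega
        rw [hT.connected.dist_eq_zero_iff] at h5
        exact hyD (h5 ▸ c.2)
      · exact h1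
  obtain ⟨p⟩ := hc.preconnected ⟨x, hx⟩ ⟨u, hu⟩
  have h0 : G.dist x x + 1 = G.dist y x := by
    rw [SimpleGraph.dist_eq_one_iff_adj.2 ha.symm]; simp
  have := key _ _ p h0
  simp only at this
  omega

section counting

variable (hT : G.IsTree) {q : ℕ} (hd : ∀ v, (G.neighborSet v).ncard = q + 1)

include hd in
lemma nb_finite : ∀ v, (G.neighborSet v).Finite := fun v =>
  Set.finite_of_ncard_ne_zero (by rw [hd v]; omega)

include hT hd in
lemma card_shell (hq : 1 ≤ q) (v : V) : ∀ n, ∀ W : Finset V, (∀ x ∈ W, G.dist x v = n) →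
    W.card ≤ (if n = 0 then 1 else (q + 1) * q ^ (n - 1)) := by
  intro n
  induction n with
  | zero =>
    intro W hW
    have : W ⊆ {v} := fun x hx =>
      Finset.mem_singleton.2 ((hT.connected.dist_eq_zero_iff).1 (hW x hx))
    simpa using Finset.card_le_card this
  | succ n ih =>
    intro W hW
    have hf := nb_finite hd
    set P := (ball G hf v n).filter (fun x => G.dist x v = n) with hP
    have hsub : W ⊆ P.biUnion (fun p => (nb G hf p).filter (fun x => G.dist x v = n + 1)) := by
      intro x hx
      have hxn := hW x hx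
      have hxv : x ≠ v := by intro e; subst e; simp at hxn
      obtain ⟨y, ha, hy⟩ := exists_toward hT hxv
      refine Finset.mem_biUnion.2 ⟨y, ?_, ?_⟩
      · exact Finset.mem_filter.2 ⟨(mem_ball_iff hT hf v n y).2 (by omega), by omega⟩
      · exact Finset.mem_filter.2 ⟨by simp [nb, ha.symm], hxn⟩
    have hnb : ∀ p, (nb G hf p).card = q + 1 := by
      intro p
      rw [nb, ← Set.ncard_eq_toFinset_card _ (hf p), hd]
    have hP' : ∀ x ∈ P, G.dist x v = n := fun x hx => (Finset.mem_filter.1 hx).2
    have hPc := ih P hP'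
    rcases Nat.eq_zero_or_pos n with hn | hn
    · subst hn
      have h1 : ∀ p ∈ P, ((nb G hf p).filter (fun x => G.dist x v = 0 + 1)).card ≤ q + 1 :=
        fun p _ => (Finset.card_filter_le _ _).trans (hnb p).le
      have := (Finset.card_le_card hsub).trans (Finset.card_biUnion_le_card_mul _ _ _ h1)
      simp at hPc ⊢
      calc W.card ≤ P.card * (q + 1) := this
        _ ≤ 1 * (q + 1) := Nat.mul_le_mul_right _ hPc
        _ = q + 1 := one_mul _
    · have h1 : ∀ p ∈ P, ((nb G hf p).filter (fun x => G.dist x v = n + 1)).card ≤ q := by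
        intro p hp
        have hpn := hP' p hp
        have hpv : p ≠ v := by intro e; subst e; simp at hpn; omega
        obtain ⟨z, ha, hz⟩ := exists_toward hT hpv
        have : ((nb G hf p).filter (fun x => G.dist x v = n + 1)) ⊆ (nb G hf p).erase z := by
          intro x hx
          obtain ⟨hx1, hx2⟩ := Finset.mem_filter.1 hx
          refine Finset.mem_erase.2 ⟨?_, hx1⟩
          intro e; subst e; omega
        refine (Finset.card_le_card this).trans ?_
        rw [Finset.card_erase_of_mem (by simp [nb, ha]), hnb]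
        omega
      have := (Finset.card_le_card hsub).trans (Finset.card_biUnion_le_card_mul _ _ _ h1)
      rw [if_neg (by omega : ¬ n = 0)] at hPc
      rw [if_neg (by omega : ¬ n + 1 = 0)]
      calc W.card ≤ P.card * q := this
        _ ≤ (q + 1) * q ^ (n - 1) * q := Nat.mul_le_mul_right _ hPc
        _ = (q + 1) * q ^ (n + 1 - 1) := by
          rw [mul_assoc, ← pow_succ]
          congr 2
          omega

include hT hd in
lemma card_shell_le (hq : 1 ≤ q) (v : V) (n : ℕ) (W : Finset V)
    (hW : ∀ x ∈ W, G.dist x v = n) : (W.card : ℝ) ≤ 2 * (q : ℝ) ^ n := by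
  have h := card_shell hT hd hq v n W hW
  rcases n with _ | m
  · simp at h
    have : (W.card : ℝ) ≤ 1 := by exact_mod_cast h
    simp; linarith
  · simp only [Nat.succ_ne_zero, if_false, Nat.succ_sub_one] at h
    have h2 : (q + 1) * q ^ m ≤ 2 * q ^ (m + 1) := by
      rw [pow_succ]
      calc (q + 1) * q ^ m ≤ (2 * q) * q ^ m := Nat.mul_le_mul_right _ (by omega)
        _ = 2 * (q ^ m * q) := by ring
    exact_mod_cast h.trans h2

include hT hd in
/-- geometric sums over finite sets of vertices -/
lemma sum_pow_dist_le (hq : 1 ≤ q) {a : ℝ} (ha : 0 ≤ a) (hqa : (q : ℝ) * a < 1) (v : V)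
    (W : Finset V) : ∑ w ∈ W, a ^ G.dist w v ≤ 2 / (1 - q * a) := by
  rw [← Finset.sum_fiberwise_of_maps_to
    (t := Finset.range (W.sup (fun w => G.dist w v) + 1)) (g := fun w => G.dist w v)]
  swap
  · intro w hw
    exact Finset.mem_range.2 (Nat.lt_succ_of_le (Finset.le_sup (f := fun w => G.dist w v) hw))
  have hb : 0 ≤ (q : ℝ) * a := by positivity
  calc _ ≤ ∑ n ∈ Finset.range (W.sup (fun w => G.dist w v) + 1), 2 * ((q : ℝ) * a) ^ n := by
        refine Finset.sum_le_sum (fun n _ => ?_)
        rw [Finset.sum_congr rfl (fun w hw => by rw [(Finset.mem_filter.1 hw).2]),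
          Finset.sum_const, nsmul_eq_mul, mul_pow, ← mul_assoc]
        exact mul_le_mul_of_nonneg_right
          (card_shell_le hT hd hq v n _ (fun x hx => (Finset.mem_filter.1 hx).2)) (pow_nonneg ha n)
    _ ≤ 2 / (1 - q * a) := by
        rw [← Finset.mul_sum, div_eq_mul_inv]
        refine mul_le_mul_of_nonneg_left ?_ (by norm_num)
        have h := (summable_geometric_of_lt_one hb hqa).sum_le_tsum
          (Finset.range (W.sup (fun w => G.dist w v) + 1)) (fun n _ => pow_nonneg hb n)
        rwa [tsum_geometric_of_lt_one hb hqa] at h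

include hT hd in
lemma sum_pow_dist_far_le (hq : 1 ≤ q) {a : ℝ} (ha : 0 < a) {b : ℝ} (hb1 : 1 < b)
    (hqab : (q : ℝ) * (a * b) < 1) (v : V) (L : ℕ) (W : Finset V)
    (hW : ∀ w ∈ W, L ≤ G.dist w v) :
    ∑ w ∈ W, a ^ G.dist w v ≤ 2 / (1 - q * (a * b)) * b⁻¹ ^ L := by
  have hb0 : 0 < b := by linarith
  calc ∑ w ∈ W, a ^ G.dist w v ≤ ∑ w ∈ W, (a * b) ^ G.dist w v * b⁻¹ ^ L := by
        refine Finset.sum_le_sum (fun w hw => ?_)
        obtain ⟨k, hk⟩ := Nat.exists_eq_add_of_le (hW w hw)
        have : (a * b) ^ G.dist w v * b⁻¹ ^ L = a ^ G.dist w v * b ^ k := by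
          rw [hk, mul_pow, pow_add b, inv_pow]
          field_simp
        rw [this]
        exact le_mul_of_one_le_right (by positivity) (one_le_pow₀ hb1.le)
    _ = (∑ w ∈ W, (a * b) ^ G.dist w v) * b⁻¹ ^ L := by rw [Finset.sum_mul]
    _ ≤ _ := by
        refine mul_le_mul_of_nonneg_right ?_ (by positivity)
        exact sum_pow_dist_le hT hd hq (by positivity) hqab v W

include hT hd in
/-- the key convolution estimate `Θ * r ≤ C r` -/
lemma sum_conv_le (hq : 1 ≤ q) {t r : ℝ} (ht : 0 ≤ t) (htr : t < r)
    (hqtr : (q : ℝ) * (t * r) < 1) : ∀ (n : ℕ) (v u : V), G.dist v u = n →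
      ∀ W : Finset V, ∑ w ∈ W, t ^ G.dist v w * r ^ G.dist w u
        ≤ 2 / (1 - q * (t * r)) / (1 - t / r) * r ^ n := by
  have hr : 0 < r := lt_of_le_of_lt ht htr
  have hsr : 0 < 1 - t / r := by
    rw [sub_pos, div_lt_one hr]; exact htr
  set K : ℝ := 2 / (1 - q * (t * r)) with hK
  have hK0 : 0 < K := div_pos two_pos (by linarith)
  have hK1 : K ≤ K / (1 - t / r) := by
    rw [le_div_iff₀ hsr]
    have : 0 ≤ t / r := by positivity
    nlinarith
  intro n
  induction n with
  | zero =>
    intro v u hn W
    rw [hT.connected.dist_eq_zero_iff] at hn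
    subst hn
    have : ∀ w ∈ W, t ^ G.dist v w * r ^ G.dist w v = (t * r) ^ G.dist w v := by
      intro w _; rw [G.dist_comm (u := v) (v := w), mul_pow]
    rw [Finset.sum_congr rfl this, pow_zero, mul_one]
    exact (sum_pow_dist_le hT hd hq (by positivity) hqtr v W).trans hK1
  | succ n ih =>
    intro v u hn W
    have hvu : v ≠ u := by intro e; subst e; simp at hn
    obtain ⟨v', ha, hv'⟩ := exists_toward hT hvu
    rw [← Finset.sum_filter_add_sum_filter_not W (fun w => G.dist v' w + 1 = G.dist v w)]
    have h1 : ∑ w ∈ W with G.dist v' w + 1 = G.dist v w, t ^ G.dist v w * r ^ G.dist w u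
        ≤ t * (K / (1 - t / r) * r ^ n) := by
      refine le_trans (le_of_eq ?_) (mul_le_mul_of_nonneg_left
        (ih v' u (by omega) (W.filter (fun w => G.dist v' w + 1 = G.dist v w))) ht)
      rw [Finset.mul_sum]
      refine Finset.sum_congr rfl (fun w hw => ?_)
      rw [← (Finset.mem_filter.1 hw).2, pow_succ]
      ring
    have h2 : ∑ w ∈ W with ¬ (G.dist v' w + 1 = G.dist v w),
        t ^ G.dist v w * r ^ G.dist w u ≤ K * r ^ (n + 1) := by
      calc _ = ∑ w ∈ W with ¬ (G.dist v' w + 1 = G.dist v w),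
              (t * r) ^ G.dist w v * r ^ (n + 1) := by
            refine Finset.sum_congr rfl (fun w hw => ?_)
            have hw' := (Finset.mem_filter.1 hw).2
            rcases adj_cases hT ha w with h | h
            · exact absurd h hw'
            · rw [dist_through hT (G.dist v u) v v' u rfl ha hv' h, hn, pow_add,
                G.dist_comm (u := v) (v := w), mul_pow]
              ring
        _ ≤ _ := by
            rw [← Finset.sum_mul]
            exact mul_le_mul_of_nonneg_right
              (sum_pow_dist_le hT hd hq (by positivity) hqtr v _) (by positivity)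
    have : t * (K / (1 - t / r) * r ^ n) + K * r ^ (n + 1) = K / (1 - t / r) * r ^ (n + 1) := by
      rw [pow_succ]
      have hne : r - t ≠ 0 := by linarith
      have : 1 - t / r = (r - t) / r := by field_simp
      rw [this, div_div_eq_mul_div]
      field_simp
      ring
    linarith

end counting

end Vale.Agent.P161
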