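import Mathlib
import Vale.Agent.P161.Tree

/-!
Geodesics of regular trees: automorphisms are transitive on geodesic segments of a given
length; continuations of a directed edge; weighted sphere sums.
-/

open Finset
open scoped Classical

noncomputable section

namespace Vale.Agent.P161

variable {V : Type*} {G : SimpleGraph V}

/-- the first `n + 1` values of `p` form a geodesic -/
def IsGeod (G : SimpleGraph V) (n : ℕ) (p : ℕ → V) : Prop :=
  (∀ i < n, G.Adj (p i) (p (i + 1))) ∧ G.dist (p 0) (p n) = n

lemma dist_le_steps (hT : G.IsTree) {n : ℕ} {p : ℕ → V} (hp : ∀ i < n, G.Adj (p i) (p (i + 1)))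
    {i : ℕ} : ∀ k, i + k ≤ n → G.dist (p i) (p (i + k)) ≤ k := by
  intro k
  induction k with
  | zero => intro _; simp
  | succ k ih =>
    intro hk
    have h1 := ih (by omega)
    have h2 : G.dist (p i) (p (i + (k + 1)))
        ≤ G.dist (p i) (p (i + k)) + G.dist (p (i + k)) (p (i + (k + 1))) :=
      hT.connected.dist_triangle
    have h3 : G.dist (p (i + k)) (p (i + (k + 1))) = 1 :=
      SimpleGraph.dist_eq_one_iff_adj.2 (hp _ (by omega))
    omega

lemma IsGeod.dist_eq (hT : G.IsTree) {n : ℕ} {p : ℕ → V} (hp : IsGeod G n p) {i j : ℕ}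
    (hij : i ≤ j) (hj : j ≤ n) : G.dist (p i) (p j) = j - i := by
  obtain ⟨k, rfl⟩ := Nat.exists_eq_add_of_le hij
  have h1 := dist_le_steps hT hp.1 (i := 0) i (by omega)
  have h2 := dist_le_steps hT hp.1 (i := i) k hj
  have h3 := dist_le_steps hT hp.1 (i := i + k) (n - (i + k)) (by omega)
  rw [show i + k + (n - (i + k)) = n by omega] at h3
  rw [Nat.zero_add] at h1
  have t1 : G.dist (p 0) (p n) ≤ G.dist (p 0) (p (i + k)) + G.dist (p (i + k)) (p n) :=
    hT.connected.dist_triangle
  have t2 : G.dist (p 0) (p (i + k)) ≤ G.dist (p 0) (p i) + G.dist (p i) (p (i + k)) :=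
    hT.connected.dist_triangle
  have := hp.2
  omega

lemma IsGeod.dist_zero (hT : G.IsTree) {n : ℕ} {p : ℕ → V} (hp : IsGeod G n p) {i : ℕ}
    (hi : i ≤ n) : G.dist (p i) (p 0) = i := by
  rw [G.dist_comm, hp.dist_eq hT (Nat.zero_le i) hi]; omega

/-- neighbours of `y` farther from `o` -/
def children (G : SimpleGraph V) (o y : V) : Set V :=
  {x | G.Adj y x ∧ G.dist y o + 1 = G.dist x o}

section regular

variable (hT : G.IsTree) {q : ℕ} (hd : ∀ v, (G.neighborSet v).ncard = q + 1)

include hT hd in
lemma ncard_children (o y : V) :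
    (children G o y).ncard = if G.dist y o = 0 then q + 1 else q := by
  split_ifs with h0
  · have e : children G o y = G.neighborSet y := by
      ext x
      refine ⟨fun h => h.1, fun hx => ⟨hx, ?_⟩⟩
      rcases adj_cases hT hx o with h | h
      · omega
      · exact h
    rw [e, hd]
  · obtain ⟨z, hz, hz'⟩ := exists_toward hT (show y ≠ o by intro e; subst e; simp at h0)
    have e : children G o y = G.neighborSet y \ {z} := by
      ext x
      constructor
      · rintro ⟨hx, hx'⟩
        exact ⟨hx, fun e => by simp only [Set.mem_singleton_iff] at e; subst e; omega⟩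
      · rintro ⟨hx, hxz⟩
        refine ⟨hx, ?_⟩
        rcases adj_cases hT hx o with h | h
        · exact absurd (toward_unique hT hx hz h hz') hxz
        · exact h
    rw [e, Set.ncard_sdiff_singleton_of_mem (show z ∈ G.neighborSet y from hz), hd]
    omega

include hd in
lemma children_finite (o y : V) : (children G o y).Finite :=
  (nb_finite hd y).subset (fun _ hx => hx.1)

include hT hd in
/-- transitivity of the automorphism group on geodesics of length `n` -/
theorem exists_iso_path (n : ℕ) (p p2 : ℕ → V)
    (hp : ∀ i < n, G.Adj (p i) (p (i + 1))) (hpd : G.dist (p 0) (p n) = n)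
    (hp2 : ∀ i < n, G.Adj (p2 i) (p2 (i + 1))) (hp2d : G.dist (p2 0) (p2 n) = n) :
    ∃ g : G ≃g G, ∀ i ≤ n, g (p i) = p2 i := by
  have hP : IsGeod G n p := ⟨hp, hpd⟩
  have hP2 : IsGeod G n p2 := ⟨hp2, hp2d⟩
  set o := p 0 with ho
  set o' := p2 0 with ho'
  have : Nonempty V := ⟨o⟩
  -- bijections between children that respect the two paths
  have he : ∀ y y' : V, ∃ f : V → V, G.dist y o = G.dist y' o' →
      Set.BijOn f (children G o y) (children G o' y') ∧
      ∀ i < n, y = p i → y' = p2 i → f (p (i + 1)) = p2 (i + 1) := by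
    intro y y'
    by_cases heq : G.dist y o = G.dist y' o'
    swap
    · exact ⟨id, fun h => absurd h heq⟩
    obtain ⟨f0, hf0⟩ := (children_finite hd o y).exists_bijOn_of_encard_eq
      (t := children G o' y') (by
        rw [← (children_finite hd o y).cast_ncard_eq,
          ← (children_finite hd o' y').cast_ncard_eq, ncard_children hT hd,
          ncard_children hT hd, heq])
    by_cases hi : ∃ i, i < n ∧ y = p i ∧ y' = p2 i
    · obtain ⟨i, hin, rfl, rfl⟩ := hi
      have hm : p (i + 1) ∈ children G o (p i) := ⟨hp i hin, by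
        rw [hP.dist_zero hT (by omega : i + 1 ≤ n), hP.dist_zero hT (by omega : i ≤ n)]⟩
      have hm2 : p2 (i + 1) ∈ children G o' (p2 i) := ⟨hp2 i hin, by
        rw [hP2.dist_zero hT (by omega : i + 1 ≤ n), hP2.dist_zero hT (by omega : i ≤ n)]⟩
      refine ⟨fun x => Equiv.swap (f0 (p (i + 1))) (p2 (i + 1)) (f0 x), fun _ => ⟨?_, ?_⟩⟩
      · exact (Equiv.bijOn_swap (hf0.mapsTo hm) hm2).comp hf0
      · intro j hj hyj _
        have : j = i := by
          have h1 := hP.dist_zero hT (by omega : i ≤ n)
          have h2 := hP.dist_zero hT (by omega : j ≤ n)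
          rw [hyj, h2] at h1
          exact h1
        subst this
        exact Equiv.swap_apply_left _ _
    · exact ⟨f0, fun _ => ⟨hf0, fun i hin h1 h2 => absurd ⟨i, hin, h1, h2⟩ hi⟩⟩
  choose e he using he
  have hpar : ∀ x, ∃ y, x ≠ o → G.Adj x y ∧ G.dist y o + 1 = G.dist x o := by
    intro x
    by_cases hx : x = o
    · exact ⟨x, fun h => absurd hx h⟩
    · obtain ⟨y, hy⟩ := exists_toward hT hx
      exact ⟨y, fun _ => hy⟩
  choose par hpar using hpar
  let F : ℕ → V → V := fun m => Nat.rec (fun _ => o') (fun _ Fm x => e (par x) (Fm (par x)) x) m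
  let f : V → V := fun x => F (G.dist x o) x
  have f_o : f o = o' := by
    show F (G.dist o o) o = o'
    rw [SimpleGraph.dist_self]
    rfl
  have f_step : ∀ x, x ≠ o → f x = e (par x) (f (par x)) x := by
    intro x hx
    show F (G.dist x o) x = e (par x) (F (G.dist (par x) o) (par x)) x
    rw [← (hpar x hx).2]
  have memc : ∀ x, x ≠ o → x ∈ children G o (par x) := fun x hx =>
    ⟨(hpar x hx).1.symm, (hpar x hx).2⟩
  have fdist : ∀ m x, G.dist x o = m → G.dist (f x) o' = m := by
    intro m
    induction m with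
    | zero =>
      intro x hx
      rw [hT.connected.dist_eq_zero_iff] at hx
      rw [hx, f_o, SimpleGraph.dist_self]
    | succ m ih =>
      intro x hx
      have hxo : x ≠ o := by intro e; rw [e, SimpleGraph.dist_self] at hx; omega
      have h1 : G.dist (par x) o = m := by have := (hpar x hxo).2; omega
      have h2 := ((he _ (f (par x)) (by rw [h1, ih _ h1])).1.mapsTo (memc x hxo)).2
      rw [← f_step x hxo] at h2
      have := ih _ h1
      omega
  have fd : ∀ x, G.dist x o = G.dist (f x) o' := fun x => (fdist _ x rfl).symm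
  have bij : ∀ y, Set.BijOn (e y (f y)) (children G o y) (children G o' (f y)) :=
    fun y => (he y (f y) (fd y)).1
  have fc : ∀ x, x ≠ o → f x ∈ children G o' (f (par x)) := fun x hx => by
    rw [f_step x hx]; exact (bij _).mapsTo (memc x hx)
  have inj : ∀ m x z, G.dist x o = m → f x = f z → x = z := by
    intro m
    induction m with
    | zero =>
      intro x z hx hfx
      have h := fd z
      rw [← hfx, ← fd x, hx, hT.connected.dist_eq_zero_iff] at h
      rw [hT.connected.dist_eq_zero_iff] at hx
      rw [h, hx]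
    | succ m ih =>
      intro x z hx hfx
      have hz : G.dist z o = m + 1 := by rw [fd z, ← hfx, ← fd x, hx]
      have hxo : x ≠ o := by intro e; rw [e, SimpleGraph.dist_self] at hx; omega
      have hzo : z ≠ o := by intro e; rw [e, SimpleGraph.dist_self] at hz; omega
      have c1 := fc x hxo
      have c2 := fc z hzo
      rw [← hfx] at c2
      have h1 : f (par x) = f (par z) := toward_unique hT c1.1.symm c2.1.symm c1.2 c2.2
      have h2 : par x = par z := ih _ _ (by have := (hpar x hxo).2; omega) h1
      refine (bij (par x)).injOn (memc x hxo) (h2 ▸ memc z hzo) ?_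
      rw [← f_step x hxo, hfx, f_step z hzo, h2]
  have surj : ∀ m z, G.dist z o' = m → ∃ x, f x = z := by
    intro m
    induction m with
    | zero => intro z hz; exact ⟨o, by rw [f_o, ((hT.connected.dist_eq_zero_iff).1 hz)]⟩
    | succ m ih =>
      intro z hz
      obtain ⟨z', ha, hz'⟩ := exists_toward hT (show z ≠ o' by
        intro e; rw [e, SimpleGraph.dist_self] at hz; omega)
      obtain ⟨y, rfl⟩ := ih z' (by omega)
      obtain ⟨x, hx, hxz⟩ := (bij y).surjOn (show z ∈ children G o' (f y) from ⟨ha.symm, hz'⟩)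
      have hxo : x ≠ o := by
        intro e; have := hx.2; rw [e, SimpleGraph.dist_self] at this; omega
      have : par x = y := toward_unique hT (hpar x hxo).1 hx.1.symm (hpar x hxo).2 hx.2
      exact ⟨x, by rw [f_step x hxo, this, hxz]⟩
  have adj1 : ∀ x y, G.Adj x y → G.dist y o + 1 = G.dist x o → G.Adj (f x) (f y) := by
    intro x y ha h
    have hxo : x ≠ o := by intro e; rw [e, SimpleGraph.dist_self] at h; omega
    have : par x = y := toward_unique hT (hpar x hxo).1 ha (hpar x hxo).2 h
    exact (this ▸ (fc x hxo).1).symm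
  have fbij : Function.Bijective f :=
    ⟨fun x z h => inj _ x z rfl h, fun z => surj _ z rfl⟩
  have adj_iff : ∀ x y, G.Adj (f x) (f y) ↔ G.Adj x y := by
    intro x y
    constructor
    · intro ha
      have key : ∀ a b, G.Adj (f a) (f b) → G.dist (f b) o' + 1 = G.dist (f a) o' → G.Adj a b := by
        intro a b hab h
        have hao : a ≠ o := by
          intro e; rw [← fd a, e, SimpleGraph.dist_self] at h; omega
        have := toward_unique hT (fc a hao).1.symm hab (fc a hao).2 h
        rw [← fbij.1 this]
        exact (hpar a hao).1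
      rcases adj_cases hT ha o' with h | h
      · exact key x y ha h
      · exact (key y x ha.symm h).symm
    · intro ha
      rcases adj_cases hT ha o with h | h
      · exact adj1 x y ha h
      · exact (adj1 y x ha.symm h).symm
  refine ⟨⟨Equiv.ofBijective f fbij, fun {a b} => adj_iff a b⟩, ?_⟩
  intro i hi
  show f (p i) = p2 i
  induction i with
  | zero => exact f_o
  | succ i ih =>
    have h1 := ih (by omega)
    have d1 := hP.dist_zero hT (by omega : i ≤ n)
    have d2 := hP.dist_zero hT hi
    rw [← ho] at d1 d2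
    have hne : p (i + 1) ≠ o := by intro e; rw [e, SimpleGraph.dist_self] at d2; omega
    have hpe : par (p (i + 1)) = p i :=
      toward_unique hT (hpar _ hne).1 (hp i (by omega)).symm (hpar _ hne).2 (by omega)
    rw [f_step _ hne, hpe, h1]
    exact (he (p i) (p2 i) (by rw [d1, hP2.dist_zero hT (by omega : i ≤ n)])).2 i (by omega) rfl rfl

include hT in
/-- the geodesic `a, b, …, d` through an edge `ab` -/
lemma exists_geod_through {a b : V} (hab : G.Adj a b) : ∀ (m : ℕ) (d : V),
    G.dist d b = m → G.dist d a = m + 1 →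
    ∃ p : ℕ → V, IsGeod G (m + 1) p ∧ p 0 = a ∧ p 1 = b ∧ p (m + 1) = d := by
  intro m
  induction m with
  | zero =>
    intro d hdb hda
    rw [hT.connected.dist_eq_zero_iff] at hdb
    subst hdb
    refine ⟨fun i => if i = 0 then a else d, ⟨?_, ?_⟩, rfl, rfl, rfl⟩
    · intro i hi
      obtain rfl : i = 0 := by omega
      simpa using hab
    · simpa [SimpleGraph.dist_eq_one_iff_adj] using hab
  | succ m ih =>
    intro d hdb hda
    obtain ⟨d', ha, hd'⟩ := exists_toward hT (show d ≠ b by
      intro e; rw [e, SimpleGraph.dist_self] at hdb; omega)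
    have hd'a : G.dist d' a = m + 1 := by
      have t1 : G.dist d' a ≤ G.dist d' b + G.dist b a := hT.connected.dist_triangle
      have t2 : G.dist d a ≤ G.dist d d' + G.dist d' a := hT.connected.dist_triangle
      rw [SimpleGraph.dist_eq_one_iff_adj.2 hab.symm] at t1
      rw [SimpleGraph.dist_eq_one_iff_adj.2 ha] at t2
      omega
    obtain ⟨p, hp, h0, h1, hm⟩ := ih d' (by omega) hd'a
    refine ⟨fun i => if i ≤ m + 1 then p i else d, ⟨?_, ?_⟩, by simp [h0], by simp [h1], by simp⟩
    · intro i hi
      by_cases h : i + 1 ≤ m + 1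
      · simpa [h, (by omega : i ≤ m + 1)] using hp.1 i (by omega)
      · obtain rfl : i = m + 1 := by omega
        simpa [hm] using ha.symm
    · have : G.dist a d = m + 1 + 1 := by rw [G.dist_comm]; omega
      simpa [h0] using this

lemma IsGeod.rev {n : ℕ} {p : ℕ → V} (hp : IsGeod G n p) : IsGeod G n (fun i => p (n - i)) := by
  refine ⟨fun i hi => ?_, ?_⟩
  · have := (hp.1 (n - (i + 1)) (by omega)).symm
    rwa [show n - (i + 1) + 1 = n - i by omega] at this
  · simpa [G.dist_comm] using hp.2

include hT hd in
/-- there are at least `q ^ m` continuations of length `m` of a directed edge -/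
lemma exists_continuations {a b : V} (hab : G.Adj a b) : ∀ m : ℕ,
    ∃ F : Finset V, (∀ d ∈ F, G.dist d b = m ∧ G.dist d a = m + 1) ∧ q ^ m ≤ F.card := by
  intro m
  induction m with
  | zero =>
    refine ⟨{b}, fun d hd' => ?_, by simp⟩
    rw [Finset.mem_singleton] at hd'
    subst hd'
    exact ⟨SimpleGraph.dist_self, SimpleGraph.dist_eq_one_iff_adj.2 hab.symm⟩
  | succ m ih =>
    obtain ⟨F, hF, hc⟩ := ih
    refine ⟨F.biUnion (fun d => (children_finite hd a d).toFinset), ?_, ?_⟩
    · intro x hx
      obtain ⟨d, hdF, hx⟩ := Finset.mem_biUnion.1 hx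
      rw [Set.Finite.mem_toFinset] at hx
      obtain ⟨h1, h2⟩ := hF d hdF
      have h3 := hx.2
      refine ⟨?_, by omega⟩
      rcases adj_cases hT hx.1 b with h | h
      · have t : G.dist x a ≤ G.dist x b + G.dist b a := hT.connected.dist_triangle
        rw [SimpleGraph.dist_eq_one_iff_adj.2 hab.symm] at t
        omega
      · omega
    · rw [Finset.card_biUnion]
      · rw [Finset.sum_congr rfl (fun d hd' => show _ = q by
          rw [← Set.ncard_eq_toFinset_card _ (children_finite hd a d), ncard_children hT hd, if_neg]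
          have := (hF d hd').2; omega), Finset.sum_const, smul_eq_mul, pow_succ]
        exact Nat.mul_le_mul_right q hc
      · intro d _ d' _ hne
        rw [Function.onFun, Finset.disjoint_left]
        intro x hx hx'
        rw [Set.Finite.mem_toFinset] at hx hx'
        exact hne (toward_unique hT hx.1.symm hx'.1.symm hx.2 hx'.2)

include hT hd in
/-- the weighted sphere sum -/
lemma sum_sphere_le (hq : 1 ≤ q) : ∀ (j : ℕ) (v o : V), G.dist v o = j →
    ∀ (m : ℕ) (W : Finset V), (∀ w ∈ W, G.dist w o = m) →
    ∑ w ∈ W, ((Real.sqrt q)⁻¹) ^ G.dist v w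
      ≤ 2 * ((min j m : ℕ) + 1) * Real.sqrt q ^ m * ((Real.sqrt q)⁻¹) ^ j := by
  have hs : 0 < Real.sqrt q := Real.sqrt_pos.2 (by exact_mod_cast hq)
  have hqs : (q : ℝ) = Real.sqrt q * Real.sqrt q := (Real.mul_self_sqrt (Nat.cast_nonneg q)).symm
  set r := (Real.sqrt q)⁻¹ with hr
  have hr0 : 0 < r := inv_pos.2 hs
  have hrs : r * Real.sqrt q = 1 := inv_mul_cancel₀ hs.ne'
  intro j
  induction j with
  | zero =>
    intro v o hvo m W hW
    rw [hT.connected.dist_eq_zero_iff] at hvo
    subst hvo
    rw [Finset.sum_congr rfl (fun w hw => by rw [G.dist_comm, hW w hw]), Finset.sum_const,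
      nsmul_eq_mul]
    calc (W.card : ℝ) * r ^ m ≤ 2 * (q : ℝ) ^ m * r ^ m :=
          mul_le_mul_of_nonneg_right (card_shell_le hT hd hq v m W hW) (by positivity)
      _ = 2 * Real.sqrt q ^ m * (r * Real.sqrt q) ^ m := by rw [hqs, mul_pow, mul_pow, ← hqs]; ring
      _ = _ := by simp [hrs]
  | succ j ih =>
    intro v o hvo m W hW
    obtain ⟨v', ha, hv'⟩ := exists_toward hT (show v ≠ o by
      intro e; rw [e, SimpleGraph.dist_self] at hvo; omega)
    rw [← Finset.sum_filter_add_sum_filter_not W (fun w => G.dist v' w + 1 = G.dist v w)]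
    have h1 : ∑ w ∈ W with G.dist v' w + 1 = G.dist v w, r ^ G.dist v w
        ≤ 2 * ((min j m : ℕ) + 1) * Real.sqrt q ^ m * r ^ (j + 1) := by
      refine le_trans (le_of_eq ?_) (le_trans (mul_le_mul_of_nonneg_left
        (ih v' o (by omega) m (W.filter (fun w => G.dist v' w + 1 = G.dist v w))
          (fun w hw => hW w (Finset.mem_filter.1 hw).1)) hr0.le) (le_of_eq ?_))
      · rw [Finset.mul_sum]
        refine Finset.sum_congr rfl (fun w hw => ?_)
        rw [← (Finset.mem_filter.1 hw).2, pow_succ]; ring
      · rw [pow_succ]; ring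
    set W2 := W.filter (fun w => ¬ (G.dist v' w + 1 = G.dist v w)) with hW2
    have hd2 : ∀ w ∈ W2, G.dist w v + (j + 1) = m := by
      intro w hw
      obtain ⟨hw1, hw2⟩ := Finset.mem_filter.1 hw
      rcases adj_cases hT ha w with h | h
      · exact absurd h hw2
      · have := dist_through hT (G.dist v o) v v' o rfl ha hv' h
        rw [hW w hw1] at this
        omega
    by_cases hjm : j + 1 ≤ m
    · have h2 : ∑ w ∈ W2, r ^ G.dist v w ≤ 2 * Real.sqrt q ^ m * r ^ (j + 1) := by
        obtain ⟨k, rfl⟩ := Nat.exists_eq_add_of_le hjm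
        have hk : ∀ w ∈ W2, G.dist w v = k := fun w hw => by have := hd2 w hw; omega
        rw [Finset.sum_congr rfl (fun w hw => by rw [G.dist_comm, hk w hw]), Finset.sum_const,
          nsmul_eq_mul]
        calc (W2.card : ℝ) * r ^ k ≤ 2 * (q : ℝ) ^ k * r ^ k :=
              mul_le_mul_of_nonneg_right (card_shell_le hT hd hq v k W2 hk) (by positivity)
          _ = 2 * Real.sqrt q ^ k * (r * Real.sqrt q) ^ k := by
              rw [hqs, mul_pow, mul_pow, ← hqs]; ring
          _ = 2 * Real.sqrt q ^ k * (r * Real.sqrt q) ^ (j + 1) := by simp [hrs]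
          _ = _ := by rw [mul_pow, pow_add]; ring
      rw [show min j m = j by omega] at h1
      rw [show min (j + 1) m = j + 1 by omega]
      push_cast
      calc _ ≤ 2 * ((j : ℝ) + 1) * Real.sqrt q ^ m * r ^ (j + 1)
            + 2 * Real.sqrt q ^ m * r ^ (j + 1) := add_le_add h1 h2
        _ = _ := by ring
    · have : W2 = ∅ := Finset.eq_empty_of_forall_notMem (fun w hw => by have := hd2 w hw; omega)
      rw [this, Finset.sum_empty, add_zero, show min (j + 1) m = m by omega]
      rwa [show min j m = m by omega] at h1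

end regular

end Vale.Agent.P161
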