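import Mathlib

/-!
One noisy observation: the affine density `1 + a (2x - 1)` on `[0,1]`, its distribution
function `Fv a` and its quantile function `Qv a`.
-/

open MeasureTheory Set

noncomputable section

namespace Vale.Agent.P161

/-- clamp to `[0,1]` -/
def cl (x : ℝ) : ℝ := max 0 (min 1 x)

/-- centred coordinate, in `[-1,1]` -/
def cc (x : ℝ) : ℝ := 2 * cl x - 1

/-- clamp to `[-1/2,1/2]` -/
def clh (a : ℝ) : ℝ := max (-(1/2)) (min (1/2) a)

lemma cl_mem (x : ℝ) : 0 ≤ cl x ∧ cl x ≤ 1 :=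
  ⟨le_max_left _ _, max_le zero_le_one (min_le_left _ _)⟩

lemma cl_of_mem {x : ℝ} (h : x ∈ Icc (0:ℝ) 1) : cl x = x := by
  simp [cl, min_eq_right h.2, max_eq_right h.1]

lemma cl_idem (x : ℝ) : cl (cl x) = cl x := cl_of_mem ⟨(cl_mem x).1, (cl_mem x).2⟩

lemma abs_cc (x : ℝ) : |cc x| ≤ 1 := by
  rw [abs_le, cc]; constructor <;> linarith [(cl_mem x).1, (cl_mem x).2]

lemma abs_cl_sub_le (x y : ℝ) : |cl x - cl y| ≤ |x - y| :=
  (abs_max_sub_max_le_max _ _ _ _).trans
    (max_le (by simp) ((abs_min_sub_min_le_max _ _ _ _).trans (max_le (by simp) le_rfl)))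

lemma abs_cl_sub_le_one (x y : ℝ) : |cl x - cl y| ≤ 1 := by
  rw [abs_le]; constructor <;> linarith [(cl_mem x).1, (cl_mem x).2, (cl_mem y).1, (cl_mem y).2]

lemma cc_sub (x y : ℝ) : cc x - cc y = 2 * (cl x - cl y) := by
  unfold cc; ring

lemma clh_mem (a : ℝ) : -(1/2) ≤ clh a ∧ clh a ≤ 1/2 :=
  ⟨le_max_left _ _, max_le (by norm_num) (min_le_left _ _)⟩

lemma clh_of_abs_le {a : ℝ} (h : |a| ≤ 1/2) : clh a = a := by
  simp only [clh]
  rw [min_eq_right (abs_le.1 h).2, max_eq_right (abs_le.1 h).1]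

lemma abs_clh_sub_le (x y : ℝ) : |clh x - clh y| ≤ |x - y| :=
  (abs_max_sub_max_le_max _ _ _ _).trans
    (max_le (by simp) ((abs_min_sub_min_le_max _ _ _ _).trans (max_le (by simp) le_rfl)))

/-- distribution function of the density `1 + a (2x-1)` on `[0,1]` -/
def Fv (a x : ℝ) : ℝ := x + a * (x ^ 2 - x)

/-- quantile function of the same density -/
def Qv (a z : ℝ) : ℝ :=
  2 * cl z / ((1 - clh a) + Real.sqrt ((1 - clh a) ^ 2 + 4 * clh a * cl z))

lemma disc_nonneg (a z : ℝ) : 0 ≤ (1 - clh a) ^ 2 + 4 * clh a * cl z := by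
  have h1 := clh_mem a
  have h2 := cl_mem z
  rcases le_total 0 (clh a) with h | h
  · positivity [h2.1]
  · nlinarith [mul_nonneg (neg_nonneg.2 h) (sub_nonneg.2 h2.2), sq_nonneg (1 + clh a)]

lemma den_pos (a z : ℝ) :
    0 < (1 - clh a) + Real.sqrt ((1 - clh a) ^ 2 + 4 * clh a * cl z) := by
  linarith [(clh_mem a).2, Real.sqrt_nonneg ((1 - clh a) ^ 2 + 4 * clh a * cl z)]

lemma Qv_mem (a z : ℝ) : Qv a z ∈ Icc (0:ℝ) 1 := by
  have hd := den_pos a z
  have h1 := clh_mem a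
  have h2 := cl_mem z
  constructor
  · exact div_nonneg (by linarith [h2.1]) hd.le
  · rw [Qv, div_le_one hd]
    by_cases h : 2 * cl z ≤ 1 - clh a
    · linarith [Real.sqrt_nonneg ((1 - clh a) ^ 2 + 4 * clh a * cl z)]
    · push Not at h
      have : 2 * cl z - (1 - clh a) ≤ Real.sqrt ((1 - clh a) ^ 2 + 4 * clh a * cl z) := by
        apply Real.le_sqrt_of_sq_le
        nlinarith [mul_nonneg h2.1 (sub_nonneg.2 h2.2)]
      linarith

lemma Fv_Qv (a z : ℝ) : Fv (clh a) (Qv a z) = cl z := by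
  have hd := (den_pos a z).ne'
  have hs := Real.sq_sqrt (disc_nonneg a z)
  set s := Real.sqrt ((1 - clh a) ^ 2 + 4 * clh a * cl z) with hs'
  set A := clh a
  set Z := cl z
  have : Qv a z = 2 * Z / ((1 - A) + s) := rfl
  rw [this, Fv]
  field_simp
  linear_combination (-Z) * hs

lemma Fv_sub (a x y : ℝ) : Fv a x - Fv a y = (x - y) * (1 + a * (x + y - 1)) := by
  unfold Fv; ring

lemma Fv_expand {a x y : ℝ} (ha : |a| ≤ 1/2) (hx : x ∈ Icc (0:ℝ) 1) (hy : y ∈ Icc (0:ℝ) 1) :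
    |x - y| / 2 ≤ |Fv a x - Fv a y| := by
  rw [Fv_sub, abs_mul]
  have h : 1/2 ≤ 1 + a * (x + y - 1) := by
    have : |a * (x + y - 1)| ≤ 1/2 := by
      rw [abs_mul]
      have : |x + y - 1| ≤ 1 := by
        rw [abs_le]; constructor <;> linarith [hx.1, hx.2, hy.1, hy.2]
      calc |a| * |x + y - 1| ≤ (1/2) * 1 := mul_le_mul ha this (abs_nonneg _) (by norm_num)
        _ = 1/2 := by norm_num
    linarith [(abs_le.1 this).1]
  rw [abs_of_pos (by linarith : 0 < 1 + a * (x + y - 1))]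
  nlinarith [abs_nonneg (x - y)]

lemma abs_sq_sub_self {x : ℝ} (hx : x ∈ Icc (0:ℝ) 1) : |x ^ 2 - x| ≤ 1/4 := by
  rw [abs_le]
  constructor <;> nlinarith [sq_nonneg (x - 1/2), mul_nonneg hx.1 (sub_nonneg.2 hx.2)]

lemma Fv_mem {a x : ℝ} (ha : |a| ≤ 1/2) (hx : x ∈ Icc (0:ℝ) 1) : Fv a x ∈ Icc (0:ℝ) 1 := by
  unfold Fv
  constructor <;>
    nlinarith [abs_le.1 ha, mul_nonneg hx.1 (sub_nonneg.2 hx.2), hx.1, hx.2]

lemma Qv_Fv {a x : ℝ} (ha : |a| ≤ 1/2) (hx : x ∈ Icc (0:ℝ) 1) : Qv a (Fv a x) = x := by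
  have h := Fv_Qv a (Fv a x)
  rw [clh_of_abs_le ha, cl_of_mem (Fv_mem ha hx)] at h
  have h2 := Fv_expand ha (Qv_mem a (Fv a x)) hx
  rw [h, sub_self, abs_zero] at h2
  have := abs_nonneg (Qv a (Fv a x) - x)
  have : |Qv a (Fv a x) - x| = 0 := by linarith
  exact sub_eq_zero.1 (abs_eq_zero.1 this)

lemma Qv_lip (a a' z z' : ℝ) :
    |Qv a z - Qv a' z'| ≤ 2 * |cl z - cl z'| + |a - a'| / 2 := by
  have h := Fv_expand (a := clh a) (abs_le.2 (clh_mem a)) (Qv_mem a z) (Qv_mem a' z')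
  have e : Fv (clh a) (Qv a z) - Fv (clh a) (Qv a' z')
      = (cl z - cl z') + (clh a' - clh a) * (Qv a' z' ^ 2 - Qv a' z') := by
    rw [← Fv_Qv a z, ← Fv_Qv a' z']
    unfold Fv; ring
  rw [e] at h
  have h2 := abs_add_le (cl z - cl z') ((clh a' - clh a) * (Qv a' z' ^ 2 - Qv a' z'))
  rw [abs_mul, abs_sub_comm (clh a') (clh a)] at h2
  have h3 : |clh a - clh a'| * |Qv a' z' ^ 2 - Qv a' z'| ≤ |a - a'| * (1/4) :=
    mul_le_mul (abs_clh_sub_le a a') (abs_sq_sub_self (Qv_mem a' z')) (abs_nonneg _) (abs_nonneg _)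
  linarith

lemma continuous_cl : Continuous cl := by unfold cl; fun_prop

lemma continuous_Qv : Continuous (fun p : ℝ × ℝ => Qv p.1 p.2) := by
  unfold Qv
  refine Continuous.div ?_ ?_ (fun p => (den_pos p.1 p.2).ne')
  · exact (continuous_const.mul (continuous_cl.comp continuous_snd))
  · have : Continuous (fun p : ℝ × ℝ => cl p.2) := continuous_cl.comp continuous_snd
    unfold clh
    fun_prop

lemma measurable_Qv {α : Type*} [MeasurableSpace α] {f g : α → ℝ} (hf : Measurable f)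
    (hg : Measurable g) : Measurable (fun x => Qv (f x) (g x)) :=
  continuous_Qv.measurable.comp (hf.prodMk hg)

lemma measurable_cc : Measurable cc := by
  have := continuous_cl.measurable
  unfold cc
  fun_prop

/-- uniform law on `[0,1]`, as a measure on `ℝ` -/
def lam : Measure ℝ := volume.restrict (Icc 0 1)

instance : IsProbabilityMeasure lam := ⟨by simp [lam]⟩

lemma ae_mem_lam : ∀ᵐ y ∂lam, y ∈ Icc (0:ℝ) 1 := ae_restrict_mem measurableSet_Icc

/-- the law of `Qv a U` for uniform `U` has density `1 + a cc` -/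
lemma integral_Qv {a : ℝ} (ha : |a| ≤ 1/2) (g : ℝ → ℝ) :
    ∫ z, g (Qv a z) ∂lam = ∫ x, g x * (1 + a * cc x) ∂lam := by
  have him : Fv a '' Icc (0:ℝ) 1 = Icc (0:ℝ) 1 := by
    apply Subset.antisymm
    · rintro _ ⟨x, hx, rfl⟩; exact Fv_mem ha hx
    · intro z hz
      refine ⟨Qv a z, Qv_mem a z, ?_⟩
      have := Fv_Qv a z
      rwa [clh_of_abs_le ha, cl_of_mem hz] at this
  have hder : ∀ x ∈ Icc (0:ℝ) 1,
      HasDerivWithinAt (Fv a) (1 + a * (2 * x - 1)) (Icc (0:ℝ) 1) x := by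
    intro x _
    have h : HasDerivAt (Fv a) (1 + a * (2 * x - 1)) x := by
      unfold Fv
      have h1 := ((hasDerivAt_pow 2 x).sub (hasDerivAt_id x)).const_mul a
      refine ((hasDerivAt_id x).add h1).congr_deriv ?_
      simp
    exact h.hasDerivWithinAt
  have hinj : InjOn (Fv a) (Icc (0:ℝ) 1) := by
    intro x hx y hy h
    have h2 := Fv_expand ha hx hy
    rw [h, sub_self, abs_zero] at h2
    have : |x - y| = 0 := le_antisymm (by linarith) (abs_nonneg _)
    exact sub_eq_zero.1 (abs_eq_zero.1 this)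
  unfold lam
  conv_lhs => rw [← him]
  rw [integral_image_eq_integral_abs_deriv_smul measurableSet_Icc hder hinj]
  refine setIntegral_congr_fun measurableSet_Icc (fun x hx => ?_)
  have hpos : 0 ≤ 1 + a * (2 * x - 1) := by
    nlinarith [abs_le.1 ha, hx.1, hx.2]
  simp only [smul_eq_mul, abs_of_nonneg hpos, Qv_Fv ha hx, cc, cl_of_mem hx]
  ring

lemma integral_cc : ∫ x, cc x ∂lam = 0 := by
  unfold lam
  rw [setIntegral_congr_fun measurableSet_Icc (g := fun x => 2 * x - 1)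
    (fun x hx => by simp [cc, cl_of_mem hx]), integral_Icc_eq_integral_Ioc,
    ← intervalIntegral.integral_of_le zero_le_one]
  rw [intervalIntegral.integral_sub (by apply Continuous.intervalIntegrable; fun_prop)
    (by simp), intervalIntegral.integral_const_mul]
  simp

lemma integral_cc_sq : ∫ x, cc x ^ 2 ∂lam = 1 / 3 := by
  unfold lam
  rw [setIntegral_congr_fun measurableSet_Icc (g := fun x => (2 * x - 1) ^ 2)
    (fun x hx => by simp [cc, cl_of_mem hx]), integral_Icc_eq_integral_Ioc,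
    ← intervalIntegral.integral_of_le zero_le_one,
    intervalIntegral.integral_comp_mul_sub (fun x => x ^ 2) (two_ne_zero) 1, integral_pow]
  norm_num

end Vale.Agent.P161
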