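import Mathlib
import Vale.Agent.P161.Noise

/-!
The product of uniform laws on `[0,1]`, one-coordinate Fubini, and the variance bound for
coordinatewise Lipschitz functions.
-/

open MeasureTheory Set Function
open scoped Classical

noncomputable section

namespace Vale.Agent.P161

variable {ι : Type*}

lemma abs_integral_lam_le {f : ℝ → ℝ} {C : ℝ} (h : ∀ y, |f y| ≤ C) : |∫ y, f y ∂lam| ≤ C := by
  simpa [Real.norm_eq_abs, probReal_univ] using norm_integral_le_of_norm_le_const (μ := lam) (C := C) (f := f)
    (ae_of_all _ h)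

/-- i.i.d. uniform law on `[0,1]` indexed by `ι` -/
def PU (ι : Type*) : Measure (ι → ℝ) := Measure.infinitePi (fun _ : ι => lam)

instance : IsProbabilityMeasure (PU ι) := by unfold PU; infer_instance

/-- bounded measurable functions -/
def BM {α : Type*} [MeasurableSpace α] (F : α → ℝ) : Prop := Measurable F ∧ ∃ C, ∀ x, |F x| ≤ C

section BM
variable {α : Type*} [MeasurableSpace α] {F G : α → ℝ}

lemma BM.integrable (h : BM F) (μ : Measure α) [IsFiniteMeasure μ] : Integrable F μ := by
  obtain ⟨C, hC⟩ := h.2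
  exact Integrable.of_bound h.1.aestronglyMeasurable C (ae_of_all _ (by simpa using hC))

lemma BM.const (c : ℝ) : BM (fun _ : α => c) := ⟨measurable_const, |c|, fun _ => le_rfl⟩

lemma BM.add (hF : BM F) (hG : BM G) : BM (fun x => F x + G x) := by
  obtain ⟨C, hC⟩ := hF.2
  obtain ⟨D, hD⟩ := hG.2
  exact ⟨hF.1.add hG.1, C + D, fun x => (abs_add_le _ _).trans (add_le_add (hC x) (hD x))⟩

lemma BM.sub (hF : BM F) (hG : BM G) : BM (fun x => F x - G x) := by
  obtain ⟨C, hC⟩ := hF.2
  obtain ⟨D, hD⟩ := hG.2
  exact ⟨hF.1.sub hG.1, C + D, fun x => (abs_sub _ _).trans (add_le_add (hC x) (hD x))⟩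

lemma BM.mul (hF : BM F) (hG : BM G) : BM (fun x => F x * G x) := by
  obtain ⟨C, hC⟩ := hF.2
  obtain ⟨D, hD⟩ := hG.2
  refine ⟨hF.1.mul hG.1, C * D, fun x => ?_⟩
  rw [abs_mul]
  exact mul_le_mul (hC x) (hD x) (abs_nonneg _) ((abs_nonneg _).trans (hC x))

lemma BM.sq (hF : BM F) : BM (fun x => F x ^ 2) := by
  have := hF.mul hF
  simpa [pow_two] using this

lemma BM.abs (hF : BM F) : BM (fun x => |F x|) := by
  obtain ⟨C, hC⟩ := hF.2
  exact ⟨hF.1.abs, C, fun x => by rw [abs_abs]; exact hC x⟩

lemma BM.sum {κ : Type*} (s : Finset κ) {f : κ → α → ℝ} (h : ∀ k ∈ s, BM (f k)) :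
    BM (fun x => ∑ k ∈ s, f k x) := by
  induction s using Finset.induction with
  | empty => simpa using BM.const (α := α) 0
  | insert k s hk ih =>
    simp only [Finset.sum_insert hk]
    exact (h k (Finset.mem_insert_self k s)).add (ih (fun j hj => h j (Finset.mem_insert_of_mem hj)))

lemma BM.prod {κ : Type*} (s : Finset κ) {f : κ → α → ℝ} (h : ∀ k ∈ s, BM (f k)) :
    BM (fun x => ∏ k ∈ s, f k x) := by
  induction s using Finset.induction with
  | empty => simpa using BM.const (α := α) 1
  | insert k s hk ih =>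
    simp only [Finset.prod_insert hk]
    exact (h k (Finset.mem_insert_self k s)).mul (ih (fun j hj => h j (Finset.mem_insert_of_mem hj)))

lemma BM.comp {β : Type*} [MeasurableSpace β] (hF : BM F) {g : β → α} (hg : Measurable g) :
    BM (fun x => F (g x)) := by
  obtain ⟨C, hC⟩ := hF.2
  exact ⟨hF.1.comp hg, C, fun x => hC _⟩

end BM

lemma bm_cc_eval (j : ι) : BM (fun x : ι → ℝ => cc (x j)) :=
  ⟨measurable_cc.comp (measurable_pi_apply j), 1, fun _ => abs_cc _⟩

lemma measurable_upd (j : ι) : Measurable (fun p : (ι → ℝ) × ℝ => update p.1 j p.2) := by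
  apply measurable_pi_lambda
  intro i
  by_cases h : i = j
  · subst h; simpa using measurable_snd
  · simp only [update_of_ne h]; exact (measurable_pi_apply i).comp measurable_fst

lemma map_upd (j : ι) :
    ((PU ι).prod lam).map (fun p => update p.1 j p.2) = PU ι := by
  refine Measure.eq_infinitePi _ (fun s t ht => ?_)
  rw [Measure.map_apply (measurable_upd j) (.pi s.countable_toSet (fun i _ => ht i))]
  by_cases hj : j ∈ s
  · have : (fun p : (ι → ℝ) × ℝ => update p.1 j p.2) ⁻¹' (Set.pi (s : Set ι) t)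
        = (Set.pi ((s.erase j : Finset ι) : Set ι) t) ×ˢ t j := by
      ext p
      simp only [mem_preimage, mem_prod, Set.mem_pi, Finset.mem_coe, Finset.mem_erase]
      constructor
      · intro h
        refine ⟨fun i hi => ?_, ?_⟩
        · simpa [hi.1] using h i hi.2
        · simpa using h j hj
      · intro h i hi
        by_cases he : i = j
        · subst he; simpa using h.2
        · simpa [he] using h.1 i ⟨he, hi⟩
    rw [this, Measure.prod_prod, PU, Measure.infinitePi_pi _ (fun i _ => ht i),
      ← Finset.mul_prod_erase _ _ hj]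
    ring
  · have : (fun p : (ι → ℝ) × ℝ => update p.1 j p.2) ⁻¹' (Set.pi (s : Set ι) t)
        = (Set.pi (s : Set ι) t) ×ˢ Set.univ := by
      ext p
      simp only [mem_preimage, mem_prod, Set.mem_pi, Finset.mem_coe, mem_univ, and_true]
      refine forall₂_congr (fun i hi => ?_)
      have : i ≠ j := fun e => hj (e ▸ hi)
      simp [this]
    rw [this, Measure.prod_prod, measure_univ, mul_one, PU,
      Measure.infinitePi_pi _ (fun i _ => ht i)]

/-- one-coordinate Fubini -/
lemma integral_upd (j : ι) {F : (ι → ℝ) → ℝ} (hF : BM F) :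
    ∫ x, F x ∂PU ι = ∫ x, (∫ y, F (update x j y) ∂lam) ∂PU ι := by
  conv_lhs => rw [← map_upd j]
  rw [integral_map (measurable_upd j).aemeasurable (by exact hF.1.aestronglyMeasurable)]
  exact integral_prod _ (((hF.comp (measurable_upd j)).integrable ((PU ι).prod lam)))

lemma bm_integral_upd (j : ι) {F : (ι → ℝ) → ℝ} (hF : BM F) :
    BM (fun x => ∫ y, F (update x j y) ∂lam) := by
  obtain ⟨C, hC⟩ := hF.2
  refine ⟨?_, C, fun x => ?_⟩
  · exact (StronglyMeasurable.integral_prod_right'
      ((hF.1.comp (measurable_upd j)).stronglyMeasurable)).measurable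
  · have := norm_integral_le_of_norm_le_const (μ := lam) (C := C)
      (f := fun y => F (update x j y)) (ae_of_all _ (fun y => hC _))
    simpa using this

/-- `F` depends only on the coordinates in `s` -/
def Dep (s : Set ι) (F : (ι → ℝ) → ℝ) : Prop := ∀ x x', (∀ i ∈ s, x i = x' i) → F x = F x'

lemma Dep.update {s : Set ι} {F : (ι → ℝ) → ℝ} (h : Dep s F) {j : ι} (hj : j ∉ s)
    (x : ι → ℝ) (y : ℝ) : F (update x j y) = F x :=
  h _ _ (fun i hi => update_of_ne (fun (e : i = j) => hj (e ▸ hi)) _ _)

lemma Dep.mono {s t : Set ι} {F : (ι → ℝ) → ℝ} (h : Dep s F) (hst : s ⊆ t) : Dep t F :=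
  fun x x' he => h x x' (fun i hi => he i (hst hi))

lemma Dep.mul {s : Set ι} {F G : (ι → ℝ) → ℝ} (h : Dep s F) (h' : Dep s G) :
    Dep s (fun x => F x * G x) :=
  fun x x' he => by simp only [h x x' he, h' x x' he]

/-- a function not depending on `x j` is orthogonal to functions with zero mean in `x j` -/
lemma integral_mul_eq_zero (j : ι) {F k : (ι → ℝ) → ℝ} (hF : BM F) (hk : BM k)
    (hki : ∀ x y, k (update x j y) = k x)
    (hF0 : ∀ x, ∫ y, F (update x j y) ∂lam = 0) : ∫ x, F x * k x ∂PU ι = 0 := by
  rw [integral_upd j (hF.mul hk)]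
  simp only [hki, integral_mul_const, hF0, zero_mul, integral_zero]

/-- coordinatewise Lipschitz in the clamped variables -/
def CLip (h : (ι → ℝ) → ℝ) (g : ι → ℝ) : Prop :=
  ∀ x j y, |h (update x j y) - h x| ≤ g j * |cl y - cl (x j)|

lemma CLip.indep {h : (ι → ℝ) → ℝ} {g : ι → ℝ} (hl : CLip h g) {j : ι} (hg : g j = 0)
    (x : ι → ℝ) (y : ℝ) : h (update x j y) = h x := by
  have := hl x j y
  rw [hg, zero_mul] at this
  exact sub_eq_zero.1 (abs_eq_zero.1 (le_antisymm this (abs_nonneg _)))

lemma CLip.diff_le {h : (ι → ℝ) → ℝ} {g : ι → ℝ} (hl : CLip h g) :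
    ∀ (s : Finset ι), Dep (s : Set ι) h → ∀ x x',
      |h x - h x'| ≤ ∑ j ∈ s, g j * |cl (x j) - cl (x' j)| := by
  suffices key : ∀ (s : Finset ι) x x', (∀ i, i ∉ s → x i = x' i) →
      |h x - h x'| ≤ ∑ j ∈ s, g j * |cl (x j) - cl (x' j)| by
    intro s hs x x'
    have e : h x = h (fun i => if i ∈ s then x i else x' i) := hs _ _ (fun i hi => by simp_all)
    rw [e]
    refine (key s _ x' (fun i hi => by simp [hi])).trans
      (le_of_eq (Finset.sum_congr rfl (fun j hj => by simp [hj])))
  intro s
  induction s using Finset.induction with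
  | empty =>
    intro x x' hxx
    have : x = x' := funext (fun i => hxx i (by simp))
    simp [this]
  | insert j s hj ih =>
    intro x x' hxx
    rw [Finset.sum_insert hj]
    have h1 : |h x - h (update x j (x' j))| ≤ g j * |cl (x j) - cl (x' j)| := by
      rw [abs_sub_comm, abs_sub_comm (cl (x j))]
      exact hl x j (x' j)
    have h2 := ih (update x j (x' j)) x' (fun i hi => by
      by_cases he : i = j
      · subst he; simp
      · simpa [he] using hxx i (by simp [he, hi]))
    have h3 : ∑ k ∈ s, g k * |cl (update x j (x' j) k) - cl (x' k)|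
        = ∑ k ∈ s, g k * |cl (x k) - cl (x' k)| :=
      Finset.sum_congr rfl (fun k hk => by
        have : k ≠ j := fun e => hj (e ▸ hk)
        simp [this])
    rw [h3] at h2
    have := abs_sub_le (h x) (h (update x j (x' j))) (h x')
    linarith

/-- the mean of `h` over the coordinates in `T` stays `L²`-close to `h` -/
lemma exists_avg {h : (ι → ℝ) → ℝ} {g : ι → ℝ} (hg : ∀ j, 0 ≤ g j) (hb : BM h) (hl : CLip h g)
    {s : Set ι} (hs : Dep s h) : ∀ T : Finset ι, ∃ h' : (ι → ℝ) → ℝ, BM h' ∧ CLip h' g ∧
      Dep (s \ T) h' ∧ (∀ k, BM k → (∀ j ∈ T, ∀ x y, k (update x j y) = k x) →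
        ∫ x, (h x - h' x) * k x ∂PU ι = 0) ∧
      ∫ x, (h x - h' x) ^ 2 ∂PU ι ≤ ∑ j ∈ T, g j ^ 2 := by
  intro T
  induction T using Finset.induction with
  | empty => exact ⟨h, hb, hl, by simpa using hs, by simp, by simp⟩
  | insert j T hj ih =>
    obtain ⟨h1, hb1, hl1, hd1, horth, hle⟩ := ih
    set h2 : (ι → ℝ) → ℝ := fun x => ∫ y, h1 (update x j y) ∂lam with hh2
    have hb2 : BM h2 := bm_integral_upd j hb1
    have hint : ∀ x, Integrable (fun y => h1 (update x j y)) lam := fun x =>
      (hb1.comp ((measurable_upd j).comp measurable_prodMk_left)).integrable _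
    have hind : ∀ x y, h2 (update x j y) = h2 x := by intro x y; simp [hh2]
    have hl2 : CLip h2 g := by
      intro x i y
      by_cases hij : i = j
      · subst hij
        rw [hind, sub_self, abs_zero]
        exact mul_nonneg (hg i) (abs_nonneg _)
      · simp only [hh2]
        rw [← integral_sub (hint _) (hint _)]
        refine abs_integral_lam_le (fun z => ?_)
        rw [update_comm hij]
        have := hl1 (update x j z) i y
        rwa [update_of_ne hij] at this
    have hd2 : Dep (s \ ↑(insert j T)) h2 := by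
      intro x x' he
      simp only [hh2]
      refine integral_congr_ae (ae_of_all _ (fun z => hd1 _ _ (fun i hi => ?_)))
      by_cases hij : i = j
      · subst hij; simp
      · simp only [update_of_ne hij]
        exact he i ⟨hi.1, by simpa [hij] using hi.2⟩
    have hpres : ∀ i ∈ T, ∀ x y, h2 (update x i y) = h2 x := fun i hi x y =>
      hd2.update (fun (c : i ∈ s \ ↑(insert j T)) => c.2 (by simp [hi])) x y
    have hpres1 : ∀ i ∈ T, ∀ x y, h1 (update x i y) = h1 x := fun i hi x y =>
      hd1.update (fun (c : i ∈ s \ (T : Set ι)) => c.2 hi) x y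
    have hF : BM (fun x => h1 x - h2 x) := hb1.sub hb2
    have hF0 : ∀ x, ∫ y, (h1 (update x j y) - h2 (update x j y)) ∂lam = 0 := by
      intro x
      simp only [hind]
      rw [integral_sub (hint x) (integrable_const _)]
      simp [hh2]
    refine ⟨h2, hb2, hl2, hd2, ?_, ?_⟩
    · intro k hk hki
      have e1 := horth k hk (fun i hi => hki i (Finset.mem_insert_of_mem hi))
      have e2 := integral_mul_eq_zero j hF hk (hki j (Finset.mem_insert_self j T)) hF0
      have : ∀ x, (h x - h2 x) * k x = (h x - h1 x) * k x + (h1 x - h2 x) * k x := fun x => by ring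
      simp only [this]
      rw [integral_add (((hb.sub hb1).mul hk).integrable _) ((hF.mul hk).integrable _), e1, e2,
        add_zero]
    · have e1 := horth (fun x => h1 x - h2 x) hF
        (fun i hi x y => by simp [hpres i hi, hpres1 i hi])
      have : ∀ x, (h x - h2 x) ^ 2 = (h x - h1 x) ^ 2
          + 2 * ((h x - h1 x) * (h1 x - h2 x)) + (h1 x - h2 x) ^ 2 := fun x => by ring
      simp only [this]
      have i1 : Integrable (fun x => (h x - h1 x) ^ 2) (PU ι) := (hb.sub hb1).sq.integrable _
      have i2 : Integrable (fun x => 2 * ((h x - h1 x) * (h1 x - h2 x))) (PU ι) :=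
        (((hb.sub hb1).mul hF).integrable _).const_mul 2
      have i3 : Integrable (fun x => (h1 x - h2 x) ^ 2) (PU ι) := hF.sq.integrable _
      rw [integral_add (by exact i1.add i2) i3, integral_add i1 i2, integral_const_mul, e1,
        Finset.sum_insert hj]
      have hb' : ∀ x, |h1 x - h2 x| ≤ g j := by
        intro x
        simp only [hh2]
        have e : h1 x - ∫ y, h1 (update x j y) ∂lam = ∫ y, (h1 x - h1 (update x j y)) ∂lam := by
          rw [integral_sub (integrable_const _) (hint x)]; simp
        rw [e]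
        refine abs_integral_lam_le (fun y => ?_)
        rw [abs_sub_comm]
        calc |h1 (update x j y) - h1 x| ≤ g j * |cl y - cl (x j)| := hl1 x j y
          _ ≤ g j := mul_le_of_le_one_right (hg j) (abs_cl_sub_le_one _ _)
      have h3 : ∫ x, (h1 x - h2 x) ^ 2 ∂PU ι ≤ g j ^ 2 := by
        calc ∫ x, (h1 x - h2 x) ^ 2 ∂PU ι ≤ ∫ _, g j ^ 2 ∂PU ι :=
              integral_mono i3 (integrable_const _)
                (fun x => sq_le_sq' (abs_le.1 (hb' x)).1 (abs_le.1 (hb' x)).2)
          _ = g j ^ 2 := by simp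
      linarith

end Vale.Agent.P161
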