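import Mathlib
import Vale.Agent.P161.Defs
import Vale.Agent.P161.Uniform

/-!
Averaging over all coordinates outside a finite set, for a product of uniform laws: the
projection identities and approximation of `L²` functions by functions of finitely many
coordinates.
-/

open MeasureTheory Set Function Filter
open scoped Classical Topology ENNReal symmDiff

noncomputable section

namespace Vale.Agent.P161

variable {ι : Type*}

instance isProbabilityMeasure_iidUniform : IsProbabilityMeasure (iidUniform ι) := by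
  unfold iidUniform; infer_instance

/-- take the coordinates in `B` from the first argument, the others from the second -/
def mrg {α : Type*} (B : Finset ι) (p : (ι → α) × (ι → α)) : ι → α :=
  fun i => if i ∈ B then p.1 i else p.2 i

lemma measurable_mrg {α : Type*} [MeasurableSpace α] (B : Finset ι) :
    Measurable (mrg (α := α) B) := by
  refine measurable_pi_lambda _ (fun i => ?_)
  by_cases h : i ∈ B
  · simpa [mrg, h] using (measurable_pi_apply i).fun_comp measurable_fst
  · simpa [mrg, h] using (measurable_pi_apply i).fun_comp measurable_snd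

lemma mp_mrg (B : Finset ι) :
    MeasurePreserving (mrg B) ((iidUniform ι).prod (iidUniform ι)) (iidUniform ι) := by
  refine ⟨measurable_mrg B, ?_⟩
  refine Measure.eq_infinitePi _ (fun s t ht => ?_)
  rw [Measure.map_apply (measurable_mrg B) (.pi s.countable_toSet (fun i _ => ht i))]
  have : mrg B ⁻¹' (Set.pi (s : Set ι) t)
      = (Set.pi ((s.filter (fun i => i ∈ B) : Finset ι) : Set ι) t) ×ˢ
        (Set.pi ((s.filter (fun i => i ∉ B) : Finset ι) : Set ι) t) := by
    ext p
    simp only [mem_preimage, mem_prod, Set.mem_pi, Finset.mem_coe, Finset.mem_filter, mrg]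
    constructor
    · intro h
      exact ⟨fun i hi => by simpa [hi.2] using h i hi.1, fun i hi => by simpa [hi.2] using h i hi.1⟩
    · intro h i hi
      by_cases hb : i ∈ B
      · simpa [hb] using h.1 i ⟨hi, hb⟩
      · simpa [hb] using h.2 i ⟨hi, hb⟩
  rw [this, Measure.prod_prod, iidUniform, Measure.infinitePi_pi _ (fun i _ => ht i),
    Measure.infinitePi_pi _ (fun i _ => ht i), Finset.prod_filter_mul_prod_filter_not]

/-- average over the coordinates outside `B` -/
def prj (B : Finset ι) (f : (ι → unitInterval) → ℝ) (x : ι → unitInterval) : ℝ :=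
  ∫ w, f (mrg B (x, w)) ∂iidUniform ι

variable {f g : (ι → unitInterval) → ℝ}

lemma bm_mrg_right (B : Finset ι) (hf : BM f) (x : ι → unitInterval) :
    BM (fun w => f (mrg B (x, w))) :=
  hf.comp ((measurable_mrg B).comp measurable_prodMk_left)

lemma BM.prj (B : Finset ι) (hf : BM f) : BM (prj B f) := by
  obtain ⟨C, hC⟩ := hf.2
  refine ⟨?_, C, fun x => ?_⟩
  · exact (StronglyMeasurable.integral_prod_right'
      ((hf.1.comp (measurable_mrg B)).stronglyMeasurable)).measurable
  · simpa [P161.prj, Real.norm_eq_abs, probReal_univ] using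
      norm_integral_le_of_norm_le_const (μ := iidUniform ι) (C := C)
        (f := fun w => f (mrg B (x, w))) (ae_of_all _ (fun w => hC _))

lemma integral_prj (B : Finset ι) (hf : BM f) :
    ∫ x, prj B f x ∂iidUniform ι = ∫ u, f u ∂iidUniform ι := by
  conv_rhs => rw [← (mp_mrg B).map_eq]
  rw [integral_map (measurable_mrg B).aemeasurable (by exact hf.1.aestronglyMeasurable)]
  exact (integral_prod _ ((hf.comp (measurable_mrg B)).integrable _)).symm

lemma prj_prj (B C : Finset ι) (hf : BM f) (x : ι → unitInterval) :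
    prj B (prj C f) x = prj (B ∩ C) f x := by
  have e : ∀ w' w : ι → unitInterval,
      mrg C (mrg B (x, w'), w) = mrg (B ∩ C) (x, mrg C (w', w)) := by
    intro w' w; funext i
    by_cases hb : i ∈ B <;> by_cases hc : i ∈ C <;> simp [mrg, hb, hc]
  simp only [prj, e]
  exact integral_prj C (bm_mrg_right (B ∩ C) hf x)

lemma prj_self (B : Finset ι) (hf : BM f) (x : ι → unitInterval) :
    prj B (prj B f) x = prj B f x := by rw [prj_prj B B hf, Finset.inter_self]

lemma prj_mrg (B : Finset ι) (f : (ι → unitInterval) → ℝ) (x w : ι → unitInterval) :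
    prj B f (mrg B (x, w)) = prj B f x := by
  have e : ∀ w', mrg B (mrg B (x, w), w') = mrg B (x, w') := by
    intro w'; funext i; by_cases hb : i ∈ B <;> simp [mrg, hb]
  simp only [prj, e]

lemma prj_mul_prj (B : Finset ι) (f g : (ι → unitInterval) → ℝ) (x : ι → unitInterval) :
    prj B (fun u => f u * prj B g u) x = prj B f x * prj B g x := by
  show ∫ w, f (mrg B (x, w)) * prj B g (mrg B (x, w)) ∂iidUniform ι = _
  simp only [prj_mrg, integral_mul_const]
  rfl

lemma integral_mul_prj (B : Finset ι) (hf : BM f) (hg : BM g) :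
    ∫ u, f u * prj B g u ∂iidUniform ι = ∫ u, prj B f u * prj B g u ∂iidUniform ι := by
  rw [← integral_prj B (hf.mul (hg.prj B))]
  exact integral_congr_ae (ae_of_all _ (fun x => prj_mul_prj B f g x))

lemma prj_empty (f : (ι → unitInterval) → ℝ) (x : ι → unitInterval) :
    prj ∅ f x = ∫ u, f u ∂iidUniform ι := by
  have e : ∀ w : ι → unitInterval, mrg ∅ (x, w) = w := fun w => by funext i; simp [mrg]
  simp only [prj, e]

lemma prj_sub (B : Finset ι) (hf : BM f) (hg : BM g) (x : ι → unitInterval) :
    prj B (fun u => f u - g u) x = prj B f x - prj B g x :=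
  integral_sub ((bm_mrg_right B hf x).integrable _) ((bm_mrg_right B hg x).integrable _)

/-- `cov f g S`: the covariance of the projections on the coordinates in `S` -/
def cov (f g : (ι → unitInterval) → ℝ) (S : Finset ι) : ℝ :=
  ∫ u, prj S f u * prj S g u ∂iidUniform ι

lemma integral_prj_mul_prj {B C : Finset ι} (h : B ⊆ C) (hf : BM f) (hg : BM g) :
    ∫ u, prj C f u * prj B g u ∂iidUniform ι = cov f g B := by
  rw [integral_mul_prj B (hf.prj C) hg]
  refine integral_congr_ae (ae_of_all _ (fun x => ?_))
  show prj B (prj C f) x * prj B g x = prj B f x * prj B g x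
  rw [prj_prj B C hf, Finset.inter_eq_left.2 h]

lemma cov_sub_cov {B C : Finset ι} (h : B ⊆ C) (hf : BM f) (hg : BM g) :
    cov f g C - cov f g B
      = ∫ u, (prj C f u - prj B f u) * (prj C g u - prj B g u) ∂iidUniform ι := by
  have e : ∀ u, (prj C f u - prj B f u) * (prj C g u - prj B g u) = prj C f u * prj C g u
      - prj C f u * prj B g u - prj C g u * prj B f u + prj B f u * prj B g u := fun u => by ring
  simp only [e]
  have i1 := ((hf.prj C).mul (hg.prj C)).integrable (iidUniform ι)
  have i2 := ((hf.prj C).mul (hg.prj B)).integrable (iidUniform ι)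
  have i3 := ((hg.prj C).mul (hf.prj B)).integrable (iidUniform ι)
  have i4 := ((hf.prj B).mul (hg.prj B)).integrable (iidUniform ι)
  rw [integral_add (by exact (i1.sub i2).sub i3) i4, integral_sub (by exact i1.sub i2) i3,
    integral_sub i1 i2, integral_prj_mul_prj h hf hg, integral_prj_mul_prj h hg hf]
  have : cov g f B = cov f g B := by
    unfold cov; simp only [mul_comm (prj B g _)]
  rw [this]
  unfold cov
  ring

lemma cov_mono {B C : Finset ι} (h : B ⊆ C) (hf : BM f) : cov f f B ≤ cov f f C := by
  have := cov_sub_cov h hf hf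
  have h2 : 0 ≤ ∫ u, (prj C f u - prj B f u) * (prj C f u - prj B f u) ∂iidUniform ι :=
    integral_nonneg (fun u => mul_self_nonneg _)
  linarith

lemma abs_mul_le_weighted {s : ℝ} (hs : 0 < s) (a b : ℝ) :
    |a * b| ≤ (s * (a * a) + b * b / s) / 2 := by
  rw [abs_mul, le_div_iff₀ two_pos]
  have e : s * (a * a) + b * b / s = (s * |a| - |b|) ^ 2 / s + 2 * (|a| * |b|) := by
    rw [← abs_mul_abs_self a, ← abs_mul_abs_self b]; field_simp; ring
  rw [e]
  nlinarith [div_nonneg (sq_nonneg (s * |a| - |b|)) hs.le]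

lemma abs_integral_mul_le {s : ℝ} (hs : 0 < s) (hf : BM f) (hg : BM g) :
    |∫ u, f u * g u ∂iidUniform ι| ≤
      (s * ∫ u, f u * f u ∂iidUniform ι + (∫ u, g u * g u ∂iidUniform ι) / s) / 2 := by
  refine le_trans abs_integral_le_integral_abs ?_
  have i1 := ((hf.mul hf).integrable (iidUniform ι)).const_mul s
  have i2 := ((hg.mul hg).integrable (iidUniform ι)).div_const s
  rw [← integral_const_mul, ← integral_div, ← integral_add i1 i2, ← integral_div]
  exact integral_mono ((hf.mul hg).abs.integrable _) ((i1.add i2).div_const 2)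
    (fun u => abs_mul_le_weighted hs (f u) (g u))

lemma abs_cov_sub_le {B C : Finset ι} (h : B ⊆ C) (hf : BM f) (hg : BM g) {s : ℝ}
    (hs : 0 < s) : |cov f g C - cov f g B|
      ≤ (s * (cov f f C - cov f f B) + (cov g g C - cov g g B) / s) / 2 := by
  rw [cov_sub_cov h hf hg, cov_sub_cov h hf hf, cov_sub_cov h hg hg]
  exact abs_integral_mul_le hs ((hf.prj C).sub (hf.prj B)) ((hg.prj C).sub (hg.prj B))

/-- `f` is a function of the coordinates in `B` -/
def Fixed (B : Finset ι) (f : (ι → unitInterval) → ℝ) : Prop :=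
  ∀ x w, f (mrg B (x, w)) = f x

lemma Fixed.mono {B C : Finset ι} (h : B ⊆ C) (hf : Fixed B f) : Fixed C f := by
  intro x w
  rw [← hf (mrg C (x, w)) x]
  congr 1
  funext i
  by_cases hb : i ∈ B
  · simp [mrg, hb, h hb]
  · simp [mrg, hb]

lemma Fixed.prj_eq {B : Finset ι} (hf : Fixed B f) (x : ι → unitInterval) : prj B f x = f x := by
  have hf' : ∀ w, f (mrg B (x, w)) = f x := hf x
  simp [prj, hf', probReal_univ]

lemma integral_sub_prj_sq (B : Finset ι) (hf : BM f) :
    ∫ u, (f u - prj B f u) ^ 2 ∂iidUniform ι = ∫ u, f u ^ 2 ∂iidUniform ι - cov f f B := by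
  have e : ∀ u, (f u - prj B f u) ^ 2
      = f u ^ 2 - 2 * (f u * prj B f u) + prj B f u * prj B f u := fun u => by ring
  simp only [e]
  have i1 := hf.sq.integrable (iidUniform ι)
  have i2 := ((hf.mul (hf.prj B)).integrable (iidUniform ι)).const_mul 2
  have i3 := ((hf.prj B).mul (hf.prj B)).integrable (iidUniform ι)
  rw [integral_add (by exact i1.sub i2) i3, integral_sub i1 i2, integral_const_mul,
    integral_mul_prj B hf hf]
  unfold cov; ring

lemma cov_le_integral_sq (B : Finset ι) (hf : BM f) :
    cov f f B ≤ ∫ u, f u ^ 2 ∂iidUniform ι := by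
  have h1 := integral_sub_prj_sq B hf
  have h2 : 0 ≤ ∫ u, (f u - prj B f u) ^ 2 ∂iidUniform ι := integral_nonneg (fun u => sq_nonneg _)
  linarith

/-- the projection is the best approximation -/
lemma integral_sub_prj_sq_le {B : Finset ι} (hf : BM f) (hg : BM g) (hB : Fixed B g) :
    ∫ u, (f u - prj B f u) ^ 2 ∂iidUniform ι ≤ ∫ u, (f u - g u) ^ 2 ∂iidUniform ι := by
  have e : ∀ u, f u - prj B f u = (f u - g u) - prj B (fun u => f u - g u) u := by
    intro u; rw [prj_sub B hf hg, hB.prj_eq]; ring
  simp only [e]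
  rw [integral_sub_prj_sq B (hf.sub hg)]
  have : 0 ≤ cov (fun u => f u - g u) (fun u => f u - g u) B :=
    integral_nonneg (fun u => mul_self_nonneg _)
  linarith

lemma fixed_indicator_cylinder (s : Finset ι) (S : Set (∀ _ : s, unitInterval)) (c : ℝ) :
    Fixed s ((cylinder s S).indicator (fun _ => c)) := by
  intro x w
  have : s.restrict (mrg s (x, w)) = s.restrict x := by
    funext i; simp [mrg, Finset.restrict, i.2]
  simp only [Set.indicator_apply, mem_cylinder, this]

/-- finitely many coordinates suffice up to an arbitrary `L²` error -/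
lemma exists_fixed_approx (hf : BM f) {δ : ℝ} (hδ : 0 < δ) :
    ∃ B : Finset ι, ∃ g, BM g ∧ Fixed B g ∧ ∫ u, (f u - g u) ^ 2 ∂iidUniform ι ≤ δ := by
  have hL : MemLp f 2 (iidUniform ι) := by
    obtain ⟨C, hC⟩ := hf.2
    exact MemLp.of_bound hf.1.aestronglyMeasurable C (ae_of_all _ (fun x => by simpa using hC x))
  obtain ⟨g, hg, hgm, B, hgB⟩ := hL.induction_dense (by norm_num)
    (fun g => BM g ∧ ∃ B : Finset ι, Fixed B g)
    (by
      intro c s hs _ ε hε
      obtain ⟨η, hη, hη'⟩ := exists_eLpNorm_indicator_le (μ := iidUniform ι) (p := 2)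
        (by norm_num) c hε
      obtain ⟨t, ht, htlt⟩ := exists_measure_symmDiff_lt_of_generateFrom_isSetRing
        (μ := iidUniform ι) (C := measurableCylinders (fun _ : ι => unitInterval))
        isSetRing_measurableCylinders
        ⟨{Set.univ}, countable_singleton _,
          by simpa using univ_mem_measurableCylinders (fun _ : ι => unitInterval), by simp⟩
        generateFrom_measurableCylinders.symm hs (ε := (η : ℝ≥0∞)) (by exact_mod_cast hη)
      have htm := MeasurableSet.of_mem_measurableCylinders ht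
      obtain ⟨T, S, hS, rfl⟩ := (mem_measurableCylinders _).1 ht
      refine ⟨(cylinder T S).indicator (fun _ => c), ?_, ?_, T, fixed_indicator_cylinder T S c⟩
      · rw [eLpNorm_indicator_sub_indicator]
        exact hη' _ htlt.le
      · refine ⟨measurable_const.indicator htm, |c|, fun x => ?_⟩
        by_cases hx : x ∈ cylinder T S <;> simp [hx])
    (fun F H hF hH => ⟨hF.1.add hH.1, hF.2.choose ∪ hH.2.choose, fun x w => by
      have h1 := hF.2.choose_spec.mono (C := hF.2.choose ∪ hH.2.choose) Finset.subset_union_left x w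
      have h2 := hH.2.choose_spec.mono (C := hF.2.choose ∪ hH.2.choose) Finset.subset_union_right x w
      simp [Pi.add_apply, h1, h2]⟩)
    (fun F hF => hF.1.1.aestronglyMeasurable)
    (ε := ENNReal.ofReal (Real.sqrt δ)) (by simpa using Real.sqrt_pos.2 hδ)
  refine ⟨B, g, hgm, hgB, ?_⟩
  obtain ⟨C, hC⟩ := (hf.sub hgm).2
  have hsub : MemLp (f - g) 2 (iidUniform ι) :=
    MemLp.of_bound (hf.sub hgm).1.aestronglyMeasurable C
      (ae_of_all _ (fun x => by simpa using hC x))
  rw [hsub.eLpNorm_eq_integral_rpow_norm (by norm_num) (by norm_num),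
    ENNReal.ofReal_le_ofReal_iff (Real.sqrt_nonneg _)] at hg
  simp only [ENNReal.toReal_ofNat, Real.rpow_two, Pi.sub_apply, Real.norm_eq_abs, sq_abs] at hg
  have h0 : 0 ≤ ∫ u, (f u - g u) ^ 2 ∂iidUniform ι := integral_nonneg (fun u => sq_nonneg _)
  rw [← one_div, ← Real.sqrt_eq_rpow] at hg
  exact (Real.sqrt_le_sqrt_iff hδ.le).1 hg

lemma exists_prj_close (hf : BM f) {δ : ℝ} (hδ : 0 < δ) :
    ∃ B : Finset ι, ∀ M, B ⊆ M → ∫ u, (f u - prj M f u) ^ 2 ∂iidUniform ι ≤ δ := by
  obtain ⟨B, g, hg, hB, hle⟩ := exists_fixed_approx hf hδ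
  exact ⟨B, fun M hM => (integral_sub_prj_sq_le hf hg (hB.mono hM)).trans hle⟩

end Vale.Agent.P161
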