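import Mathlib
import Vale.Agent.P161.Defs
import Vale.Agent.P161.Tree
import Vale.Agent.P161.Paths
import Vale.Agent.P161.Proj
import Vale.Agent.P161.Interp

/-!
The covariance bound of Backhausz–Szegedy–Virág for edge observables of i.i.d. labels on a
regular tree, with a self-contained proof.
-/

open MeasureTheory Set Function Filter
open scoped Classical Topology

noncomputable section

namespace Vale.Agent.P161

variable {V : Type*} {G : SimpleGraph V}

/-- the action of an automorphism on labels -/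
def shift (φ : G ≃g G) (U : V → unitInterval) : V → unitInterval := fun x => U (φ.symm x)

lemma mp_shift (φ : G ≃g G) : MeasurePreserving (shift φ) (iidUniform V) (iidUniform V) := by
  have hm : Measurable (shift φ) := measurable_pi_lambda _ (fun a => measurable_pi_apply _)
  refine ⟨hm, Measure.eq_infinitePi _ (fun s t ht => ?_)⟩
  rw [Measure.map_apply hm (.pi s.countable_toSet (fun i _ => ht i))]
  have : shift φ ⁻¹' (Set.pi (s : Set V) t)
      = Set.pi ((s.map φ.symm.toEquiv.toEmbedding : Finset V) : Set V) (fun b => t (φ b)) := by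
    ext x
    simp only [mem_preimage, Set.mem_pi, Finset.mem_coe, Finset.mem_map, Equiv.coe_toEmbedding,
      forall_exists_index, and_imp, shift]
    constructor
    · rintro h b a ha rfl; simpa using h a ha
    · intro h a ha; simpa using h (φ.symm a) a ha rfl
  rw [this, iidUniform, Measure.infinitePi_pi _ (fun b _ => ht _), Finset.prod_map]
  simp

lemma integral_shift (φ : G ≃g G) {F : (V → unitInterval) → ℝ} (hF : Measurable F) :
    ∫ x, F (shift φ x) ∂iidUniform V = ∫ x, F x ∂iidUniform V := by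
  conv_rhs => rw [← (mp_shift φ).map_eq]
  exact (integral_map (mp_shift φ).measurable.aemeasurable hF.aestronglyMeasurable).symm

lemma mrg_shift (φ : G ≃g G) (S : Finset V) (x w : V → unitInterval) :
    mrg (S.image φ) (shift φ x, shift φ w) = shift φ (mrg S (x, w)) := by
  funext i
  have h : i ∈ S.image φ ↔ φ.symm i ∈ S := by
    simp only [Finset.mem_image]
    exact ⟨fun ⟨a, ha, e⟩ => by rw [← e]; simpa using ha, fun h => ⟨_, h, by simp⟩⟩
  by_cases hi : φ.symm i ∈ S <;> simp [mrg, shift, h, hi]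

lemma ae_prj_shift (φ : G ≃g G) (S : Finset V) {f f' : (V → unitInterval) → ℝ} (hf' : BM f')
    (h : ∀ᵐ U ∂iidUniform V, f' (shift φ U) = f U) :
    ∀ᵐ x ∂iidUniform V, prj (S.image φ) f' (shift φ x) = prj S f x := by
  have h2 := (mp_mrg S).quasiMeasurePreserving.ae h
  filter_upwards [Measure.ae_ae_of_ae_prod h2] with x hx
  show ∫ w, f' (mrg (S.image φ) (shift φ x, w)) ∂iidUniform V = _
  rw [← integral_shift φ (bm_mrg_right _ hf' _).1]
  simp only [mrg_shift]
  exact integral_congr_ae hx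

lemma cov_shift (φ : G ≃g G) (S : Finset V) {f f' k k' : (V → unitInterval) → ℝ}
    (hf' : BM f') (hk' : BM k') (h : ∀ᵐ U ∂iidUniform V, f' (shift φ U) = f U)
    (h2 : ∀ᵐ U ∂iidUniform V, k' (shift φ U) = k U) :
    cov f' k' (S.image φ) = cov f k S := by
  unfold cov
  rw [← integral_shift φ ((hf'.prj _).mul (hk'.prj _)).1]
  refine integral_congr_ae ?_
  filter_upwards [ae_prj_shift φ S hf' h, ae_prj_shift φ S hk' h2] with x hx hy
  rw [hx, hy]

lemma aut_dist (hT : G.IsTree) (φ : G ≃g G) (a b : V) : G.dist (φ a) (φ b) = G.dist a b := by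
  have key : ∀ (g : G ≃g G) (a b : V), G.dist (g a) (g b) ≤ G.dist a b := by
    intro g a b
    obtain ⟨p, hp⟩ := hT.connected.exists_walk_length_eq_dist a b
    rw [← hp, ← SimpleGraph.Walk.length_map g.toHom p]
    exact SimpleGraph.dist_le _
  refine le_antisymm (key φ a b) ?_
  conv_lhs => rw [← φ.symm_apply_apply a, ← φ.symm_apply_apply b]
  exact key φ.symm (φ a) (φ b)

section truncated

variable (hT : G.IsTree) (hf : ∀ v, (G.neighborSet v).Finite)
  (g : V → V → (V → unitInterval) → ℝ) (R : ℕ)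

/-- the window of radius `R` around an edge -/
def win (a b : V) : Finset V := ball G hf a R ∪ ball G hf b R

/-- the truncated observable -/
def trn (a b : V) : (V → unitInterval) → ℝ := prj (win hf R a b) (g a b)

/-- the influence of `v` on the truncated observable of `(a, b)` -/
def inflE (a b v : V) : ℝ :=
  infl (win hf R a b) (cov (trn hf g R a b) (trn hf g R a b)) v

variable {hf g R}

include hT in
lemma image_win (φ : G ≃g G) (a b : V) : (win hf R a b).image φ = win hf R (φ a) (φ b) := by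
  have key : ∀ a, (ball G hf a R).image φ = ball G hf (φ a) R := by
    intro a
    ext x
    simp only [Finset.mem_image, mem_ball_iff hT]
    constructor
    · rintro ⟨y, hy, rfl⟩
      rw [← aut_dist hT φ] at hy
      exact hy
    · intro h
      refine ⟨φ.symm x, ?_, by simp⟩
      rw [← aut_dist hT φ]
      simpa using h
  rw [win, Finset.image_union, key, key, win]

lemma cov_trn_local {a b : V} (hb : BM (g a b)) {k : (V → unitInterval) → ℝ} (S : Finset V)
    (hk2 : ∀ S x, prj (S ∩ win hf R a b) k x = prj S k x) :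
    cov (trn hf g R a b) k (S ∩ win hf R a b) = cov (trn hf g R a b) k S := by
  unfold cov trn
  simp only [prj_prj _ _ hb, hk2, Finset.inter_assoc, Finset.inter_self]

lemma prj_trn {a b : V} (hb : BM (g a b)) (S : Finset V) (x : V → unitInterval) :
    prj (S ∩ win hf R a b) (trn hf g R a b) x = prj S (trn hf g R a b) x := by
  simp only [trn, prj_prj _ _ hb, Finset.inter_assoc, Finset.inter_self]

lemma cov_trn_empty {a b : V} (hb : BM (g a b)) (h0 : ∫ U, g a b U ∂iidUniform V = 0)
    (k : (V → unitInterval) → ℝ) : cov (trn hf g R a b) k ∅ = 0 := by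
  unfold cov trn
  simp [prj_prj _ _ hb, prj_empty, h0]

lemma inflE_nonneg {a b : V} (hb : BM (g a b)) (v : V) : 0 ≤ inflE hf g R a b v :=
  infl_nonneg (fun _ _ h => cov_mono h (hb.prj _)) v

lemma sum_inflE {a b : V} (hb : BM (g a b)) (h0 : ∫ U, g a b U ∂iidUniform V = 0) :
    ∑ v ∈ win hf R a b, inflE hf g R a b v
      = cov (g a b) (g a b) (win hf R a b) := by
  unfold inflE
  rw [sum_infl, cov_trn_empty hb h0, sub_zero]
  unfold cov trn
  simp only [prj_self _ hb]

variable (hf g R) in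
/-- the first weighted influence sum, for the edge `ab` and the far end `d` -/
def fwd (r : ℝ) (a b d : V) : ℝ :=
  ∑ v ∈ win hf R a b, inflE hf g R a b v * (r ^ G.dist v d / r ^ G.dist v a)

variable (hf g R) in
/-- the second weighted influence sum, for the edge `cd` and the far end `a` -/
def bwd (r : ℝ) (a c d : V) : ℝ :=
  ∑ v ∈ win hf R c d, inflE hf g R c d v * (r ^ G.dist v a / r ^ G.dist v d)

lemma abs_cov_trn_le {r : ℝ} (hr : 0 < r) {a b c d : V} (hab : BM (g a b)) (hcd : BM (g c d))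
    (h0 : ∫ U, g a b U ∂iidUniform V = 0) :
    |∫ U, trn hf g R a b U * trn hf g R c d U ∂iidUniform V|
      ≤ (fwd hf g R r a b d + bwd hf g R r a c d) / 2 := by
  set B := win hf R a b with hB
  set C := win hf R c d with hC
  set e := trn hf g R a b with he
  set f := trn hf g R c d with hf'
  set M := B ∪ C with hM
  have hbe : BM e := hab.prj _
  have hbf : BM f := hcd.prj _
  have h1 : ∫ U, e U * f U ∂iidUniform V = cov e f M - cov e f ∅ := by
    rw [cov_trn_empty hab h0, sub_zero]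
    unfold cov
    simp only [he, hf', trn, prj_prj _ _ hab, prj_prj _ _ hcd]
    rw [Finset.inter_eq_right.2 Finset.subset_union_left,
      Finset.inter_eq_right.2 Finset.subset_union_right]
  rw [h1, ← sum_infl]
  set s : V → ℝ := fun v => r ^ G.dist v d / r ^ G.dist v a with hs
  have hs0 : ∀ v, 0 < s v := fun v => div_pos (pow_pos hr _) (pow_pos hr _)
  have key : ∀ v, |infl M (cov e f) v|
      ≤ s v / 2 * infl M (cov e e) v + (s v)⁻¹ / 2 * infl M (cov f f) v := by
    intro v
    unfold infl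
    have ii : ∀ h : Finset V → ℝ, IntervalIntegrable (interp (M.erase v) (dv v h)) volume 0 1 :=
      fun h => (continuous_interp _ _).intervalIntegrable _ _
    rw [← intervalIntegral.integral_const_mul, ← intervalIntegral.integral_const_mul,
      ← intervalIntegral.integral_add ((ii _).const_mul _) ((ii _).const_mul _)]
    refine (intervalIntegral.abs_integral_le_integral_abs zero_le_one).trans
      (intervalIntegral.integral_mono_on zero_le_one (ii _).abs
        (((ii _).const_mul _).add ((ii _).const_mul _)) (fun t ht => ?_))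
    refine abs_interp_le (fun S _ => ?_) ht.1 ht.2
    refine (abs_cov_sub_le (Finset.subset_insert v S) hbe hbf (hs0 v)).trans (le_of_eq ?_)
    unfold dv
    ring
  have loc : ∀ (a b : V), BM (g a b) → ∀ S, cov (trn hf g R a b) (trn hf g R a b)
      (S ∩ win hf R a b) = cov (trn hf g R a b) (trn hf g R a b) S :=
    fun a b hb S => cov_trn_local hb S (prj_trn hb)
  have e1 : ∑ v ∈ M, s v * infl M (cov e e) v = fwd hf g R r a b d := by
    simp only [he, infl_eq_of_local (M := M) Finset.subset_union_left (loc a b hab), mul_ite,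
      mul_zero]
    rw [Finset.sum_ite_mem, Finset.inter_eq_right.2 Finset.subset_union_left]
    exact Finset.sum_congr rfl (fun v _ => mul_comm _ _)
  have e2 : ∑ v ∈ M, (s v)⁻¹ * infl M (cov f f) v = bwd hf g R r a c d := by
    simp only [hf', infl_eq_of_local (M := M) Finset.subset_union_right (loc c d hcd), mul_ite,
      mul_zero]
    rw [Finset.sum_ite_mem, Finset.inter_eq_right.2 Finset.subset_union_right]
    refine Finset.sum_congr rfl (fun v _ => ?_)
    rw [hs, inv_div, mul_comm]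
    rfl
  calc |∑ v ∈ M, infl M (cov e f) v| ≤ ∑ v ∈ M, |infl M (cov e f) v| :=
        Finset.abs_sum_le_sum_abs _ _
    _ ≤ ∑ v ∈ M, (s v / 2 * infl M (cov e e) v + (s v)⁻¹ / 2 * infl M (cov f f) v) :=
        Finset.sum_le_sum (fun v _ => key v)
    _ = (∑ v ∈ M, s v * infl M (cov e e) v + ∑ v ∈ M, (s v)⁻¹ * infl M (cov f f) v) / 2 := by
        rw [← Finset.sum_add_distrib, Finset.sum_div]
        exact Finset.sum_congr rfl (fun v _ => by ring)
    _ = _ := by rw [e1, e2]

variable (hb : ∀ a b, G.Adj a b → BM (g a b))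
  (heq : ∀ φ : G ≃g G, ∀ v w, G.Adj v w →
    ∀ᵐ U ∂iidUniform V, g (φ v) (φ w) (fun x => U (φ.symm x)) = g v w U)

include hT hb heq in
lemma inflE_shift (φ : G ≃g G) {a b : V} (hab : G.Adj a b) (v : V) :
    inflE hf g R (φ a) (φ b) (φ v) = inflE hf g R a b v := by
  unfold inflE
  rw [← image_win hT]
  refine infl_image φ.injective (fun S => ?_) v
  have hab' : G.Adj (φ a) (φ b) := φ.map_adj_iff.2 hab
  have ht : ∀ᵐ U ∂iidUniform V, trn hf g R (φ a) (φ b) (shift φ U) = trn hf g R a b U := by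
    unfold trn
    rw [← image_win hT]
    exact ae_prj_shift φ _ (hb _ _ hab') (heq φ a b hab)
  exact cov_shift φ S ((hb _ _ hab').prj _) ((hb _ _ hab').prj _) ht ht

include hT hb heq in
lemma fwd_shift (φ : G ≃g G) {r : ℝ} {a b : V} (hab : G.Adj a b) (d : V) :
    fwd hf g R r (φ a) (φ b) (φ d) = fwd hf g R r a b d := by
  unfold fwd
  rw [← image_win hT, Finset.sum_image (fun x _ y _ h => φ.injective h)]
  refine Finset.sum_congr rfl (fun v _ => ?_)
  rw [inflE_shift hT hb heq φ hab, aut_dist hT, aut_dist hT]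

include hT hb heq in
lemma bwd_shift (φ : G ≃g G) {r : ℝ} (a : V) {c d : V} (hcd : G.Adj c d) :
    bwd hf g R r (φ a) (φ c) (φ d) = bwd hf g R r a c d := by
  unfold bwd
  rw [← image_win hT, Finset.sum_image (fun x _ y _ h => φ.injective h)]
  refine Finset.sum_congr rfl (fun v _ => ?_)
  rw [inflE_shift hT hb heq φ hcd, aut_dist hT, aut_dist hT]

variable {q : ℕ} (hd : ∀ v, (G.neighborSet v).ncard = q + 1)

include hT hd in
lemma weighted_sphere_le (hq : 1 ≤ q) (o : V) (m : ℕ) (W : Finset V)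
    (hW : ∀ w ∈ W, G.dist w o = m) (v : V) :
    ∑ w ∈ W, (Real.sqrt q)⁻¹ ^ G.dist v w / (Real.sqrt q)⁻¹ ^ G.dist v o
      ≤ 2 * ((m : ℝ) + 1) * Real.sqrt q ^ m := by
  have hr : 0 < (Real.sqrt q)⁻¹ := inv_pos.2 (Real.sqrt_pos.2 (by exact_mod_cast hq))
  rw [← Finset.sum_div, div_le_iff₀ (pow_pos hr _)]
  refine (sum_sphere_le hT hd hq _ v o rfl m W hW).trans ?_
  refine mul_le_mul_of_nonneg_right (mul_le_mul_of_nonneg_right ?_ (by positivity)) (by positivity)
  have : ((min (G.dist v o) m : ℕ) : ℝ) ≤ m := by exact_mod_cast min_le_right _ _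
  linarith

include hT hb heq hd in
lemma fwd_le (hq : 1 ≤ q) {n : ℕ} {p : ℕ → V} (hp : IsGeod G (n + 1) p)
    (h0 : ∀ a b, G.Adj a b → ∫ U, g a b U ∂iidUniform V = 0) :
    (q : ℝ) ^ n * fwd hf g R (Real.sqrt q)⁻¹ (p 0) (p 1) (p (n + 1))
      ≤ 2 * ((n : ℝ) + 2) * Real.sqrt q ^ (n + 1)
        * cov (g (p 0) (p 1)) (g (p 0) (p 1)) (win hf R (p 0) (p 1)) := by
  set r := (Real.sqrt q)⁻¹
  set a := p 0 with ha
  set b := p 1 with hb'
  have hab : G.Adj a b := hp.1 0 (Nat.succ_pos n)
  obtain ⟨F, hF, hcard⟩ := exists_continuations hT hd hab n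
  have hr : 0 < r := inv_pos.2 (Real.sqrt_pos.2 (by exact_mod_cast hq))
  have hT1 : ∀ d ∈ F, fwd hf g R r a b d = fwd hf g R r a b (p (n + 1)) := by
    intro d hd'
    obtain ⟨p', hp', e0, e1, em⟩ := exists_geod_through hT hab n d (hF d hd').1 (hF d hd').2
    obtain ⟨φ, hφ⟩ := exists_iso_path hT hd (n + 1) p p' hp.1 hp.2 hp'.1 hp'.2
    have := fwd_shift hT hb heq φ (r := r) hab (p (n + 1)) (hf := hf) (g := g) (R := R)
    rwa [hφ (n + 1) le_rfl, em, ha, hφ 0 (Nat.zero_le _), e0, hb', hφ 1 (by omega), e1] at this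
  have hnn : 0 ≤ fwd hf g R r a b (p (n + 1)) := Finset.sum_nonneg (fun v _ =>
    mul_nonneg (inflE_nonneg (hb a b hab) v) (by positivity))
  calc (q : ℝ) ^ n * fwd hf g R r a b (p (n + 1))
      ≤ (F.card : ℝ) * fwd hf g R r a b (p (n + 1)) :=
        mul_le_mul_of_nonneg_right (by exact_mod_cast hcard) hnn
    _ = ∑ d ∈ F, fwd hf g R r a b d := by rw [Finset.sum_congr rfl hT1, Finset.sum_const,
        nsmul_eq_mul]
    _ = ∑ v ∈ win hf R a b, inflE hf g R a b v * ∑ d ∈ F, r ^ G.dist v d / r ^ G.dist v a := by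
        unfold fwd; rw [Finset.sum_comm]; simp only [Finset.mul_sum]
    _ ≤ ∑ v ∈ win hf R a b, inflE hf g R a b v
          * (2 * (((n + 1 : ℕ) : ℝ) + 1) * Real.sqrt q ^ (n + 1)) :=
        Finset.sum_le_sum (fun v _ => mul_le_mul_of_nonneg_left
          (weighted_sphere_le hT hd hq a (n + 1) F (fun d hd' => (hF d hd').2) v)
          (inflE_nonneg (hb a b hab) v))
    _ = _ := by
        rw [← Finset.sum_mul, sum_inflE (hb a b hab) (h0 a b hab)]
        push_cast; ring

include hT hb heq hd in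
lemma bwd_le (hq : 1 ≤ q) {n : ℕ} {p : ℕ → V} (hp : IsGeod G (n + 1) p)
    (h0 : ∀ a b, G.Adj a b → ∫ U, g a b U ∂iidUniform V = 0) :
    (q : ℝ) ^ n * bwd hf g R (Real.sqrt q)⁻¹ (p 0) (p n) (p (n + 1))
      ≤ 2 * ((n : ℝ) + 2) * Real.sqrt q ^ (n + 1)
        * cov (g (p n) (p (n + 1))) (g (p n) (p (n + 1))) (win hf R (p n) (p (n + 1))) := by
  set r := (Real.sqrt q)⁻¹
  set c := p n with hc
  set d := p (n + 1) with hd'
  have hcd : G.Adj c d := hp.1 n (Nat.lt_succ_self n)
  obtain ⟨F, hF, hcard⟩ := exists_continuations hT hd hcd.symm n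
  have hr : 0 < r := inv_pos.2 (Real.sqrt_pos.2 (by exact_mod_cast hq))
  have hT2 : ∀ y ∈ F, bwd hf g R r y c d = bwd hf g R r (p 0) c d := by
    intro y hy
    obtain ⟨p', hp', e0, e1, em⟩ := exists_geod_through hT hcd.symm n y (hF y hy).1 (hF y hy).2
    obtain ⟨φ, hφ⟩ := exists_iso_path hT hd (n + 1) p (fun i => p' (n + 1 - i)) hp.1 hp.2
      hp'.rev.1 hp'.rev.2
    have := bwd_shift hT hb heq φ (r := r) (p 0) hcd (hf := hf) (g := g) (R := R)
    rwa [hφ 0 (Nat.zero_le _), hc, hφ n (by omega), hd', hφ (n + 1) le_rfl, Nat.sub_zero, em,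
      show n + 1 - n = 1 by omega, e1, Nat.sub_self, e0] at this
  have hnn : 0 ≤ bwd hf g R r (p 0) c d := Finset.sum_nonneg (fun v _ =>
    mul_nonneg (inflE_nonneg (hb c d hcd) v) (by positivity))
  calc (q : ℝ) ^ n * bwd hf g R r (p 0) c d
      ≤ (F.card : ℝ) * bwd hf g R r (p 0) c d :=
        mul_le_mul_of_nonneg_right (by exact_mod_cast hcard) hnn
    _ = ∑ y ∈ F, bwd hf g R r y c d := by rw [Finset.sum_congr rfl hT2, Finset.sum_const,
        nsmul_eq_mul]
    _ = ∑ v ∈ win hf R c d, inflE hf g R c d v * ∑ y ∈ F, r ^ G.dist v y / r ^ G.dist v d := by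
        unfold bwd; rw [Finset.sum_comm]; simp only [Finset.mul_sum]
    _ ≤ ∑ v ∈ win hf R c d, inflE hf g R c d v
          * (2 * (((n + 1 : ℕ) : ℝ) + 1) * Real.sqrt q ^ (n + 1)) :=
        Finset.sum_le_sum (fun v _ => mul_le_mul_of_nonneg_left
          (weighted_sphere_le hT hd hq d (n + 1) F (fun y hy => (hF y hy).2) v)
          (inflE_nonneg (hb c d hcd) v))
    _ = _ := by
        rw [← Finset.sum_mul, sum_inflE (hb c d hcd) (h0 c d hcd)]
        push_cast; ring

end truncated

variable (hT : G.IsTree) {q : ℕ} (hd : ∀ v, (G.neighborSet v).ncard = q + 1)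
  (g : V → V → (V → unitInterval) → ℝ) (hm : ∀ v w, G.Adj v w → Measurable (g v w))
  (hbd : ∃ C, ∀ v w, G.Adj v w → ∀ U, |g v w U| ≤ C)
  (h0 : ∀ v w, G.Adj v w → ∫ U, g v w U ∂iidUniform V = 0)
  (heq : ∀ φ : G ≃g G, ∀ v w, G.Adj v w →
    ∀ᵐ U ∂iidUniform V, g (φ v) (φ w) (fun x => U (φ.symm x)) = g v w U)

include hT hd hm hbd h0 heq in
/-- covariance decay for equivariant edge observables along geodesics -/
theorem edge_correlation (hq : 1 ≤ q) (n : ℕ) (p : ℕ → V)
    (hp : ∀ i < n + 1, G.Adj (p i) (p (i + 1))) (hpd : G.dist (p 0) (p (n + 1)) = n + 1) :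
    |∫ U, g (p 0) (p 1) U * g (p n) (p (n + 1)) U ∂iidUniform V|
      ≤ 4 * Real.sqrt q * ((n : ℝ) + 1) * (1 / Real.sqrt q) ^ n
        * ∫ U, g (p 0) (p 1) U ^ 2 ∂iidUniform V := by
  have hP : IsGeod G (n + 1) p := ⟨hp, hpd⟩
  have hfin := nb_finite hd
  obtain ⟨C, hC⟩ := hbd
  have hb : ∀ a b, G.Adj a b → BM (g a b) := fun a b h => ⟨hm a b h, C, hC a b h⟩
  have hab : G.Adj (p 0) (p 1) := hp 0 (Nat.succ_pos n)
  have hcd : G.Adj (p n) (p (n + 1)) := hp n (Nat.lt_succ_self n)
  set e := g (p 0) (p 1) with he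
  set f := g (p n) (p (n + 1)) with hfdef
  have hbe : BM e := hb _ _ hab
  have hbf : BM f := hb _ _ hcd
  set I := ∫ U, e U ^ 2 ∂iidUniform V with hI
  have hIf : ∫ U, f U ^ 2 ∂iidUniform V = I := by
    obtain ⟨φ, hφ⟩ := exists_iso_path hT hd 1 p (fun i => p (n + i))
      (fun i hi => by obtain rfl : i = 0 := (by omega); exact hab)
      (SimpleGraph.dist_eq_one_iff_adj.2 hab)
      (fun i hi => by obtain rfl : i = 0 := (by omega); exact hcd)
      (SimpleGraph.dist_eq_one_iff_adj.2 hcd)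
    have h1 := heq φ _ _ hab
    rw [hφ 0 (by omega), hφ 1 le_rfl] at h1
    rw [← integral_shift φ hbf.sq.1]
    refine integral_congr_ae (h1.mono (fun U hU => ?_))
    show f (shift φ U) ^ 2 = e U ^ 2
    exact congrArg (· ^ 2) hU
  have hI0 : 0 ≤ I := integral_nonneg (fun U => sq_nonneg _)
  have hs : 0 < Real.sqrt q := Real.sqrt_pos.2 (by exact_mod_cast hq)
  set K := 4 * Real.sqrt q * ((n : ℝ) + 1) * (1 / Real.sqrt q) ^ n with hK
  have hK0 : 0 ≤ K := by positivity
  refine le_of_forall_pos_le_add (fun ε0 hε0 => ?_)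
  set ε := ε0 / 2 with hεdef
  have hε : 0 < ε := by positivity
  set δ := ε / (I + 1) with hδ
  have hδ0 : 0 < δ := div_pos hε (by linarith)
  obtain ⟨B1, hB1⟩ := exists_prj_close hbe (mul_pos hε hδ0)
  obtain ⟨B2, hB2⟩ := exists_prj_close hbf (mul_pos hε hδ0)
  obtain ⟨R1, hR1⟩ := exists_ball_superset hT hfin (p 0) B1
  obtain ⟨R2, hR2⟩ := exists_ball_superset hT hfin (p n) B2
  set R := max R1 R2 with hR
  set e' := trn hfin g R (p 0) (p 1) with he'
  set f' := trn hfin g R (p n) (p (n + 1)) with hf'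
  have hbe' : BM e' := hbe.prj _
  have hbf' : BM f' := hbf.prj _
  have c1 : ∫ U, (e U - e' U) * (e U - e' U) ∂iidUniform V ≤ ε * δ := by
    simp only [← pow_two]
    exact hB1 (win hfin R (p 0) (p 1))
      ((hR1 R (le_max_left _ _)).trans Finset.subset_union_left)
  have c2 : ∫ U, (f U - f' U) * (f U - f' U) ∂iidUniform V ≤ ε * δ := by
    simp only [← pow_two]
    exact hB2 (win hfin R (p n) (p (n + 1)))
      ((hR2 R (le_max_right _ _)).trans Finset.subset_union_left)
  have main : |∫ U, e' U * f' U ∂iidUniform V| ≤ K * I := by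
    have hqn : (0 : ℝ) < (q : ℝ) ^ n := pow_pos (by exact_mod_cast hq) n
    have h1 := abs_cov_trn_le (hf := hfin) (R := R) (inv_pos.2 hs) hbe hbf (h0 _ _ hab)
    have h2 := fwd_le hT hb heq hd hq hP h0 (hf := hfin) (R := R)
    have h3 := bwd_le hT hb heq hd hq hP h0 (hf := hfin) (R := R)
    have i1 : cov e e (win hfin R (p 0) (p 1)) ≤ I := cov_le_integral_sq _ hbe
    have i2 : cov f f (win hfin R (p n) (p (n + 1))) ≤ I :=
      (cov_le_integral_sq _ hbf).trans hIf.le
    have hc : (0 : ℝ) ≤ 2 * ((n : ℝ) + 2) * Real.sqrt q ^ (n + 1) := by positivity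
    have h2' := h2.trans (mul_le_mul_of_nonneg_left i1 hc)
    have h3' := h3.trans (mul_le_mul_of_nonneg_left i2 hc)
    have h4 : (q : ℝ) ^ n * |∫ U, e' U * f' U ∂iidUniform V|
        ≤ 2 * ((n : ℝ) + 2) * Real.sqrt q ^ (n + 1) * I := by
      have := mul_le_mul_of_nonneg_left h1 hqn.le
      linarith
    have h5 : 2 * ((n : ℝ) + 2) * Real.sqrt q ^ (n + 1) * I ≤ (q : ℝ) ^ n * (K * I) := by
      have e5 : (q : ℝ) ^ n * (1 / Real.sqrt q) ^ n = Real.sqrt q ^ n := by
        rw [← mul_pow]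
        congr 1
        rw [mul_one_div, Real.div_sqrt]
      calc 2 * ((n : ℝ) + 2) * Real.sqrt q ^ (n + 1) * I
          ≤ 4 * ((n : ℝ) + 1) * Real.sqrt q ^ (n + 1) * I := by
            refine mul_le_mul_of_nonneg_right (mul_le_mul_of_nonneg_right ?_ (by positivity)) hI0
            linarith [(Nat.cast_nonneg n : (0 : ℝ) ≤ n)]
        _ = _ := by rw [hK, pow_succ, ← e5]; ring
    exact le_of_mul_le_mul_left (h4.trans h5) hqn
  have he2 : ∫ U, e' U * e' U ∂iidUniform V ≤ I := cov_le_integral_sq _ hbe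
  have hf2 : ∫ U, f U * f U ∂iidUniform V ≤ I := by simpa only [← pow_two] using hIf.le
  have d1 := abs_integral_mul_le (inv_pos.2 hδ0) (hbe.sub hbe') hbf
  have d2 := abs_integral_mul_le hδ0 hbe' (hbf.sub hbf')
  have d1' : |∫ U, (e U - e' U) * f U ∂iidUniform V| ≤ (ε + δ * I) / 2 := by
    refine d1.trans ?_
    have a1 := mul_le_mul_of_nonneg_left c1 (inv_nonneg.2 hδ0.le)
    rw [show δ⁻¹ * (ε * δ) = ε by field_simp] at a1
    have a2 := mul_le_mul_of_nonneg_left hf2 hδ0.le
    rw [div_inv_eq_mul, mul_comm (∫ U, f U * f U ∂iidUniform V)]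
    linarith
  have d2' : |∫ U, e' U * (f U - f' U) ∂iidUniform V| ≤ (δ * I + ε) / 2 := by
    refine d2.trans ?_
    have a1 := mul_le_mul_of_nonneg_left he2 hδ0.le
    have a2 : (∫ U, (f U - f' U) * (f U - f' U) ∂iidUniform V) / δ ≤ ε :=
      (div_le_iff₀ hδ0).2 c2
    linarith
  have split : ∫ U, e U * f U ∂iidUniform V = ∫ U, (e U - e' U) * f U ∂iidUniform V
      + ∫ U, e' U * (f U - f' U) ∂iidUniform V + ∫ U, e' U * f' U ∂iidUniform V := by
    have i1 := ((hbe.sub hbe').mul hbf).integrable (iidUniform V)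
    have i2 := (hbe'.mul (hbf.sub hbf')).integrable (iidUniform V)
    have i3 := (hbe'.mul hbf').integrable (iidUniform V)
    rw [← integral_add i1 i2, ← integral_add (by exact i1.add i2) i3]
    exact integral_congr_ae (ae_of_all _ (fun U => by simp; ring))
  have hδI : δ * I ≤ ε := by
    rw [hδ, div_mul_eq_mul_div, div_le_iff₀ (by linarith)]
    nlinarith
  rw [split]
  have a3 := abs_add_three (∫ U, (e U - e' U) * f U ∂iidUniform V)
    (∫ U, e' U * (f U - f' U) ∂iidUniform V) (∫ U, e' U * f' U ∂iidUniform V)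
  linarith

end Vale.Agent.P161
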