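import Mathlib
import Vale.Agent.P161.Defs
import Vale.Agent.P161.Tree

/-!
The free Ising weights on finite geodesically convex sets of a tree: consistency and the
covariance bound in arbitrary positive single-site fields.
-/

open Finset
open scoped Classical

noncomputable section

namespace Vale.Agent.P161

variable {V : Type*} {G : SimpleGraph V} {θ : ℝ}

/-- spin of `v` in the configuration whose plus set is `P` -/
def sp (P : Finset V) (v : V) : ℝ := spin (decide (v ∈ P))

lemma sp_eq (P : Finset V) (v : V) : sp P v = if v ∈ P then 1 else -1 := by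
  by_cases h : v ∈ P <;> simp [sp, spin, h]

lemma abs_sp (P : Finset V) (v : V) : |sp P v| = 1 := by
  rw [sp_eq]; split_ifs <;> simp

lemma sp_mul_self (P : Finset V) (v : V) : sp P v * sp P v = 1 := by
  rw [sp_eq]; split_ifs <;> simp

lemma sp_insert_self (P : Finset V) (v : V) : sp (insert v P) v = 1 := by
  simp [sp_eq]

lemma sp_not_mem {P : Finset V} {v : V} (h : v ∉ P) : sp P v = -1 := by
  simp [sp_eq, h]

lemma sp_insert_of_ne (P : Finset V) {v w : V} (h : w ≠ v) : sp (insert v P) w = sp P w := by
  simp [sp_eq, h]

/-- the free Ising weight of the configuration `P` on `D` -/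
def wgt (G : SimpleGraph V) (θ : ℝ) (D P : Finset V) : ℝ :=
  isingCylinder G θ D (fun v => decide (v ∈ P))

/-- expectation under the free Ising measure on `D` -/
def EI (G : SimpleGraph V) (θ : ℝ) (D : Finset V) (F : Finset V → ℝ) : ℝ :=
  ∑ P ∈ D.powerset, wgt G θ D P * F P

/-- `F` depends only on the membership of vertices of `D` -/
def Loc (D : Finset V) (F : Finset V → ℝ) : Prop :=
  ∀ P P' : Finset V, (∀ v ∈ D, (v ∈ P ↔ v ∈ P')) → F P = F P'

lemma Loc.sp {D : Finset V} {v : V} (hv : v ∈ D) : Loc D (fun P => Vale.Agent.P161.sp P v) := by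
  intro P P' h
  simp only [sp_eq]
  rw [if_congr (h v hv) rfl rfl]

lemma edgeFactor_mk (θ : ℝ) (η : V → Bool) (u v : V) :
    edgeFactor θ η s(u, v) = (1 + θ * spin (η u) * spin (η v)) / 2 := rfl

lemma edgeFactor_pos (hθ0 : 0 ≤ θ) (hθ1 : θ < 1) (η : V → Bool) (e : Sym2 V) :
    0 < edgeFactor θ η e := by
  induction e using Sym2.ind with
  | _ u v =>
    rw [edgeFactor_mk]
    unfold spin
    split_ifs <;> linarith

lemma wgt_pos (hθ0 : 0 ≤ θ) (hθ1 : θ < 1) (D P : Finset V) : 0 < wgt G θ D P := by
  unfold wgt isingCylinder
  exact mul_pos (by norm_num) (Finset.prod_pos (fun e _ => edgeFactor_pos hθ0 hθ1 _ e))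

lemma EI_mono (hθ0 : 0 ≤ θ) (hθ1 : θ < 1) (D : Finset V) {F F' : Finset V → ℝ}
    (h : ∀ P, F P ≤ F' P) : EI G θ D F ≤ EI G θ D F' :=
  Finset.sum_le_sum (fun P _ => mul_le_mul_of_nonneg_left (h P) (wgt_pos hθ0 hθ1 D P).le)

lemma EI_pos (hθ0 : 0 ≤ θ) (hθ1 : θ < 1) (D : Finset V) {F : Finset V → ℝ}
    (h : ∀ P, 0 < F P) : 0 < EI G θ D F :=
  Finset.sum_pos (fun P _ => mul_pos (wgt_pos hθ0 hθ1 D P) (h P))
    ⟨∅, Finset.empty_mem_powerset D⟩

lemma abs_EI_le (hθ0 : 0 ≤ θ) (hθ1 : θ < 1) (D : Finset V) (F : Finset V → ℝ) :
    |EI G θ D F| ≤ EI G θ D (fun P => |F P|) := by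
  refine (Finset.abs_sum_le_sum_abs _ _).trans (le_of_eq ?_)
  refine Finset.sum_congr rfl (fun P _ => ?_)
  rw [abs_mul, abs_of_pos (wgt_pos hθ0 hθ1 D P)]

lemma EI_congr (D : Finset V) {F F' : Finset V → ℝ} (h : ∀ P ∈ D.powerset, F P = F' P) :
    EI G θ D F = EI G θ D F' :=
  Finset.sum_congr rfl (fun P hP => by rw [h P hP])

lemma EI_add (D : Finset V) (F F' : Finset V → ℝ) :
    EI G θ D (fun P => F P + F' P) = EI G θ D F + EI G θ D F' := by
  simp [EI, mul_add, Finset.sum_add_distrib]

lemma EI_const_mul (D : Finset V) (c : ℝ) (F : Finset V → ℝ) :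
    EI G θ D (fun P => c * F P) = c * EI G θ D F := by
  simp only [EI, Finset.mul_sum]
  exact Finset.sum_congr rfl (fun P _ => by ring)

lemma EI_sum {ι : Type*} (D : Finset V) (s : Finset ι) (F : ι → Finset V → ℝ) :
    EI G θ D (fun P => ∑ i ∈ s, F i P) = ∑ i ∈ s, EI G θ D (F i) := by
  simp only [EI, Finset.mul_sum]
  exact Finset.sum_comm

lemma EI_singleton (v : V) (F : Finset V → ℝ) :
    EI G θ {v} F = (F ∅ + F {v}) / 2 := by
  have hw : ∀ P, wgt G θ {v} P = 1 / 2 := by
    intro P
    have : ({v} : Finset V).sym2.filter (fun e => e ∈ G.edgeSet) = ∅ := by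
      rw [Finset.filter_eq_empty_iff]
      intro e he
      rw [Finset.sym2_singleton, Finset.mem_singleton] at he
      subst he
      simp [Sym2.diag]
    unfold wgt isingCylinder
    rw [this, Finset.prod_empty, mul_one]
  unfold EI
  simp only [hw]
  have : ({v} : Finset V).powerset = {∅, {v}} := by
    ext P
    simp [Finset.subset_singleton_iff]
  rw [this, Finset.sum_pair (Finset.singleton_ne_empty v).symm]
  ring

lemma edges_insert_leaf {D : Finset V} {l w : V} (hw : w ∈ D) (ha : G.Adj l w)
    (huniq : ∀ y ∈ D, G.Adj l y → y = w) :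
    (insert l D).sym2.filter (fun e => e ∈ G.edgeSet)
      = insert s(l, w) (D.sym2.filter (fun e => e ∈ G.edgeSet)) := by
  ext e
  induction e using Sym2.ind with
  | _ a b =>
    simp only [Finset.mem_filter, Finset.mk_mem_sym2_iff, Finset.mem_insert,
      SimpleGraph.mem_edgeSet, Sym2.eq_iff]
    constructor
    · rintro ⟨⟨ha' | ha', hb' | hb'⟩, hab⟩
      · subst ha' hb'; exact absurd hab (G.irrefl)
      · subst ha'; exact Or.inl (Or.inl ⟨rfl, huniq b hb' hab⟩)
      · subst hb'; exact Or.inl (Or.inr ⟨huniq a ha' hab.symm, rfl⟩)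
      · exact Or.inr ⟨⟨ha', hb'⟩, hab⟩
    · rintro ((⟨rfl, rfl⟩ | ⟨rfl, rfl⟩) | ⟨⟨ha', hb'⟩, hab⟩)
      · exact ⟨⟨Or.inl rfl, Or.inr hw⟩, ha⟩
      · exact ⟨⟨Or.inr hw, Or.inl rfl⟩, ha.symm⟩
      · exact ⟨⟨Or.inr ha', Or.inr hb'⟩, hab⟩

lemma wgt_insert_leaf {D : Finset V} {l w : V} (hl : l ∉ D) (hw : w ∈ D) (ha : G.Adj l w)
    (huniq : ∀ y ∈ D, G.Adj l y → y = w) (P : Finset V) :
    wgt G θ (insert l D) P = (1 + θ * sp P l * sp P w) / 2 * wgt G θ D P := by
  unfold wgt isingCylinder
  rw [edges_insert_leaf hw ha huniq, Finset.prod_insert, edgeFactor_mk]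
  · simp only [sp]
    ring
  · intro h
    rw [Finset.mem_filter, Finset.mk_mem_sym2_iff] at h
    exact hl h.1.1

lemma wgt_insert_elem {D P : Finset V} {l : V} (hl : l ∉ D) :
    wgt G θ D (insert l P) = wgt G θ D P := by
  unfold wgt isingCylinder
  congr 1
  refine Finset.prod_congr rfl (fun e he => ?_)
  induction e using Sym2.ind with
  | _ a b =>
    rw [Finset.mem_filter, Finset.mk_mem_sym2_iff] at he
    have h1 : a ≠ l := fun e => hl (e ▸ he.1.1)
    have h2 : b ≠ l := fun e => hl (e ▸ he.1.2)
    simp [edgeFactor_mk, h1, h2]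

/-- summing out a leaf -/
lemma EI_insert_leaf {D : Finset V} {l w : V} (hl : l ∉ D) (hw : w ∈ D) (ha : G.Adj l w)
    (huniq : ∀ y ∈ D, G.Adj l y → y = w) (F : Finset V → ℝ) :
    EI G θ (insert l D) F = EI G θ D (fun P =>
      (1 + θ * sp P w) / 2 * F (insert l P) + (1 - θ * sp P w) / 2 * F P) := by
  have hwl : w ≠ l := fun e => hl (e ▸ hw)
  unfold EI
  rw [Finset.sum_powerset_insert hl, ← Finset.sum_add_distrib]
  refine Finset.sum_congr rfl (fun P hP => ?_)
  have hlP : l ∉ P := fun h => hl (Finset.mem_powerset.1 hP h)
  rw [wgt_insert_leaf hl hw ha huniq, wgt_insert_leaf hl hw ha huniq, wgt_insert_elem hl,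
    sp_not_mem hlP, sp_insert_self, sp_insert_of_ne P hwl]
  ring

/-- consistency -/
lemma EI_consistent (hT : G.IsTree) : ∀ (n : ℕ) (D M : Finset V), M.card = n → D ⊆ M → Geo G D →
    Geo G M → D.Nonempty → ∀ F, Loc D F → EI G θ M F = EI G θ D F := by
  intro n
  induction n using Nat.strong_induction_on with
  | _ n ih =>
    intro D M hn hDM hD hM hne F hF
    by_cases h : M ⊆ D
    · rw [Finset.Subset.antisymm hDM h]
    · obtain ⟨u, hu⟩ := hne
      obtain ⟨l, hlM, hlD, w, hw, ha, huniq⟩ := exists_leaf_outside hT hD hM hDM hu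
        (by rwa [Finset.not_subset] at h)
      have hM' := geo_erase_leaf hT hM hlM huniq
      have hsub : D ⊆ M.erase l := fun x hx =>
        Finset.mem_erase.2 ⟨fun e => hlD (e ▸ hx), hDM hx⟩
      conv_lhs => rw [← Finset.insert_erase hlM]
      rw [EI_insert_leaf (Finset.notMem_erase l M) hw ha
        (fun y hy hay => huniq y (Finset.mem_of_mem_erase hy) hay)]
      rw [EI_congr (F' := F)]
      · exact ih _ (hn ▸ Finset.card_erase_lt_of_mem hlM) D _ rfl hsub hD hM' ⟨u, hu⟩ F hF
      · intro P _
        have : F (insert l P) = F P := hF _ _ (fun v hv => by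
          have : v ≠ l := fun e => hlD (e ▸ hv)
          simp [this])
        rw [this]
        ring

/-- product of single-site fields over `D` -/
def fprod (D : Finset V) (h : V → Bool → ℝ) (P : Finset V) : ℝ :=
  ∏ v ∈ D, h v (decide (v ∈ P))

lemma fprod_pos (D : Finset V) {h : V → Bool → ℝ} (hh : ∀ v b, 0 < h v b) (P : Finset V) :
    0 < fprod D h P :=
  Finset.prod_pos (fun v _ => hh v _)

lemma loc_fprod (D : Finset V) (h : V → Bool → ℝ) : Loc D (fprod D h) := by
  intro P P' hPP
  exact Finset.prod_congr rfl (fun v hv => by rw [decide_eq_decide.2 (hPP v hv)])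

/-- covariance bound -/
lemma cov_bound (hT : G.IsTree) (hθ0 : 0 ≤ θ) (hθ1 : θ < 1) :
    ∀ (n : ℕ) (D : Finset V), D.card = n → Geo G D → ∀ h : V → Bool → ℝ, (∀ v b, 0 < h v b) →
      ∀ u ∈ D, ∀ v ∈ D,
      |EI G θ D (fun P => fprod D h P * (sp P u * sp P v)) * EI G θ D (fprod D h)
        - EI G θ D (fun P => fprod D h P * sp P u) * EI G θ D (fun P => fprod D h P * sp P v)|
      ≤ θ ^ G.dist v u * EI G θ D (fprod D h) ^ 2 := by
  intro n
  induction n using Nat.strong_induction_on with
  | _ n ih =>
    intro D hn hD h hh u hu v hv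
    set Z := EI G θ D (fprod D h) with hZ
    have hZ0 : 0 < Z := EI_pos hθ0 hθ1 D (fprod_pos D hh)
    by_cases hne : ∃ x ∈ D, x ≠ u
    swap
    · push Not at hne
      have hvu := hne v hv
      subst hvu
      rw [SimpleGraph.dist_self, pow_zero, one_mul]
      simp only [sp_mul_self, mul_one]
      rw [← hZ]
      set A := EI G θ D (fun P => fprod D h P * sp P v)
      have hA : |A| ≤ Z := by
        refine (abs_EI_le hθ0 hθ1 D _).trans (le_of_eq (EI_congr D (fun P _ => ?_)))
        rw [abs_mul, abs_sp, abs_of_pos (fprod_pos D hh P), mul_one]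
      have hA2 := sq_le_sq' (abs_le.1 hA).1 (abs_le.1 hA).2
      rw [abs_le]
      constructor <;> nlinarith [mul_self_nonneg A]
    · obtain ⟨l, hl, hlu, w, hw, ha, huniq⟩ := exists_leaf hT hD hu hne
      set D' := D.erase l with hD'def
      have hD' : Geo G D' := geo_erase_leaf hT hD hl huniq
      have hlt : D'.card < n := hn ▸ Finset.card_erase_lt_of_mem hl
      have hu' : u ∈ D' := Finset.mem_erase.2 ⟨Ne.symm hlu, hu⟩
      have hins : insert l D' = D := Finset.insert_erase hl
      have hlD' : l ∉ D' := Finset.notMem_erase l D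
      -- the field seen by the neighbour of the removed leaf
      set k : Bool → ℝ := fun b => (1 + θ * spin b) / 2 * h l true
        + (1 - θ * spin b) / 2 * h l false with hk
      have hk0 : ∀ b, 0 < k b := by
        intro b
        have h1 := hh l true
        have h2 := hh l false
        have : 0 < (1 + θ * spin b) / 2 ∧ 0 < (1 - θ * spin b) / 2 := by
          cases b <;> simp [spin] <;> constructor <;> linarith
        simp only [hk]
        exact add_pos (mul_pos this.1 h1) (mul_pos this.2 h2)
      set h' : V → Bool → ℝ := fun x b => if x = w then h x b * k b else h x b with hh'def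
      have hh' : ∀ x b, 0 < h' x b := by
        intro x b
        simp only [hh'def]
        split_ifs
        · exact mul_pos (hh x b) (hk0 b)
        · exact hh x b
      have hf' : ∀ P, fprod D' h' P = k (decide (w ∈ P)) * fprod D' h P := by
        intro P
        unfold fprod
        rw [← Finset.mul_prod_erase _ _ hw, ← Finset.mul_prod_erase _ (fun x => h x _) hw,
          Finset.prod_congr rfl (g := fun x => h x (decide (x ∈ P)))]
        · simp [hh'def]; ring
        · intro x hx
          simp [hh'def, Finset.ne_of_mem_erase hx]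
      have hfins : ∀ P, l ∉ P → fprod D h (insert l P) = h l true * fprod D' h P ∧
          fprod D h P = h l false * fprod D' h P := by
        intro P hP
        rw [← hins]
        unfold fprod
        rw [Finset.prod_insert hlD', Finset.prod_insert hlD']
        refine ⟨?_, by simp [hP]⟩
        simp only [Finset.mem_insert, true_or, decide_true]
        congr 1
        refine Finset.prod_congr rfl (fun x hx => ?_)
        have : x ≠ l := fun e => hlD' (e ▸ hx)
        simp [this]
      -- general reduction
      have red : ∀ F : Finset V → ℝ,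
          EI G θ D (fun P => fprod D h P * F P) = EI G θ D' (fun P => fprod D' h P *
            ((1 + θ * sp P w) / 2 * h l true * F (insert l P)
              + (1 - θ * sp P w) / 2 * h l false * F P)) := by
        intro F
        conv_lhs => enter [3]; rw [← hins]
        rw [EI_insert_leaf hlD' hw ha
          (fun y hy hay => huniq y (Finset.mem_of_mem_erase hy) hay)]
        refine EI_congr D' (fun P hP => ?_)
        have hlP : l ∉ P := fun e => hlD' (Finset.mem_powerset.1 hP e)
        rw [(hfins P hlP).1, (hfins P hlP).2]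
        ring
      have redloc : ∀ F : Finset V → ℝ, Loc D' F →
          EI G θ D (fun P => fprod D h P * F P) = EI G θ D' (fun P => fprod D' h' P * F P) := by
        intro F hF
        rw [red]
        refine EI_congr D' (fun P _ => ?_)
        have : F (insert l P) = F P := hF _ _ (fun x hx => by
          have : x ≠ l := fun e => hlD' (e ▸ hx)
          simp [this])
        rw [this, hf' P, hk]
        simp only [sp]
        ring
      have hZ' : Z = EI G θ D' (fprod D' h') := by
        have := redloc (fun _ => 1) (fun _ _ _ => rfl)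
        simpa using this
      by_cases hvl : v = l
      · subst hvl
        -- the conditional mean of the leaf spin is affine in the spin of `w`
        set jp := ((1 + θ) * h v true - (1 - θ) * h v false)
          / ((1 + θ) * h v true + (1 - θ) * h v false) with hjp
        set jm := ((1 - θ) * h v true - (1 + θ) * h v false)
          / ((1 - θ) * h v true + (1 + θ) * h v false) with hjm
        set a := (jp + jm) / 2 with hadef
        set b := (jp - jm) / 2 with hbdef
        have h1 := hh v true
        have h2 := hh v false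
        have hden1 : 0 < (1 + θ) * h v true + (1 - θ) * h v false :=
          add_pos (mul_pos (by linarith) h1) (mul_pos (by linarith) h2)
        have hden2 : 0 < (1 - θ) * h v true + (1 + θ) * h v false :=
          add_pos (mul_pos (by linarith) h1) (mul_pos (by linarith) h2)
        have hb : |b| ≤ θ := by
          have hbe : b = 4 * θ * (h v true * h v false)
              / (((1 + θ) * h v true + (1 - θ) * h v false)
                * ((1 - θ) * h v true + (1 + θ) * h v false)) := by
            rw [hbdef, hjp, hjm, div_sub_div _ _ hden1.ne' hden2.ne', div_div,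
              div_eq_div_iff (by positivity) (by positivity)]
            ring
          have hθ2 : 0 ≤ 1 - θ ^ 2 := by nlinarith
          have hprod : 4 * (h v true * h v false) ≤
              ((1 + θ) * h v true + (1 - θ) * h v false)
                * ((1 - θ) * h v true + (1 + θ) * h v false) := by
            nlinarith [mul_nonneg hθ2 (sq_nonneg (h v true - h v false))]
          rw [hbe, abs_of_nonneg (by positivity), div_le_iff₀ (mul_pos hden1 hden2)]
          calc 4 * θ * (h v true * h v false) = θ * (4 * (h v true * h v false)) := by ring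
            _ ≤ _ := mul_le_mul_of_nonneg_left hprod hθ0
        have hlin : ∀ P, (1 + θ * sp P w) / 2 * h v true - (1 - θ * sp P w) / 2 * h v false
            = k (decide (w ∈ P)) * (a + b * sp P w) := by
          intro P
          have eab : a + b = jp := by rw [hadef, hbdef]; ring
          have eab' : a - b = jm := by rw [hadef, hbdef]; ring
          by_cases hwP : w ∈ P
          · have : k true * jp = (1 + θ) / 2 * h v true - (1 - θ) / 2 * h v false := by
              have : k true = ((1 + θ) * h v true + (1 - θ) * h v false) / 2 := by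
                simp [hk, spin]; ring
              rw [this, hjp]
              field_simp
            simp [sp, spin, hwP, eab, this]
          · have : k false * jm = (1 - θ) / 2 * h v true - (1 + θ) / 2 * h v false := by
              have : k false = ((1 - θ) * h v true + (1 + θ) * h v false) / 2 := by
                simp [hk, spin]; ring
              rw [this, hjm]
              field_simp
            simp [sp, spin, hwP, ← sub_eq_add_neg, eab', this]
        have redv : ∀ F : Finset V → ℝ, Loc D' F →
            EI G θ D (fun P => fprod D h P * (F P * sp P v))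
              = a * EI G θ D' (fun P => fprod D' h' P * F P)
                + b * EI G θ D' (fun P => fprod D' h' P * (F P * sp P w)) := by
          intro F hF
          rw [red, ← EI_const_mul, ← EI_const_mul, ← EI_add]
          refine EI_congr D' (fun P hP => ?_)
          have hvP : v ∉ P := fun e => hlD' (Finset.mem_powerset.1 hP e)
          have : F (insert v P) = F P := hF _ _ (fun x hx => by
            have : x ≠ v := fun e => hlD' (e ▸ hx)
            simp [this])
          rw [this, sp_insert_self, sp_not_mem hvP, hf' P]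
          linear_combination (fprod D' h P * F P) * hlin P
        have e1 := redv (fun P => sp P u) (Loc.sp hu')
        have e2 := redv (fun _ => 1) (fun _ _ _ => rfl)
        have e3 := redloc (fun P => sp P u) (Loc.sp hu')
        simp only [one_mul, mul_one] at e2
        rw [e1, e2, e3, hZ', geo_dist_of_leaf hT hD hl huniq hu (Ne.symm hlu)]
        have hIH := ih _ hlt D' rfl hD' h' hh' u hu' w hw
        set A := EI G θ D' (fun P => fprod D' h' P * (sp P u * sp P w))
        set B := EI G θ D' (fun P => fprod D' h' P * sp P u)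
        set C := EI G θ D' (fun P => fprod D' h' P * sp P w)
        set Z' := EI G θ D' (fprod D' h')
        have hal : (a * B + b * A) * Z' - B * (a * Z' + b * C) = b * (A * Z' - B * C) := by ring
        rw [hal, abs_mul, pow_succ' θ, mul_assoc]
        exact mul_le_mul hb hIH (abs_nonneg _) hθ0
      · have hv' : v ∈ D' := Finset.mem_erase.2 ⟨hvl, hv⟩
        rw [redloc (fun P => sp P u * sp P v) (fun P P' hPP => by
            change sp P u * sp P v = sp P' u * sp P' v
            have e1 := Loc.sp hu' P P' hPP
            have e2 := Loc.sp hv' P P' hPP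
            simp only at e1 e2
            rw [e1, e2]),
          redloc (fun P => sp P u) (Loc.sp hu'), redloc (fun P => sp P v) (Loc.sp hv'), hZ']
        exact ih _ hlt D' rfl hD' h' hh' u hu' v hv'

end Vale.Agent.P161
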