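import Mathlib
import Vale.Agent.P161.Correlation
import Vale.Agent.P161.Ising

/-!
Above the threshold `θ √(d-1) > 1` the free Ising state is not a factor of i.i.d. labels.
-/

open MeasureTheory Set Function Filter
open scoped Classical Topology

noncomputable section

namespace Vale.Agent.P161

variable {V : Type*} {G : SimpleGraph V} {θ : ℝ}

/-- the configurations agreeing on `D` with the one whose plus set is `P` -/
def agree (D P : Finset V) : Set (V → Bool) := {σ | ∀ v ∈ D, σ v = decide (v ∈ P)}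

lemma measurableSet_agree (D P : Finset V) : MeasurableSet (agree D P) := by
  have : agree D P = ⋂ v ∈ D, (fun σ : V → Bool => σ v) ⁻¹' {decide (v ∈ P)} := by
    ext σ; simp [agree]
  rw [this]
  exact D.measurableSet_biInter (fun v _ => measurable_pi_apply v (measurableSet_singleton _))

/-- expectations of local functions under a free Ising state -/
lemma integral_local {ν : Measure (V → Bool)} [IsProbabilityMeasure ν] (hν : IsFreeIsing G θ ν)
    {D : Finset V} (hD : (G.induce (D : Set V)).Connected) {F : (V → Bool) → ℝ}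
    {F' : Finset V → ℝ} (hF : ∀ P, P ⊆ D → ∀ σ ∈ agree D P, F σ = F' P)
    (hw : ∀ P, 0 ≤ wgt G θ D P) :
    ∫ σ, F σ ∂ν = EI G θ D F' := by
  have e : F = fun σ => ∑ P ∈ D.powerset, (agree D P).indicator (fun _ => F' P) σ := by
    funext σ
    set P := D.filter (fun v => σ v = true) with hP
    have hm : σ ∈ agree D P := by
      intro v hv
      by_cases h : σ v = true <;> simp [hP, hv, h]
    rw [Finset.sum_eq_single P]
    · rw [indicator_of_mem hm, hF P (Finset.filter_subset _ _) σ hm]
    · intro Q hQ hne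
      refine indicator_of_notMem (fun hQ' => hne ?_) _
      ext v
      by_cases hv : v ∈ D
      · have h1 := (hm v hv).symm.trans (hQ' v hv)
        exact (decide_eq_decide.1 h1).symm
      · simp [hP, hv]
        exact fun h => hv (Finset.mem_powerset.1 hQ h)
    · intro h; exact absurd (Finset.mem_powerset.2 (Finset.filter_subset _ _)) h
  rw [e, integral_finsetSum _ (fun P _ => (integrable_const _).indicator (measurableSet_agree D P))]
  refine Finset.sum_congr rfl (fun P _ => ?_)
  rw [integral_indicator_const _ (measurableSet_agree D P), measureReal_def]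
  show (ν {σ | ∀ v ∈ D, σ v = decide (v ∈ P)}).toReal • F' P = _
  rw [hν D hD, smul_eq_mul]
  congr 1
  exact ENNReal.toReal_ofReal (hw P)

/-- the first vertices of a path -/
def pathSet (p : ℕ → V) (n : ℕ) : Finset V := (Finset.range (n + 1)).image p

lemma connected_pathSet {n : ℕ} {p : ℕ → V} (hp : ∀ i < n, G.Adj (p i) (p (i + 1))) :
    (G.induce (pathSet p n : Set V)).Connected := by
  have hmem : ∀ i, i ≤ n → p i ∈ (pathSet p n : Set V) := fun i hi =>
    Finset.mem_image.2 ⟨i, Finset.mem_range.2 (Nat.lt_succ_of_le hi), rfl⟩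
  have key : ∀ i, (hi : i ≤ n) → (G.induce (pathSet p n : Set V)).Reachable
      ⟨p i, hmem i hi⟩ ⟨p 0, hmem 0 (Nat.zero_le _)⟩ := by
    intro i
    induction i with
    | zero => intro _; exact SimpleGraph.Reachable.refl _
    | succ i ih =>
      intro hi
      exact (SimpleGraph.Adj.reachable (show (G.induce (pathSet p n : Set V)).Adj ⟨p (i + 1), hmem _ hi⟩
        ⟨p i, hmem i (by omega)⟩ from (hp i (by omega)).symm)).trans (ih (by omega))
  rw [SimpleGraph.connected_iff]
  refine ⟨fun a b => ?_, ⟨⟨p 0, hmem 0 (Nat.zero_le _)⟩⟩⟩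
  have h : ∀ a : (pathSet p n : Set V), (G.induce (pathSet p n : Set V)).Reachable a
      ⟨p 0, hmem 0 (Nat.zero_le _)⟩ := by
    rintro ⟨x, hx⟩
    obtain ⟨i, hi, rfl⟩ := Finset.mem_image.1 (Finset.mem_coe.1 hx)
    exact key i (Nat.lt_succ_iff.1 (Finset.mem_range.1 hi))
  exact (h a).trans (h b).symm

lemma EI_path (hT : G.IsTree) : ∀ (n : ℕ) (p : ℕ → V), IsGeod G n p →
    EI G θ (pathSet p n) (fun P => sp P (p 0) * sp P (p n)) = θ ^ n := by
  intro n p hp
  suffices ∀ m, m ≤ n → EI G θ (pathSet p m) (fun P => sp P (p 0) * sp P (p m)) = θ ^ m from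
    this n le_rfl
  intro m
  induction m with
  | zero =>
    intro _
    have : pathSet p 0 = {p 0} := by simp [pathSet]
    rw [this, EI_singleton]
    simp [sp_mul_self]
  | succ m ih =>
    intro hm
    have e : pathSet p (m + 1) = insert (p (m + 1)) (pathSet p m) := by
      simp [pathSet, Finset.range_add_one]
    have hd : ∀ i ≤ m, G.dist (p i) (p (m + 1)) = m + 1 - i := fun i hi =>
      hp.dist_eq hT (by omega) hm
    have hl : p (m + 1) ∉ pathSet p m := by
      intro h
      obtain ⟨i, hi, he⟩ := Finset.mem_image.1 h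
      have := hd i (Nat.lt_succ_iff.1 (Finset.mem_range.1 hi))
      rw [he, SimpleGraph.dist_self] at this
      have := Finset.mem_range.1 hi
      omega
    have huniq : ∀ y ∈ pathSet p m, G.Adj (p (m + 1)) y → y = p m := by
      intro y hy ha
      obtain ⟨i, hi, rfl⟩ := Finset.mem_image.1 hy
      have hi' := Nat.lt_succ_iff.1 (Finset.mem_range.1 hi)
      have := hd i hi'
      rw [SimpleGraph.dist_eq_one_iff_adj.2 ha.symm] at this
      obtain rfl : i = m := by omega
      rfl
    have hne : p 0 ≠ p (m + 1) := fun h => hl (h ▸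
      Finset.mem_image.2 ⟨0, Finset.mem_range.2 (Nat.succ_pos m), rfl⟩)
    rw [e, EI_insert_leaf hl (Finset.mem_image.2 ⟨m, Finset.self_mem_range_succ m, rfl⟩)
      (hp.1 m (by omega)).symm huniq, pow_succ, ← ih (by omega), mul_comm _ θ, ← EI_const_mul]
    refine EI_congr _ (fun P hP => ?_)
    have hlP : p (m + 1) ∉ P := fun h => hl (Finset.mem_powerset.1 hP h)
    rw [sp_insert_of_ne P hne, sp_insert_self, sp_not_mem hlP]
    ring

/-- the free Ising state is not a factor of i.i.d. above the threshold -/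
theorem not_fiid_above (hT : G.IsTree) {d : ℕ} (hd : ∀ v, (G.neighborSet v).ncard = d)
    (h3 : 3 ≤ d) (hlt : 1 < θ * Real.sqrt ((d : ℝ) - 1)) (h1 : θ ≤ 1) :
    ∀ ν, IsFreeIsing G θ ν → ¬ IsFactorOfIID G ν := by
  intro ν hν ⟨Φ, hΦ, hequiv, hmap⟩
  have hq : 1 ≤ d - 1 := by omega
  have hd' : ∀ v, (G.neighborSet v).ncard = (d - 1) + 1 := fun v => by rw [hd v]; omega
  have hcast : ((d : ℝ) - 1) = ((d - 1 : ℕ) : ℝ) := by
    rw [Nat.cast_sub (by omega : 1 ≤ d)]; norm_num
  rw [hcast] at hlt
  set q := d - 1 with hqdef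
  have hs : 0 < Real.sqrt q := Real.sqrt_pos.2 (by exact_mod_cast hq)
  have h0 : 0 < θ := by
    by_contra h
    nlinarith [not_lt.1 h]
  have : IsProbabilityMeasure ν := hmap ▸ Measure.isProbabilityMeasure_map hΦ.aemeasurable
  have hw : ∀ D P, 0 ≤ wgt G θ D P := by
    intro D P
    unfold wgt isingCylinder
    refine mul_nonneg (by norm_num) (Finset.prod_nonneg (fun e _ => ?_))
    induction e using Sym2.ind with
    | _ u v =>
      rw [edgeFactor_mk]
      unfold spin
      split_ifs <;> linarith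
  have hsm : ∀ v, Measurable (fun σ : V → Bool => spin (σ v)) := fun v =>
    (Measurable.of_discrete : Measurable spin).comp (measurable_pi_apply v)
  have transfer : ∀ {F : (V → Bool) → ℝ}, Measurable F →
      ∫ U, F (Φ U) ∂iidUniform V = ∫ σ, F σ ∂ν := fun {F} hF => by
    rw [← hmap, integral_map hΦ.aemeasurable hF.aestronglyMeasurable]
  have hsp : ∀ {D P : Finset V}, ∀ σ ∈ agree D P, ∀ v ∈ D, spin (σ v) = sp P v :=
    fun {D P} σ hσ v hv => by rw [hσ v hv, sp]
  have hmean : ∀ v, ∫ U, spin (Φ U v) ∂iidUniform V = 0 := by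
    intro v
    rw [transfer (hsm v)]
    have hc := connected_pathSet (G := G) (p := fun _ => v) (n := 0) (fun i hi => absurd hi (by omega))
    rw [integral_local hν hc (F' := fun P => sp P v)
      (fun P _ σ hσ => hsp σ hσ v (by simp [pathSet])) (hw _)]
    rw [show pathSet (fun _ => v) 0 = {v} by simp [pathSet], EI_singleton]
    simp [sp_eq]
  have hsq : ∀ b, spin b ^ 2 = 1 := fun b => by cases b <;> simp [spin]
  have hbd : ∀ b, |spin b| ≤ 1 := fun b => by cases b <;> simp [spin]
  -- geodesics of every length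
  obtain ⟨o⟩ := hT.connected.nonempty
  obtain ⟨b, hob⟩ : ∃ b, G.Adj o b :=
    (Set.nonempty_of_ncard_ne_zero (s := G.neighborSet o) (by rw [hd o]; omega))
  have main : ∀ n : ℕ, θ ^ n ≤ 4 * Real.sqrt q * ((n : ℝ) + 1) * (1 / Real.sqrt q) ^ n := by
    intro n
    obtain ⟨F, hF, hcard⟩ := exists_continuations hT hd' hob n
    obtain ⟨x, hx⟩ := Finset.card_pos.1 (lt_of_lt_of_le (pow_pos (by omega) n) hcard)
    obtain ⟨p, hp, _⟩ := exists_geod_through hT hob n x (hF x hx).1 (hF x hx).2
    have := edge_correlation hT hd' (fun v _ U => spin (Φ U v))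
      (fun v _ _ => (hsm v).comp hΦ) ⟨1, fun v _ _ U => hbd _⟩ (fun v _ _ => hmean v)
      (fun φ v _ _ => (hequiv φ).mono (fun U hU => by simp [hU])) hq n p hp.1 hp.2
    have hp' : IsGeod G n p := ⟨fun i hi => hp.1 i (by omega), by
      rw [hp.dist_eq hT (Nat.zero_le n) (Nat.le_succ n), Nat.sub_zero]⟩
    have hcor : ∫ U, spin (Φ U (p 0)) * spin (Φ U (p n)) ∂iidUniform V = θ ^ n := by
      rw [transfer (F := fun σ => spin (σ (p 0)) * spin (σ (p n))) ((hsm _).mul (hsm _)),
        integral_local hν (connected_pathSet hp'.1) (F' := fun P => sp P (p 0) * sp P (p n))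
          (fun P _ σ hσ => ?_) (hw _), EI_path hT n p hp']
      rw [hsp σ hσ (p 0) (Finset.mem_image.2 ⟨0, Finset.mem_range.2 (Nat.succ_pos n), rfl⟩),
        hsp σ hσ (p n) (Finset.mem_image.2 ⟨n, Finset.self_mem_range_succ n, rfl⟩)]
    simp only [hcor, hsq, integral_const, probReal_univ, smul_eq_mul, mul_one] at this
    exact (le_abs_self _).trans this
  set x := θ * Real.sqrt q with hx
  have hlim := (tendsto_pow_const_div_const_pow_of_one_lt 1 hlt).eventually
    (gt_mem_nhds (show (0 : ℝ) < 1 / (8 * Real.sqrt q) by positivity))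
  obtain ⟨n, hn, hn1⟩ := (hlim.and (eventually_ge_atTop 1)).exists
  have h2 := main n
  rw [div_pow, one_pow, mul_one_div, le_div_iff₀ (pow_pos hs n), ← mul_pow, ← hx] at h2
  rw [pow_one, div_lt_div_iff₀ (pow_pos (by linarith) n) (by positivity), one_mul] at hn
  have hn' : (1 : ℝ) ≤ n := by exact_mod_cast hn1
  nlinarith

end Vale.Agent.P161
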