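import Mathlib
import Vale.Agent.P161.Uniform

/-!
A finite hidden state observed through noisy coordinates that are revealed one after another:
sampling from i.i.d. uniform inputs, and the innovations of a sub-family of observations.
-/

open MeasureTheory Set Function
open scoped Classical

noncomputable section

namespace Vale.Agent.P161

variable {ι κ : Type*}

/-- A finite prior `w` on `S`, signs `sg` of the observed quantities, signal strength `ε`. -/
structure Model (ι κ : Type*) where
  S : Finset κ
  w : κ → ℝ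
  sg : ι → κ → ℝ
  ε : ℝ

/-- the model is well formed -/
structure Model.Good (M : Model ι κ) : Prop where
  wnn : ∀ η ∈ M.S, 0 ≤ M.w η
  wsum : ∑ η ∈ M.S, M.w η = 1
  sgle : ∀ i η, |M.sg i η| ≤ 1
  εnn : 0 ≤ M.ε
  εle : M.ε ≤ 1/2

namespace Model

variable (M : Model ι κ)

/-- likelihood of the observations in `a` -/
def L (a : Finset ι) (x : ι → ℝ) (η : κ) : ℝ := ∏ j ∈ a, (1 + M.ε * M.sg j η * cc (x j))

/-- density of the observations in `a` -/
def den (a : Finset ι) (x : ι → ℝ) : ℝ := ∑ η ∈ M.S, M.w η * M.L a x η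

/-- numerator of the posterior mean of `sg i` -/
def num (i : ι) (a : Finset ι) (x : ι → ℝ) : ℝ := ∑ η ∈ M.S, M.w η * M.L a x η * M.sg i η

/-- posterior mean of `sg i` given the observations in `a` -/
def mean (i : ι) (a : Finset ι) (x : ι → ℝ) : ℝ := M.num i a x / M.den a x

/-- observations of `s` strictly before `i` -/
def pre (e : ι → ι → Prop) (s : Finset ι) (i : ι) : Finset ι := s.filter (fun j => e j i)

/-- one round of the sampling recursion -/
def step (e : ι → ι → Prop) (s : Finset ι) (z x : ι → ℝ) : ι → ℝ := fun i =>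
  if i ∈ s then Qv (M.ε * M.mean i (pre e s i) x) (z i) else 0

/-- the observations produced from the uniform inputs `z` -/
def sol (e : ι → ι → Prop) (s : Finset ι) (z : ι → ℝ) : ι → ℝ :=
  (M.step e s z)^[s.card] (fun _ => 0)

/-- innovations of the observations in `t`, inside the sample from `s` -/
def innov (e : ι → ι → Prop) (t s : Finset ι) (z : ι → ℝ) : ι → ℝ := fun i =>
  if i ∈ t then Fv (M.ε * M.mean i (pre e t i) (M.sol e s z)) (M.sol e s z i) else z i

variable {M}

section basic

variable (hM : M.Good)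

include hM

lemma factor_bounds (j : ι) (η : κ) (y : ℝ) :
    1/2 ≤ 1 + M.ε * M.sg j η * cc y ∧ 1 + M.ε * M.sg j η * cc y ≤ 3/2 := by
  have h : |M.ε * M.sg j η * cc y| ≤ 1/2 := by
    rw [abs_mul, abs_mul, abs_of_nonneg hM.εnn]
    calc M.ε * |M.sg j η| * |cc y| ≤ (1/2) * 1 * 1 := by
          refine mul_le_mul (mul_le_mul hM.εle (hM.sgle j η) (abs_nonneg _) (by norm_num))
            (abs_cc y) (abs_nonneg _) (by norm_num)
      _ = 1/2 := by norm_num
  constructor <;> linarith [(abs_le.1 h).1, (abs_le.1 h).2]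

lemma L_pos (a : Finset ι) (x : ι → ℝ) (η : κ) : 0 < M.L a x η :=
  Finset.prod_pos (fun j _ => by linarith [(factor_bounds hM j η (x j)).1])

lemma den_pos' (a : Finset ι) (x : ι → ℝ) : 0 < M.den a x := by
  obtain ⟨η, hη, hw⟩ : ∃ η ∈ M.S, 0 < M.w η := by
    by_contra h
    push Not at h
    have := Finset.sum_nonpos h
    rw [hM.wsum] at this
    linarith
  exact Finset.sum_pos' (fun η hη => mul_nonneg (hM.wnn η hη) (L_pos hM a x η).le)
    ⟨η, hη, mul_pos hw (L_pos hM a x η)⟩

lemma den_mul_mean (i : ι) (a : Finset ι) (x : ι → ℝ) :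
    M.den a x * M.mean i a x = M.num i a x := by
  unfold Model.mean
  field_simp [(den_pos' hM a x).ne']

lemma abs_mean_le (i : ι) (a : Finset ι) (x : ι → ℝ) : |M.mean i a x| ≤ 1 := by
  rw [Model.mean, abs_div, abs_of_pos (den_pos' hM a x), div_le_one (den_pos' hM a x)]
  refine (Finset.abs_sum_le_sum_abs _ _).trans (Finset.sum_le_sum (fun η hη => ?_))
  rw [abs_mul, abs_of_nonneg (mul_nonneg (hM.wnn η hη) (L_pos hM a x η).le)]
  exact mul_le_of_le_one_right (mul_nonneg (hM.wnn η hη) (L_pos hM a x η).le) (hM.sgle i η)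

lemma abs_εmean_le (i : ι) (a : Finset ι) (x : ι → ℝ) : |M.ε * M.mean i a x| ≤ 1/2 := by
  rw [abs_mul, abs_of_nonneg hM.εnn]
  calc M.ε * |M.mean i a x| ≤ (1/2) * 1 :=
        mul_le_mul hM.εle (abs_mean_le hM i a x) (abs_nonneg _) (by norm_num)
    _ = 1/2 := by norm_num

lemma bm_L (a : Finset ι) (η : κ) : BM (fun x : ι → ℝ => M.L a x η) :=
  BM.prod a (fun j _ => (BM.const 1).add (((BM.const (M.ε * M.sg j η))).mul (bm_cc_eval j)))

lemma bm_den (a : Finset ι) : BM (fun x : ι → ℝ => M.den a x) :=
  BM.sum M.S (fun η _ => (BM.const (M.w η)).mul (bm_L hM a η))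

lemma bm_num (i : ι) (a : Finset ι) : BM (fun x : ι → ℝ => M.num i a x) :=
  BM.sum M.S (fun η _ => ((BM.const (M.w η)).mul (bm_L hM a η)).mul (BM.const (M.sg i η)))

lemma bm_mean (i : ι) (a : Finset ι) : BM (fun x : ι → ℝ => M.mean i a x) :=
  ⟨(bm_num hM i a).1.div (bm_den hM a).1, 1, fun x => abs_mean_le hM i a x⟩

omit hM in
lemma dep_L (a : Finset ι) (η : κ) : Dep (a : Set ι) (fun x => M.L a x η) := by
  intro x x' h
  exact Finset.prod_congr rfl (fun j hj => by rw [h j hj])

omit hM in
lemma dep_den (a : Finset ι) : Dep (a : Set ι) (fun x => M.den a x) := by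
  intro x x' h
  exact Finset.sum_congr rfl (fun η _ => by
    rw [show M.L a x η = M.L a x' η from dep_L a η x x' h])

omit hM in
lemma dep_num (i : ι) (a : Finset ι) : Dep (a : Set ι) (fun x => M.num i a x) := by
  intro x x' h
  exact Finset.sum_congr rfl (fun η _ => by
    rw [show M.L a x η = M.L a x' η from dep_L a η x x' h])

omit hM in
lemma dep_mean (i : ι) (a : Finset ι) : Dep (a : Set ι) (fun x => M.mean i a x) := by
  intro x x' h
  show M.num i a x / M.den a x = M.num i a x' / M.den a x'
  rw [show M.num i a x = M.num i a x' from dep_num i a x x' h,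
    show M.den a x = M.den a x' from dep_den a x x' h]

/-- integrating out one observation -/
lemma integral_L_insert {a : Finset ι} {j : ι} (hj : j ∉ a) (η : κ) {φ : (ι → ℝ) → ℝ}
    (hφ : BM φ) (hd : ∀ x y, φ (update x j y) = φ x) :
    ∫ x, φ x * M.L (insert j a) x η ∂PU ι = ∫ x, φ x * M.L a x η ∂PU ι := by
  have h0 : ∀ x, φ x * M.L (insert j a) x η
      = φ x * M.L a x η + (cc (x j) * (φ x * M.L a x η)) * (M.ε * M.sg j η) := by
    intro x
    rw [Model.L, Finset.prod_insert hj, Model.L]
    ring
  simp only [h0]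
  have hb := hφ.mul (bm_L hM a η)
  rw [integral_add (hb.integrable _) ((((bm_cc_eval j).mul hb).integrable _).mul_const _),
    integral_mul_const, integral_mul_eq_zero j (bm_cc_eval j) hb (fun x y => by
      rw [hd, (dep_L a η).update (by simpa using hj)]) (fun x => by simp [integral_cc]),
    zero_mul, add_zero]

lemma integral_L_mono {a b : Finset ι} (hab : a ⊆ b) (η : κ) {φ : (ι → ℝ) → ℝ}
    (hφ : BM φ) (hd : ∀ j ∈ b, j ∉ a → ∀ x y, φ (update x j y) = φ x) :
    ∫ x, φ x * M.L b x η ∂PU ι = ∫ x, φ x * M.L a x η ∂PU ι := by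
  suffices key : ∀ c : Finset ι, Disjoint c a → c ⊆ b →
      ∫ x, φ x * M.L (c ∪ a) x η ∂PU ι = ∫ x, φ x * M.L a x η ∂PU ι by
    have := key (b \ a) Finset.sdiff_disjoint Finset.sdiff_subset
    rwa [Finset.sdiff_union_of_subset hab] at this
  intro c
  induction c using Finset.induction with
  | empty => simp
  | insert j c hj ih =>
    intro hdis hsub
    rw [Finset.disjoint_insert_left] at hdis
    rw [Finset.insert_subset_iff] at hsub
    rw [Finset.insert_union, integral_L_insert hM (by simp [hj, hdis.1]) η hφ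
      (hd j hsub.1 hdis.1), ih hdis.2 hsub.2]

lemma integral_weighted_mono {a b : Finset ι} (hab : a ⊆ b) {φ : (ι → ℝ) → ℝ}
    (hφ : BM φ) (hd : ∀ j ∈ b, j ∉ a → ∀ x y, φ (update x j y) = φ x) (g : κ → ℝ) :
    ∫ x, φ x * (∑ η ∈ M.S, M.w η * M.L b x η * g η) ∂PU ι
      = ∫ x, φ x * (∑ η ∈ M.S, M.w η * M.L a x η * g η) ∂PU ι := by
  have h : ∀ c : Finset ι, ∀ x, φ x * (∑ η ∈ M.S, M.w η * M.L c x η * g η)
      = ∑ η ∈ M.S, (φ x * M.L c x η) * (M.w η * g η) := by
    intro c x
    rw [Finset.mul_sum]
    exact Finset.sum_congr rfl (fun η _ => by ring)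
  simp only [h]
  rw [integral_finset_sum _ (fun η _ => ((hφ.mul (bm_L hM b η)).integrable _).mul_const _),
    integral_finset_sum _ (fun η _ => ((hφ.mul (bm_L hM a η)).integrable _).mul_const _)]
  exact Finset.sum_congr rfl (fun η _ => by
    rw [integral_mul_const, integral_mul_const, integral_L_mono hM hab η hφ hd])

lemma integral_den_mono {a b : Finset ι} (hab : a ⊆ b) {φ : (ι → ℝ) → ℝ}
    (hφ : BM φ) (hd : ∀ j ∈ b, j ∉ a → ∀ x y, φ (update x j y) = φ x) :
    ∫ x, φ x * M.den b x ∂PU ι = ∫ x, φ x * M.den a x ∂PU ι := by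
  simpa [Model.den] using integral_weighted_mono hM hab hφ hd (fun _ => 1)

lemma integral_num_mono (i : ι) {a b : Finset ι} (hab : a ⊆ b) {φ : (ι → ℝ) → ℝ}
    (hφ : BM φ) (hd : ∀ j ∈ b, j ∉ a → ∀ x y, φ (update x j y) = φ x) :
    ∫ x, φ x * M.num i b x ∂PU ι = ∫ x, φ x * M.num i a x ∂PU ι :=
  integral_weighted_mono hM hab hφ hd (M.sg i)

/-- orthogonality of posterior means for nested information -/
lemma mean_pythagoras (i : ι) {b a : Finset ι} (hba : b ⊆ a) :
    ∫ x, (M.mean i a x - M.mean i b x) ^ 2 * M.den a x ∂PU ι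
      = ∫ x, M.mean i a x ^ 2 * M.den a x ∂PU ι - ∫ x, M.mean i b x ^ 2 * M.den b x ∂PU ι := by
  have e : ∀ x, (M.mean i a x - M.mean i b x) ^ 2 * M.den a x
      = M.mean i a x ^ 2 * M.den a x - (2 * (M.mean i b x * M.num i a x)
        - M.mean i b x ^ 2 * M.den a x) := by
    intro x
    rw [← den_mul_mean hM i a x]
    ring
  simp only [e]
  have hma := bm_mean hM i a
  have hmb := bm_mean hM i b
  have i1 : Integrable (fun x => M.mean i a x ^ 2 * M.den a x) (PU ι) :=
    (hma.sq.mul (bm_den hM a)).integrable _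
  have i2 : Integrable (fun x => 2 * (M.mean i b x * M.num i a x)) (PU ι) :=
    ((hmb.mul (bm_num hM i a)).integrable _).const_mul 2
  have i3 : Integrable (fun x => M.mean i b x ^ 2 * M.den a x) (PU ι) :=
    (hmb.sq.mul (bm_den hM a)).integrable _
  rw [integral_sub i1 (by exact i2.sub i3), integral_sub i2 i3, integral_const_mul]
  have h1 : ∫ x, M.mean i b x * M.num i a x ∂PU ι = ∫ x, M.mean i b x ^ 2 * M.den b x ∂PU ι := by
    rw [integral_num_mono hM i hba hmb (fun j _ hj x y => (dep_mean i b).update (by simpa using hj) x y)]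
    refine integral_congr_ae (ae_of_all _ (fun x => ?_))
    simp only
    rw [← den_mul_mean hM i b x]; ring
  have h2 : ∫ x, M.mean i b x ^ 2 * M.den a x ∂PU ι = ∫ x, M.mean i b x ^ 2 * M.den b x ∂PU ι :=
    integral_den_mono hM hba hmb.sq (fun j _ hj x y => by
      rw [(dep_mean i b).update (by simpa using hj) x y])
  rw [h1, h2]
  ring

lemma den_insert {t : Finset ι} {j : ι} (hj : j ∉ t) (x : ι → ℝ) (y : ℝ) :
    M.den (insert j t) (update x j y)
      = M.den t x * (1 + M.ε * M.mean j t x * cc y) := by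
  have h : ∀ η, M.L (insert j t) (update x j y) η
      = (1 + M.ε * M.sg j η * cc y) * M.L t x η := by
    intro η
    rw [Model.L, Finset.prod_insert hj, update_self, Model.L]
    congr 1
    exact Finset.prod_congr rfl (fun k hk => by
      rw [update_of_ne (fun e => hj (by subst e; exact hk))])
  have h2 : M.den (insert j t) (update x j y) = M.den t x + M.ε * cc y * M.num j t x := by
    simp only [Model.den, Model.num, h, Finset.mul_sum, ← Finset.sum_add_distrib]
    exact Finset.sum_congr rfl (fun η _ => by ring)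
  rw [h2, ← den_mul_mean hM j t x]
  ring

end basic

section order

variable {e : ι → ι → Prop} (hirr : ∀ a, ¬ e a a) (htr : ∀ a b c, e a b → e b c → e a c)

include hirr htr

lemma card_pre_lt {s : Finset ι} {i j : ι} (hj : j ∈ pre e s i) :
    (pre e s j).card < (pre e s i).card := by
  refine Finset.card_lt_card ((Finset.ssubset_iff_of_subset ?_).2 ⟨j, hj, ?_⟩)
  · intro k hk
    simp only [pre, Finset.mem_filter] at hk hj ⊢
    exact ⟨hk.1, htr k j i hk.2 hj.2⟩
  · simp [pre, hirr j]

lemma iterate_agree {s : Finset ι} (z : ι → ℝ) {x : ι → ℝ}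
    (hx : ∀ i ∈ s, x i = M.step e s z x i) (x0 : ι → ℝ) :
    ∀ n, ∀ i ∈ s, (pre e s i).card < n → (M.step e s z)^[n] x0 i = x i := by
  intro n
  induction n with
  | zero => intro i _ h; omega
  | succ n ih =>
    intro i hi hc
    rw [iterate_succ', comp_apply, hx i hi]
    simp only [Model.step, if_pos hi]
    rw [show M.mean i (pre e s i) ((M.step e s z)^[n] x0) = M.mean i (pre e s i) x from
      dep_mean i _ _ _ (fun j hj => ih j (Finset.mem_filter.1 hj).1
        (by have := card_pre_lt (s := s) hirr htr hj; omega))]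

lemma sol_fixed (s : Finset ι) (z : ι → ℝ) :
    ∀ i ∈ s, M.sol e s z i = M.step e s z (M.sol e s z) i := by
  have key : ∀ n, ∀ i ∈ s, (pre e s i).card < n → ∀ m, n ≤ m →
      (M.step e s z)^[n] (fun _ => 0) i = (M.step e s z)^[m] (fun _ => 0) i := by
    intro n
    induction n with
    | zero => intro i _ h; omega
    | succ n ih =>
      intro i hi hc m hm
      obtain ⟨m', rfl⟩ : ∃ m', m = m' + 1 := ⟨m - 1, by omega⟩
      rw [iterate_succ', comp_apply, iterate_succ', comp_apply]
      simp only [Model.step, if_pos hi]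
      rw [show M.mean i (pre e s i) ((M.step e s z)^[n] (fun _ => 0))
          = M.mean i (pre e s i) ((M.step e s z)^[m'] (fun _ => 0)) from
        dep_mean i _ _ _ (fun j hj => ih j (Finset.mem_filter.1 hj).1
          (by have := card_pre_lt (s := s) hirr htr hj; omega) m' (by omega))]
  intro i hi
  have hlt : (pre e s i).card < s.card := by
    refine Finset.card_lt_card ((Finset.ssubset_iff_of_subset (Finset.filter_subset _ _)).2
      ⟨i, hi, ?_⟩)
    simp [pre, hirr i]
  have := key s.card i hi hlt (s.card + 1) (Nat.le_succ _)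
  rw [iterate_succ', comp_apply] at this
  exact this

lemma sol_eq_of_fixed {s : Finset ι} (z : ι → ℝ) {x : ι → ℝ}
    (hx : ∀ i ∈ s, x i = M.step e s z x i) : ∀ i ∈ s, M.sol e s z i = x i := by
  intro i hi
  refine iterate_agree hirr htr z hx _ s.card i hi ?_
  refine Finset.card_lt_card ((Finset.ssubset_iff_of_subset (Finset.filter_subset _ _)).2
    ⟨i, hi, ?_⟩)
  simp [pre, hirr i]

lemma sol_mem (s : Finset ι) (z : ι → ℝ) {i : ι} (hi : i ∈ s) :
    M.sol e s z i ∈ Icc (0:ℝ) 1 := by
  rw [sol_fixed hirr htr s z i hi]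
  simp only [Model.step, if_pos hi]
  exact Qv_mem _ _

lemma sol_downclosed {s t : Finset ι} (hts : t ⊆ s) (hdc : ∀ j ∈ s, ∀ i ∈ t, e j i → j ∈ t)
    (z : ι → ℝ) : ∀ i ∈ t, M.sol e t z i = M.sol e s z i := by
  refine sol_eq_of_fixed hirr htr z (fun i hi => ?_)
  rw [sol_fixed hirr htr s z i (hts hi)]
  simp only [Model.step, if_pos hi, if_pos (hts hi)]
  have : pre e s i = pre e t i := by
    ext j
    simp only [pre, Finset.mem_filter]
    exact ⟨fun h => ⟨hdc j h.1 i hi h.2, h.2⟩, fun h => ⟨hts h.1, h.2⟩⟩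
  rw [this]

lemma exists_maximal_elem : ∀ s : Finset ι, s.Nonempty → ∃ j ∈ s, ∀ k ∈ s, ¬ e j k := by
  intro s hs
  obtain ⟨j, hj, hmax⟩ := Finset.exists_max_image s (fun i => (pre e s i).card) hs
  refine ⟨j, hj, fun k hk hjk => ?_⟩
  have := card_pre_lt (s := s) hirr htr (show j ∈ pre e s k by simp [pre, hj, hjk])
  have := hmax k hk
  omega

omit hirr htr in
lemma dep_sol (s : Finset ι) (i : ι) : Dep (s : Set ι) (fun z => M.sol e s z i) := by
  intro z z' h
  have : M.step e s z = M.step e s z' := by
    funext x k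
    simp only [Model.step]
    split_ifs with hk
    · rw [h k hk]
    · rfl
  simp only [Model.sol, this]

omit hirr htr in
lemma measurable_sol (hM : M.Good) (s : Finset ι) : Measurable (fun z => M.sol e s z) := by
  have h : ∀ n, Measurable (fun z => (M.step e s z)^[n] (fun _ => 0)) := by
    intro n
    induction n with
    | zero => simp
    | succ n ih =>
      simp only [iterate_succ', comp_apply]
      apply measurable_pi_lambda
      intro i
      by_cases hi : i ∈ s
      · simp only [Model.step, if_pos hi]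
        exact measurable_Qv (measurable_const.mul ((bm_mean hM i _).1.comp ih))
          (measurable_pi_apply i)
      · simp only [Model.step, if_neg hi]
        exact measurable_const
  exact h s.card

variable (hM : M.Good)

include hM

/-- the law of the sample is `den s` -/
lemma law_sol : ∀ (n : ℕ) (s : Finset ι), s.card = n →
    (∀ a ∈ s, ∀ b ∈ s, a ≠ b → e a b ∨ e b a) → ∀ φ : (ι → ℝ) → ℝ, BM φ → Dep (s : Set ι) φ →
    ∫ z, φ (M.sol e s z) ∂PU ι = ∫ x, φ x * M.den s x ∂PU ι := by
  intro n
  induction n with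
  | zero =>
    intro s hs _ φ _ hd
    rw [Finset.card_eq_zero] at hs
    subst hs
    have h : ∀ x x', φ x = φ x' := fun x x' => hd x x' (by simp)
    refine integral_congr_ae (ae_of_all _ (fun x => ?_))
    simp only [Model.den, Model.L, Finset.prod_empty, mul_one, hM.wsum]
    exact h _ _
  | succ n ih =>
    intro s hs htot φ hφ hd
    have hne : s.Nonempty := Finset.card_pos.1 (by omega)
    obtain ⟨j, hj, hmax⟩ := exists_maximal_elem hirr htr s hne
    set t := s.erase j with ht
    have hjt : j ∉ t := Finset.notMem_erase j s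
    have hins : insert j t = s := Finset.insert_erase hj
    have hpre : pre e s j = t := by
      ext k
      simp only [pre, Finset.mem_filter, ht, Finset.mem_erase]
      constructor
      · intro h
        exact ⟨fun c => hirr j (c ▸ h.2), h.1⟩
      · intro h
        exact ⟨h.2, (htot k h.2 j hj h.1).resolve_right (hmax k h.2)⟩
    have hsol : ∀ z, φ (M.sol e s z)
        = φ (update (M.sol e t z) j (Qv (M.ε * M.mean j t (M.sol e t z)) (z j))) := by
      intro z
      apply hd
      intro i hi
      have hdc := sol_downclosed (M := M) hirr htr (Finset.erase_subset j s)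
        (fun k hk i hi hki => Finset.mem_erase.2
          ⟨fun c => hmax i (Finset.mem_of_mem_erase hi) (c ▸ hki), hk⟩) z
      by_cases hij : i = j
      · subst hij
        rw [update_self, sol_fixed hirr htr s z i hi]
        simp only [Model.step, if_pos (Finset.mem_coe.1 hi), hpre]
        rw [show M.mean i t (M.sol e s z) = M.mean i t (M.sol e t z) from
          dep_mean i t _ _ (fun k hk => (hdc k hk).symm)]
      · rw [update_of_ne hij, hdc i (Finset.mem_erase.2 ⟨hij, hi⟩)]
    simp only [hsol]
    have hst := measurable_sol (M := M) (e := e) hM t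
    have hbm : BM (fun p : (ι → ℝ) × ℝ => φ (update p.1 j (Qv (M.ε * M.mean j t p.1) p.2))) :=
      hφ.comp ((measurable_upd j).comp (measurable_fst.prodMk
        (measurable_Qv (measurable_const.mul ((bm_mean hM j t).1.comp measurable_fst))
          measurable_snd)))
    have hbz : BM (fun z : ι → ℝ => φ (update (M.sol e t z) j
        (Qv (M.ε * M.mean j t (M.sol e t z)) (z j)))) :=
      BM.comp (F := fun p : (ι → ℝ) × ℝ => φ (update p.1 j (Qv (M.ε * M.mean j t p.1) p.2))) hbm
        (g := fun z : ι → ℝ => ((M.sol e t z, z j) : (ι → ℝ) × ℝ))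
        (hst.prodMk (measurable_pi_apply j))
    rw [integral_upd j hbz]
    have hsu : ∀ z y, M.sol e t (update z j y) = M.sol e t z := fun z y =>
      funext (fun i => (dep_sol t i).update (by simpa using hjt) z y)
    simp only [hsu, update_self]
    set ψ : (ι → ℝ) → ℝ :=
      fun x => ∫ y, φ (update x j (Qv (M.ε * M.mean j t x) y)) ∂lam with hψ
    have hψb : BM ψ := by
      obtain ⟨C, hC⟩ := hφ.2
      exact ⟨(StronglyMeasurable.integral_prod_right' hbm.1.stronglyMeasurable).measurable, C,
        fun x => abs_integral_lam_le (fun y => hC _)⟩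
    have hψd : Dep (t : Set ι) ψ := by
      intro x x' h
      simp only [hψ]
      refine integral_congr_ae (ae_of_all _ (fun y => hd _ _ (fun i hi => ?_)))
      by_cases hij : i = j
      · subst hij
        simp only [update_self]
        rw [show M.mean i t x = M.mean i t x' from dep_mean i t x x' h]
      · simp only [update_of_ne hij]
        exact h i (Finset.mem_erase.2 ⟨hij, hi⟩)
    calc ∫ z, ψ (M.sol e t z) ∂PU ι = ∫ x, ψ x * M.den t x ∂PU ι :=
          ih t (by rw [ht, Finset.card_erase_of_mem hj]; omega)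
            (fun a ha b hb => htot a (Finset.mem_of_mem_erase ha) b (Finset.mem_of_mem_erase hb))
            ψ hψb hψd
      _ = ∫ x, (∫ y, φ (update x j y) * M.den s (update x j y) ∂lam) ∂PU ι := by
          refine integral_congr_ae (ae_of_all _ (fun x => ?_))
          simp only [hψ]
          rw [integral_Qv (abs_εmean_le hM j t x) (fun y => φ (update x j y)), ← integral_mul_const]
          refine integral_congr_ae (ae_of_all _ (fun y => ?_))
          simp only
          rw [← hins, den_insert hM hjt x y]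
          ring
      _ = ∫ x, φ x * M.den s x ∂PU ι := (integral_upd j (hφ.mul (bm_den hM s))).symm

lemma sol_innov {t s : Finset ι} (hts : t ⊆ s) (z : ι → ℝ) :
    ∀ i ∈ t, M.sol e t (M.innov e t s z) i = M.sol e s z i := by
  refine sol_eq_of_fixed hirr htr _ (fun i hi => ?_)
  simp only [Model.step, Model.innov, if_pos hi]
  exact (Qv_Fv (abs_εmean_le hM i _ _) (sol_mem hirr htr s z (hts hi))).symm

omit hirr htr in
lemma measurable_innov (t s : Finset ι) : Measurable (fun z => M.innov e t s z) := by
  apply measurable_pi_lambda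
  intro i
  by_cases hi : i ∈ t
  · simp only [Model.innov, if_pos hi, Fv]
    have h1 := (measurable_pi_apply i).comp (measurable_sol (M := M) (e := e) hM s)
    have h2 := (measurable_const (a := M.ε)).mul ((bm_mean hM i (pre e t i)).1.comp
      (measurable_sol (M := M) (e := e) hM s))
    exact h1.add (h2.mul ((h1.pow_const 2).sub h1))
  · simp only [Model.innov, if_neg hi]
    exact measurable_pi_apply i

lemma self_innov (s : Finset ι) (z : ι → ℝ) {i : ι} (hi : i ∈ s) :
    M.innov e s s z i = cl (z i) := by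
  simp only [Model.innov, if_pos hi]
  have h : M.sol e s z i = Qv (M.ε * M.mean i (pre e s i) (M.sol e s z)) (z i) := by
    conv_lhs => rw [sol_fixed hirr htr s z i hi]
    simp only [Model.step, if_pos hi]
  rw [h]
  have h2 := Fv_Qv (M.ε * M.mean i (pre e s i) (M.sol e s z)) (z i)
  rwa [clh_of_abs_le (abs_εmean_le hM i _ _)] at h2

/-- innovations are again uniform -/
lemma law_innov {t s : Finset ι} (hts : t ⊆ s)
    (htot : ∀ a ∈ s, ∀ b ∈ s, a ≠ b → e a b ∨ e b a)
    {φ : (ι → ℝ) → ℝ} (hφ : BM φ) (hd : Dep (t : Set ι) φ)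
    (hcl : ∀ z, φ (fun i => cl (z i)) = φ z) :
    ∫ z, φ (M.innov e t s z) ∂PU ι = ∫ z, φ z ∂PU ι := by
  set R : (ι → ℝ) → ι → ℝ := fun x i =>
    if i ∈ t then Fv (M.ε * M.mean i (pre e t i) x) (x i) else 0 with hR
  have hRm : Measurable R := by
    apply measurable_pi_lambda
    intro i
    by_cases hi : i ∈ t
    · simp only [hR, if_pos hi, Fv]
      exact (measurable_pi_apply i).add ((measurable_const.mul (bm_mean hM i _).1).mul
        (((measurable_pi_apply i).pow_const 2).sub (measurable_pi_apply i)))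
    · simp only [hR, if_neg hi]; exact measurable_const
  have hψb : BM (fun x => φ (R x)) := hφ.comp hRm
  have hψd : Dep (t : Set ι) (fun x => φ (R x)) := by
    intro x x' h
    apply hd
    intro i hi
    simp only [hR, if_pos (Finset.mem_coe.1 hi)]
    rw [h i hi, show M.mean i (pre e t i) x = M.mean i (pre e t i) x' from
      dep_mean i _ x x' (fun j hj => h j (Finset.mem_filter.1 hj).1)]
  have e1 : ∀ z, φ (M.innov e t s z) = φ (R (M.sol e s z)) := fun z =>
    hd _ _ (fun i hi => by simp [hR, Model.innov, Finset.mem_coe.1 hi])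
  simp only [e1]
  rw [law_sol hirr htr hM s.card s rfl htot _ hψb (hψd.mono (by simpa using hts)),
    integral_den_mono hM hts hψb (fun j _ hj x y => hψd.update (by simpa using hj) x y),
    ← law_sol hirr htr hM t.card t rfl (fun a ha b hb => htot a (hts ha) b (hts hb)) _ hψb hψd]
  refine integral_congr_ae (ae_of_all _ (fun z => ?_))
  simp only
  rw [← hcl z]
  refine hd _ _ (fun i hi => ?_)
  simp only [hR, if_pos (Finset.mem_coe.1 hi)]
  have := self_innov hirr htr hM t z (Finset.mem_coe.1 hi)
  simpa [Model.innov, Finset.mem_coe.1 hi] using this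

lemma innov_close {t s : Finset ι} (hts : t ⊆ s) (z : ι → ℝ) {i : ι} (hi : i ∈ t) :
    |cl (M.innov e t s z i) - cl (z i)|
      ≤ M.ε / 4 * |M.mean i (pre e t i) (M.sol e s z) - M.mean i (pre e s i) (M.sol e s z)| := by
  rw [← cl_idem (z i), ← self_innov hirr htr hM s z (hts hi)]
  refine (abs_cl_sub_le _ _).trans ?_
  simp only [Model.innov, if_pos hi, if_pos (hts hi), Fv]
  set x := M.sol e s z i
  set m := M.mean i (pre e t i) (M.sol e s z)
  set m' := M.mean i (pre e s i) (M.sol e s z)
  rw [show x + M.ε * m * (x ^ 2 - x) - (x + M.ε * m' * (x ^ 2 - x))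
      = M.ε * (m - m') * (x ^ 2 - x) by ring, abs_mul, abs_mul, abs_of_nonneg hM.εnn]
  calc M.ε * |m - m'| * |x ^ 2 - x| ≤ M.ε * |m - m'| * (1/4) :=
        mul_le_mul_of_nonneg_left (abs_sq_sub_self (sol_mem hirr htr s z (hts hi)))
          (mul_nonneg hM.εnn (abs_nonneg _))
    _ = _ := by ring

lemma mean_diff_sq {t s : Finset ι} (hts : t ⊆ s)
    (htot : ∀ a ∈ s, ∀ b ∈ s, a ≠ b → e a b ∨ e b a) (i : ι) :
    ∫ z, (M.mean i (pre e t i) (M.sol e s z) - M.mean i (pre e s i) (M.sol e s z)) ^ 2 ∂PU ι
      = ∫ z, M.mean i (pre e s i) (M.sol e s z) ^ 2 ∂PU ι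
        - ∫ z, M.mean i (pre e t i) (M.sol e t z) ^ 2 ∂PU ι := by
  have hsub : pre e t i ⊆ pre e s i := Finset.filter_subset_filter _ hts
  have hps : pre e s i ⊆ s := Finset.filter_subset _ _
  have hpt : pre e t i ⊆ t := Finset.filter_subset _ _
  have dt : Dep (pre e t i : Set ι) (fun x => M.mean i (pre e t i) x) := dep_mean i _
  have ds : Dep (pre e s i : Set ι) (fun x => M.mean i (pre e s i) x) := dep_mean i _
  have bt := bm_mean hM i (pre e t i)
  have bs := bm_mean hM i (pre e s i)
  have d0 : Dep (pre e s i : Set ι)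
      (fun x => (M.mean i (pre e t i) x - M.mean i (pre e s i) x) ^ 2) := fun x x' h => by
    simp only [(dt.mono (by simpa using hsub)) x x' h, ds x x' h]
  have l0 := law_sol hirr htr hM s.card s rfl htot _ (bt.sub bs).sq (d0.mono (by simpa using hps))
  have m0 := integral_den_mono hM hps (bt.sub bs).sq
    (fun j _ hj x y => d0.update (by simpa using hj) x y)
  have l1 := law_sol hirr htr hM s.card s rfl htot _ bs.sq
    ((show Dep (pre e s i : Set ι) (fun x => M.mean i (pre e s i) x ^ 2) from
      fun x x' h => by simp only [ds x x' h]).mono (by simpa using hps))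
  have m1 := integral_den_mono hM hps bs.sq
    (fun j _ hj x y => by rw [ds.update (by simpa using hj) x y])
  have l2 := law_sol hirr htr hM t.card t rfl (fun a ha b hb => htot a (hts ha) b (hts hb)) _ bt.sq
    ((show Dep (pre e t i : Set ι) (fun x => M.mean i (pre e t i) x ^ 2) from
      fun x x' h => by simp only [dt x x' h]).mono (by simpa using hpt))
  have m2 := integral_den_mono hM hpt bt.sq
    (fun j _ hj x y => by rw [dt.update (by simpa using hj) x y])
  rw [l0, m0, l1, m1, l2, m2, ← mean_pythagoras hM i hsub]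
  exact integral_congr_ae (ae_of_all _ (fun x => by ring))

end order

end Model

end Vale.Agent.P161
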