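import Mathlib
import Vale.Agent.P161.Tree
import Vale.Agent.P161.Ising
import Vale.Agent.P161.Innovation

/-!
The finite-volume samplers for the free Ising state and their stability as the volume grows.
-/

open MeasureTheory Set Function
open scoped Classical

noncomputable section

namespace Vale.Agent.P161

variable {V : Type*}

/-- the order in which observations are revealed: by round, then by the label of the vertex -/
def ord (U : V → ℝ) (a b : V × ℕ) : Prop := a.2 < b.2 ∨ (a.2 = b.2 ∧ U a.1 < U b.1)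

lemma ord_irrefl (U : V → ℝ) (a : V × ℕ) : ¬ ord U a a := by simp [ord]

lemma ord_trans (U : V → ℝ) (a b c : V × ℕ) (h : ord U a b) (h' : ord U b c) : ord U a c := by
  rcases h with h | ⟨h, k⟩ <;> rcases h' with h' | ⟨h', k'⟩
  · exact Or.inl (h.trans h')
  · exact Or.inl (h' ▸ h)
  · exact Or.inl (h ▸ h')
  · exact Or.inr ⟨h.trans h', k.trans k'⟩

lemma ord_total {U : V → ℝ} (hU : Injective U) (a b : V × ℕ) (h : a ≠ b) :
    ord U a b ∨ ord U b a := by
  rcases lt_trichotomy a.2 b.2 with h2 | h2 | h2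
  · exact Or.inl (Or.inl h2)
  · have h1 : a.1 ≠ b.1 := fun e => h (Prod.ext e h2)
    rcases lt_trichotomy (U a.1) (U b.1) with h3 | h3 | h3
    · exact Or.inl (Or.inr ⟨h2, h3⟩)
    · exact absurd (hU h3) h1
    · exact Or.inr (Or.inr ⟨h2.symm, h3⟩)
  · exact Or.inr (Or.inl h2)

lemma ord_le {U : V → ℝ} {a b : V × ℕ} (h : ord U a b) : a.2 ≤ b.2 := by
  rcases h with h | h
  · exact h.le
  · exact h.1.le

/-- observations up to round `k` in the volume `D` -/
def idx (D : Finset V) (k : ℕ) : Finset (V × ℕ) := D ×ˢ Finset.range (k + 1)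

lemma mem_idx {D : Finset V} {k : ℕ} {i : V × ℕ} : i ∈ idx D k ↔ i.1 ∈ D ∧ i.2 ≤ k := by
  simp [idx]

lemma pre_idx (U : V → ℝ) {D : Finset V} {k K : ℕ} (h : k ≤ K) {i : V × ℕ} (hi : i.2 ≤ k) :
    Model.pre (ord U) (idx D K) i = Model.pre (ord U) (idx D k) i := by
  ext j
  simp only [Model.pre, Finset.mem_filter, mem_idx]
  constructor
  · intro hj
    exact ⟨⟨hj.1.1, (ord_le hj.2).trans hi⟩, hj.2⟩
  · intro hj
    exact ⟨⟨hj.1.1, hj.1.2.trans h⟩, hj.2⟩

/-- parameters of the construction -/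
structure Par (V : Type*) where
  G : SimpleGraph V
  q : ℕ
  θ : ℝ
  r : ℝ
  C : ℝ
  ε : ℝ
  tree : G.IsTree
  deg : ∀ v, (G.neighborSet v).ncard = q + 1
  qpos : 1 ≤ q
  θnn : 0 ≤ θ
  θlt : θ < 1
  θr : θ < r
  qr : (q : ℝ) * r ^ 2 < 1
  εpos : 0 < ε
  εle : ε ≤ 1/2
  εC : 8 * ε ^ 2 * C ≤ 1/2
  conv : ∀ (v u : V) (W : Finset V), ∑ w ∈ W, θ ^ G.dist v w * r ^ G.dist w u
    ≤ C * r ^ G.dist v u

variable (P : Par V)

namespace Par

lemma rpos : 0 < P.r := lt_of_le_of_lt P.θnn P.θr

lemma fin : ∀ v, (P.G.neighborSet v).Finite := nb_finite P.deg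

/-- finite balls -/
def B (v : V) (n : ℕ) : Finset V := ball P.G P.fin v n

lemma geo_B (v : V) (n : ℕ) : Geo P.G (P.B v n) := geo_ball P.tree P.fin v n

lemma self_B (v : V) (n : ℕ) : v ∈ P.B v n := self_mem_ball P.tree P.fin v n

/-- the observation model in the volume `D` -/
def mdl (D : Finset V) : Model (V × ℕ) (Finset V) :=
  ⟨D.powerset, fun η => wgt P.G P.θ D η, fun i η => sp η i.1, P.ε⟩

lemma mdl_good {D : Finset V} (hD : Geo P.G D) (hne : D.Nonempty) : (P.mdl D).Good where
  wnn := fun η _ => (wgt_pos P.θnn P.θlt D η).le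
  wsum := by
    obtain ⟨v, hv⟩ := hne
    have h1 := EI_consistent (θ := P.θ) P.tree _ {v} D rfl (by simpa using hv) (geo_singleton v) hD
      (Finset.singleton_nonempty v) (fun _ => 1) (fun _ _ _ => rfl)
    rw [EI_singleton] at h1
    norm_num at h1
    simpa [mdl, EI] using h1
  sgle := fun i η => (abs_sp η i.1).le
  εnn := P.εpos.le
  εle := P.εle

lemma num_eq_EI (D : Finset V) (i : V × ℕ) (a : Finset (V × ℕ)) (x : V × ℕ → ℝ) :
    (P.mdl D).num i a x = EI P.G P.θ D (fun η => (P.mdl D).L a x η * sp η i.1) :=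
  Finset.sum_congr rfl (fun η _ => by simp only [mdl]; ring)

lemma den_eq_EI (D : Finset V) (a : Finset (V × ℕ)) (x : V × ℕ → ℝ) :
    (P.mdl D).den a x = EI P.G P.θ D (fun η => (P.mdl D).L a x η) := rfl

lemma L_eq (D M : Finset V) (a : Finset (V × ℕ)) (x : V × ℕ → ℝ) (η : Finset V) :
    (P.mdl M).L a x η = (P.mdl D).L a x η := rfl

lemma loc_L (D : Finset V) (a : Finset (V × ℕ)) (ha : ∀ j ∈ a, j.1 ∈ D) (x : V × ℕ → ℝ) :
    Loc D (fun η => (P.mdl D).L a x η) := by
  intro η η' h
  refine Finset.prod_congr rfl (fun j hj => ?_)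
  have := Loc.sp (ha j hj) η η' h
  simp only [mdl] at *
  rw [this]

lemma mean_consistent {D M : Finset V} (hD : Geo P.G D) (hM : Geo P.G M) (hDM : D ⊆ M)
    (i : V × ℕ) (hi : i.1 ∈ D) (a : Finset (V × ℕ)) (ha : ∀ j ∈ a, j.1 ∈ D) (x : V × ℕ → ℝ) :
    (P.mdl M).mean i a x = (P.mdl D).mean i a x := by
  have hne : D.Nonempty := ⟨i.1, hi⟩
  have h1 := EI_consistent (θ := P.θ) P.tree _ D M rfl hDM hD hM hne _ (P.loc_L D a ha x)
  have h2 := EI_consistent (θ := P.θ) P.tree _ D M rfl hDM hD hM hne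
    (fun η => (P.mdl D).L a x η * sp η i.1) (fun η η' h => by
      have e1 := P.loc_L D a ha x η η' h
      have e2 := Loc.sp hi η η' h
      simp only at e1 e2 ⊢
      rw [e1, e2])
  simp only [Model.mean, num_eq_EI, den_eq_EI, P.L_eq D M]
  rw [h1, h2]

lemma sol_consistent {D M : Finset V} (hD : Geo P.G D) (hM : Geo P.G M) (hDM : D ⊆ M)
    (U : V → ℝ) (k : ℕ) (z : V × ℕ → ℝ) : ∀ i ∈ idx D k,
    (P.mdl M).sol (ord U) (idx D k) z i = (P.mdl D).sol (ord U) (idx D k) z i := by
  refine Model.sol_eq_of_fixed (ord_irrefl U) (ord_trans U) z (fun i hi => ?_)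
  rw [Model.sol_fixed (ord_irrefl U) (ord_trans U) _ z i hi]
  simp only [Model.step, if_pos hi]
  rw [P.mean_consistent hD hM hDM i (mem_idx.1 hi).1 (Model.pre (ord U) (idx D k) i)
    (fun j hj => (mem_idx.1 (Finset.mem_filter.1 hj).1).1)]
  rfl

/-- the sampler in the volume `D` -/
def X (D : Finset V) (ω : (V → ℝ) × (V × ℕ → ℝ)) (i : V × ℕ) : ℝ :=
  (P.mdl D).sol (ord ω.1) (idx D i.2) ω.2 i

lemma sol_idx (D : Finset V) (U : V → ℝ) (z : V × ℕ → ℝ) {K : ℕ} {i : V × ℕ}
    (hi : i ∈ idx D K) : (P.mdl D).sol (ord U) (idx D K) z i = P.X D (U, z) i := by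
  refine (Model.sol_downclosed (ord_irrefl U) (ord_trans U) ?_ ?_ z i ?_).symm
  · intro j hj
    rw [mem_idx] at hi hj ⊢
    exact ⟨hj.1, hj.2.trans hi.2⟩
  · intro j hj l hl h
    rw [mem_idx] at hj hl ⊢
    exact ⟨hj.1, (ord_le h).trans hl.2⟩
  · rw [mem_idx] at hi ⊢
    exact ⟨hi.1, le_rfl⟩

/-- influence coefficients -/
def infl (i j : V × ℕ) : ℝ := 4 * 2 ^ i.2 * P.r ^ P.G.dist i.1 j.1

lemma infl_nn (i j : V × ℕ) : 0 ≤ P.infl i j := by
  have := P.rpos
  unfold infl
  positivity

lemma mean_clip {D : Finset V} (hD : Geo P.G D) (i : V × ℕ) (hi : i.1 ∈ D)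
    (a : Finset (V × ℕ)) (ha : ∀ j ∈ a, j.1 ∈ D) :
    CLip (fun x => (P.mdl D).mean i a x)
      (fun j => if j ∈ a then 8 * P.ε * P.θ ^ P.G.dist i.1 j.1 else 0) := by
  intro x j y
  by_cases hj : j ∈ a
  swap
  · have hd : Dep ((a : Finset (V × ℕ)) : Set (V × ℕ)) (fun x => (P.mdl D).mean i a x) :=
      Model.dep_mean (M := P.mdl D) i a
    have e := hd.update (j := j) (fun c => hj (Finset.mem_coe.1 c)) x y
    simp only [if_neg hj, zero_mul, abs_nonpos_iff, sub_eq_zero]
    exact e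
  set h : V → Bool → ℝ := fun v b =>
    ∏ l ∈ a.erase j with l.1 = v, (1 + P.ε * spin b * cc (x l)) with hh
  have hpos : ∀ v b, 0 < h v b := by
    intro v b
    refine Finset.prod_pos (fun l _ => ?_)
    have := abs_le.1 (abs_cc (x l))
    cases b <;> simp [spin] <;> nlinarith [P.εpos, P.εle]
  set Z := EI P.G P.θ D (fprod D h)
  set A := EI P.G P.θ D (fun η => fprod D h η * sp η i.1)
  set Cc := EI P.G P.θ D (fun η => fprod D h η * sp η j.1)
  set Bc := EI P.G P.θ D (fun η => fprod D h η * (sp η i.1 * sp η j.1))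
  have hL : ∀ c η, (P.mdl D).L a (update x j c) η
      = (1 + P.ε * sp η j.1 * cc c) * fprod D h η := by
    intro c η
    rw [Model.L, ← Finset.mul_prod_erase _ _ hj, update_self]
    congr 1
    unfold fprod
    rw [← Finset.prod_fiberwise_of_maps_to (g := fun l : V × ℕ => l.1)
      (fun l hl => ha l (Finset.mem_of_mem_erase hl))]
    refine Finset.prod_congr rfl (fun v _ => Finset.prod_congr rfl (fun l hl => ?_))
    rw [update_of_ne (Finset.ne_of_mem_erase (Finset.mem_filter.1 hl).1)]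
    simp only [mdl, sp, (Finset.mem_filter.1 hl).2]
  have hden : ∀ c, (P.mdl D).den a (update x j c) = Z + P.ε * cc c * Cc := by
    intro c
    rw [den_eq_EI, ← EI_const_mul, ← EI_add]
    exact EI_congr D (fun η _ => by rw [hL]; ring)
  have hnum : ∀ c, (P.mdl D).num i a (update x j c) = A + P.ε * cc c * Bc := by
    intro c
    rw [num_eq_EI, ← EI_const_mul, ← EI_add]
    exact EI_congr D (fun η _ => by rw [hL]; ring)
  have hZ : 0 < Z := EI_pos P.θnn P.θlt D (fprod_pos D hpos)
  have hC : |Cc| ≤ Z := by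
    refine (abs_EI_le P.θnn P.θlt D _).trans (le_of_eq (EI_congr D (fun η _ => ?_)))
    rw [abs_mul, abs_sp, mul_one, abs_of_pos (fprod_pos D hpos η)]
  have hd : ∀ c, Z / 2 ≤ Z + P.ε * cc c * Cc := by
    intro c
    have : |P.ε * cc c * Cc| ≤ Z / 2 := by
      rw [abs_mul, abs_mul, abs_of_pos P.εpos]
      calc P.ε * |cc c| * |Cc| ≤ (1/2) * 1 * Z :=
            mul_le_mul (mul_le_mul P.εle (abs_cc c) (abs_nonneg _) (by norm_num)) hC
              (abs_nonneg _) (by norm_num)
        _ = Z / 2 := by ring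
    linarith [(abs_le.1 this).1]
  have hcov : |Bc * Z - A * Cc| ≤ P.θ ^ P.G.dist i.1 j.1 * Z ^ 2 := by
    rw [P.G.dist_comm]
    exact cov_bound P.tree P.θnn P.θlt _ D rfl hD h hpos i.1 hi j.1 (ha j hj)
  have hx : update x j (x j) = x := update_eq_self j x
  have key : ∀ x' : V × ℕ → ℝ, x' = update x j y →
      |(P.mdl D).mean i a x' - (P.mdl D).mean i a x|
        = |(A + P.ε * cc y * Bc) / (Z + P.ε * cc y * Cc)
          - (A + P.ε * cc (x j) * Bc) / (Z + P.ε * cc (x j) * Cc)| := by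
    intro x' hx'
    subst hx'
    conv_lhs => arg 1; arg 2; rw [← hx]
    simp only [Model.mean, hnum, hden]
  simp only [if_pos hj]
  rw [key _ (by congr; exact Subsingleton.elim _ _)]
  have d1 := hd y
  have d2 := hd (x j)
  have p1 : 0 < Z + P.ε * cc y * Cc := by linarith
  have p2 : 0 < Z + P.ε * cc (x j) * Cc := by linarith
  rw [div_sub_div _ _ p1.ne' p2.ne', abs_div, abs_of_pos (mul_pos p1 p2),
    div_le_iff₀ (mul_pos p1 p2)]
  have e : (A + P.ε * cc y * Bc) * (Z + P.ε * cc (x j) * Cc)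
      - (Z + P.ε * cc y * Cc) * (A + P.ε * cc (x j) * Bc)
      = P.ε * (cc y - cc (x j)) * (Bc * Z - A * Cc) := by ring
  rw [e, cc_sub, abs_mul, abs_mul, abs_mul, abs_of_pos P.εpos, abs_two]
  have hprod : Z ^ 2 ≤ 4 * ((Z + P.ε * cc y * Cc) * (Z + P.ε * cc (x j) * Cc)) := by
    nlinarith [mul_le_mul d1 d2 (by linarith : (0:ℝ) ≤ Z / 2) p1.le]
  have hθ : 0 ≤ P.θ ^ P.G.dist i.1 j.1 := pow_nonneg P.θnn _
  calc P.ε * (2 * |cl y - cl (x j)|) * |Bc * Z - A * Cc|
      ≤ P.ε * (2 * |cl y - cl (x j)|) * (P.θ ^ P.G.dist i.1 j.1 *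
          (4 * ((Z + P.ε * cc y * Cc) * (Z + P.ε * cc (x j) * Cc)))) := by
        refine mul_le_mul_of_nonneg_left (hcov.trans (mul_le_mul_of_nonneg_left hprod hθ)) ?_
        have := P.εpos
        positivity
    _ = _ := by ring

lemma sol_clip {D : Finset V} (hD : Geo P.G D) (U : V → ℝ) (K : ℕ) (i : V × ℕ)
    (hi : i ∈ idx D K) :
    CLip (fun z => (P.mdl D).sol (ord U) (idx D K) z i) (P.infl i) := by
  intro z j y
  set z' := @Function.update (V × ℕ) (fun _ => ℝ) (fun a b => Classical.propDecidable (a = b)) z j y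
  set s := idx D K with hs
  set δ := |cl y - cl (z j)| with hδ
  set x := (P.mdl D).sol (ord U) s z
  set x' := (P.mdl D).sol (ord U) s z'
  set W : V × ℕ → ℝ := fun l => 2 ^ l.2 * P.r ^ P.G.dist l.1 j.1 with hW
  have hWpos : ∀ l, 0 < W l := fun l => mul_pos (by positivity) (pow_pos P.rpos _)
  obtain ⟨l0, hl0, hmax⟩ := Finset.exists_max_image s (fun l => |x' l - x l| / W l) ⟨i, hi⟩
  set M := |x' l0 - x l0| / W l0 with hM
  have hM0 : 0 ≤ M := div_nonneg (abs_nonneg _) (hWpos l0).le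
  have hle : ∀ l ∈ s, |x' l - x l| ≤ M * W l := fun l hl => by
    rw [← div_le_iff₀ (hWpos l)]; exact hmax l hl
  have hbound : ∀ l ∈ s, |x' l - x l| ≤ 2 * δ * W l + 8 * P.ε ^ 2 * P.C * M * W l := by
    intro l hl
    have hlD := (mem_idx.1 hl).1
    set a := Model.pre (ord U) s l with ha
    have haD : ∀ m ∈ a, m.1 ∈ D := fun m hm => (mem_idx.1 (Finset.mem_filter.1 hm).1).1
    have f1 : x' l = Qv (P.ε * (P.mdl D).mean l a x') (z' l) := by
      have := Model.sol_fixed (M := P.mdl D) (ord_irrefl U) (ord_trans U) s z' l hl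
      simp only [Model.step, if_pos hl] at this
      exact this
    have f2 : x l = Qv (P.ε * (P.mdl D).mean l a x) (z l) := by
      have := Model.sol_fixed (M := P.mdl D) (ord_irrefl U) (ord_trans U) s z l hl
      simp only [Model.step, if_pos hl] at this
      exact this
    rw [f1, f2]
    refine (Qv_lip _ _ _ _).trans (add_le_add ?_ ?_)
    · by_cases hlj : l = j
      · subst hlj
        simp only [z', update_self, ← hδ]
        refine le_mul_of_one_le_right (by positivity) ?_
        simp only [hW, SimpleGraph.dist_self, pow_zero, mul_one]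
        exact one_le_pow₀ (by norm_num)
      · have : z' l = z l := by simp [z', hlj]
        rw [this, sub_self, abs_zero, mul_zero]
        exact mul_nonneg (mul_nonneg zero_le_two (abs_nonneg _)) (hWpos l).le
    · have hm := (P.mean_clip hD l hlD a haD).diff_le a (Model.dep_mean l a) x' x
      have h1 : ∑ m ∈ a, (if m ∈ a then 8 * P.ε * P.θ ^ P.G.dist l.1 m.1 else 0)
          * |cl (x' m) - cl (x m)| ≤ 8 * P.ε * (M * (2 * P.C * W l)) := by
        calc _ ≤ ∑ m ∈ a, 8 * P.ε * (M * (P.θ ^ P.G.dist l.1 m.1 * W m)) := by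
              refine Finset.sum_le_sum (fun m hm => ?_)
              rw [if_pos hm]
              have := (abs_cl_sub_le (x' m) (x m)).trans (hle m (Finset.mem_filter.1 hm).1)
              have h0 : 0 ≤ 8 * P.ε * P.θ ^ P.G.dist l.1 m.1 :=
                mul_nonneg (by linarith [P.εpos]) (pow_nonneg P.θnn _)
              calc _ ≤ 8 * P.ε * P.θ ^ P.G.dist l.1 m.1 * (M * W m) :=
                    mul_le_mul_of_nonneg_left this h0
                _ = _ := by ring
          _ ≤ 8 * P.ε * (M * (2 * P.C * W l)) := by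
              rw [← Finset.mul_sum, ← Finset.mul_sum]
              refine mul_le_mul_of_nonneg_left (mul_le_mul_of_nonneg_left ?_ hM0)
                (by linarith [P.εpos])
              have hsub : a ⊆ D ×ˢ Finset.range (l.2 + 1) := by
                intro m hm
                obtain ⟨h1, h2⟩ := Finset.mem_filter.1 hm
                exact Finset.mem_product.2 ⟨(mem_idx.1 h1).1,
                  Finset.mem_range.2 (Nat.lt_succ_of_le (ord_le h2))⟩
              have hnn : ∀ m, 0 ≤ P.θ ^ P.G.dist l.1 m.1 * W m :=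
                fun m => mul_nonneg (pow_nonneg P.θnn _) (hWpos m).le
              refine (Finset.sum_le_sum_of_subset_of_nonneg hsub (fun m _ _ => hnn m)).trans ?_
              rw [Finset.sum_product]
              have e : ∀ w, ∑ b ∈ Finset.range (l.2 + 1), P.θ ^ P.G.dist l.1 (w, b).1 * W (w, b)
                  = (∑ b ∈ Finset.range (l.2 + 1), (2:ℝ) ^ b)
                    * (P.θ ^ P.G.dist l.1 w * P.r ^ P.G.dist w j.1) := by
                intro w
                rw [Finset.sum_mul]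
                exact Finset.sum_congr rfl (fun b _ => by simp only [hW]; ring)
              simp only [e, ← Finset.mul_sum]
              have h2 : ∑ b ∈ Finset.range (l.2 + 1), (2:ℝ) ^ b ≤ 2 * 2 ^ l.2 := by
                rw [geom_sum_eq (by norm_num), pow_succ]
                norm_num
                ring_nf
                linarith
              calc _ ≤ 2 * 2 ^ l.2 * (P.C * P.r ^ P.G.dist l.1 j.1) :=
                    mul_le_mul h2 (P.conv l.1 j.1 D)
                      (Finset.sum_nonneg (fun w _ => mul_nonneg (pow_nonneg P.θnn _)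
                        (pow_nonneg P.rpos.le _))) (by positivity)
                _ = _ := by simp only [hW]; ring
      have h3 := hm.trans h1
      rw [← mul_sub, abs_mul, abs_of_pos P.εpos]
      calc P.ε * |(P.mdl D).mean l a x' - (P.mdl D).mean l a x| / 2
          ≤ P.ε * (8 * P.ε * (M * (2 * P.C * W l))) / 2 := by
            have := P.εpos
            gcongr
        _ = _ := by ring
  have hMb : M ≤ 2 * δ + 8 * P.ε ^ 2 * P.C * M := by
    rw [hM, div_le_iff₀ (hWpos l0)]
    have := hbound l0 hl0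
    rw [hM] at this
    linarith
  have hM4 : M ≤ 4 * δ := by
    have := mul_le_mul_of_nonneg_right P.εC hM0
    linarith
  show |x' i - x i| ≤ P.infl i j * δ
  calc |x' i - x i| ≤ M * W i := hle i hi
    _ ≤ 4 * δ * W i := mul_le_mul_of_nonneg_right hM4 (hWpos i).le
    _ = P.infl i j * δ := by simp only [infl, hW]; ring

lemma sol_cl (D : Finset V) (U : V → ℝ) (s : Finset (V × ℕ)) (z : V × ℕ → ℝ) :
    (P.mdl D).sol (ord U) s (fun l => cl (z l)) = (P.mdl D).sol (ord U) s z := by
  have : (P.mdl D).step (ord U) s (fun l => cl (z l)) = (P.mdl D).step (ord U) s z := by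
    funext x l
    simp only [Model.step, Qv, cl_idem]
  simp only [Model.sol, this]

/-- squared posterior mean, averaged over the inputs -/
def en (D : Finset V) (U : V → ℝ) (j : V × ℕ) : ℝ :=
  ∫ z, (P.mdl D).mean j (Model.pre (ord U) (idx D j.2) j)
    ((P.mdl D).sol (ord U) (idx D j.2) z) ^ 2 ∂PU (V × ℕ)

lemma en_idx (D : Finset V) (U : V → ℝ) (j : V × ℕ) {K : ℕ} (hj : j.2 ≤ K) :
    ∫ z, (P.mdl D).mean j (Model.pre (ord U) (idx D K) j)
      ((P.mdl D).sol (ord U) (idx D K) z) ^ 2 ∂PU (V × ℕ) = P.en D U j := by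
  unfold en
  refine integral_congr_ae (ae_of_all _ (fun z => ?_))
  simp only
  rw [pre_idx U hj le_rfl]
  congr 1
  refine Model.dep_mean j _ _ _ (fun l hl => ?_)
  have hl' := (Finset.mem_filter.1 hl).1
  rw [P.sol_idx D U z hl', P.sol_idx D U z (mem_idx.2 ⟨(mem_idx.1 hl').1, (mem_idx.1 hl').2.trans hj⟩)]

section pair

variable {D M : Finset V}

lemma mean_gap (hD : Geo P.G D) (hM : Geo P.G M) (hDM : D ⊆ M) {U : V → ℝ} (hU : Injective U)
    {j : V × ℕ} (hj : j.1 ∈ D) {K : ℕ} (hjK : j.2 ≤ K) :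
    ∫ z, ((P.mdl M).mean j (Model.pre (ord U) (idx D K) j) ((P.mdl M).sol (ord U) (idx M K) z)
      - (P.mdl M).mean j (Model.pre (ord U) (idx M K) j)
          ((P.mdl M).sol (ord U) (idx M K) z)) ^ 2 ∂PU (V × ℕ)
      = P.en M U j - P.en D U j := by
  have hgood := P.mdl_good hM ⟨j.1, hDM hj⟩
  have hts : idx D K ⊆ idx M K := fun l hl => by
    rw [mem_idx] at hl ⊢; exact ⟨hDM hl.1, hl.2⟩
  rw [Model.mean_diff_sq (ord_irrefl U) (ord_trans U) hgood hts
    (fun a _ b _ => ord_total hU a b) j, P.en_idx M U j hjK]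
  congr 1
  rw [← P.en_idx D U j hjK]
  refine integral_congr_ae (ae_of_all _ (fun z => ?_))
  simp only
  rw [P.mean_consistent hD hM hDM j hj (Model.pre (ord U) (idx D K) j)
    (fun l hl => (mem_idx.1 (Finset.mem_filter.1 hl).1).1)]
  congr 1
  exact Model.dep_mean j _ _ _
    (fun l hl => P.sol_consistent hD hM hDM U K z l (Finset.mem_filter.1 hl).1)

lemma en_mono (hD : Geo P.G D) (hM : Geo P.G M) (hDM : D ⊆ M) {U : V → ℝ} (hU : Injective U)
    {j : V × ℕ} (hj : j.1 ∈ D) : P.en D U j ≤ P.en M U j := by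
  have h := P.mean_gap hD hM hDM hU hj (le_refl j.2)
  have : 0 ≤ P.en M U j - P.en D U j := h ▸ integral_nonneg (fun z => sq_nonneg _)
  linarith

lemma amgm (u η : ℝ) (hη : 0 < η) : |u| ≤ η / 2 + u ^ 2 / (2 * η) := by
  have : η / 2 + u ^ 2 / (2 * η) = (η ^ 2 + u ^ 2) / (2 * η) := by field_simp
  rw [this, le_div_iff₀ (by linarith)]
  nlinarith [sq_nonneg (|u| - η), sq_abs u]

lemma stab (hD : Geo P.G D) (hM : Geo P.G M) (hDM : D ⊆ M) {U : V → ℝ} (hU : Injective U)
    {i : V × ℕ} (hi : i.1 ∈ D) (R : Finset (V × ℕ)) (η η' : ℝ) (hη : 0 < η) (hη' : 0 < η') :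
    ∫ z, |P.X D (U, z) i - P.X M (U, z) i| ∂PU (V × ℕ) ≤
      η + (∑ j ∈ idx D i.2 \ R, P.infl i j ^ 2) / η
        + ∑ j ∈ idx D i.2 ∩ R, P.infl i j * (η' / 2 + (P.en M U j - P.en D U j) / (2 * η')) := by
  set k := i.2 with hk
  have hiD : i ∈ idx D k := mem_idx.2 ⟨hi, le_rfl⟩
  have hiM : i ∈ idx M k := mem_idx.2 ⟨hDM hi, le_rfl⟩
  have hgood := P.mdl_good hM ⟨i.1, hDM hi⟩
  have hgoodD := P.mdl_good hD ⟨i.1, hi⟩
  have hts : idx D k ⊆ idx M k := fun l hl => by
    rw [mem_idx] at hl ⊢; exact ⟨hDM hl.1, hl.2⟩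
  set h : (V × ℕ → ℝ) → ℝ := fun z => (P.mdl D).sol (ord U) (idx D k) z i with hh
  have hb : BM h := ⟨(measurable_pi_apply i).comp (Model.measurable_sol hgoodD _), 1, fun z => by
    have := Model.sol_mem (M := P.mdl D) (ord_irrefl U) (ord_trans U) (idx D k) z hiD
    rw [abs_le]; constructor <;> linarith [this.1, this.2]⟩
  have hl := P.sol_clip hD U k i hiD
  obtain ⟨h', hb', hl', hd', -, hle⟩ := exists_avg (P.infl_nn i) hb hl
    (Model.dep_sol (M := P.mdl D) (e := ord U) (idx D k) i) (idx D k \ R)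
  set Z : (V × ℕ → ℝ) → (V × ℕ → ℝ) := fun z =>
    (P.mdl M).innov (ord U) (idx D k) (idx M k) z with hZ
  have hd'' : Dep ((idx D k : Finset _) : Set (V × ℕ)) h' := hd'.mono Set.sdiff_subset
  have hdR : Dep ((idx D k ∩ R : Finset _) : Set (V × ℕ)) h' := hd'.mono (by
    intro l hl
    simp only [Set.mem_sdiff, Finset.mem_coe, Finset.mem_sdiff, not_and, not_not] at hl
    simp only [Finset.coe_inter, Set.mem_inter_iff, Finset.mem_coe]
    exact ⟨hl.1, hl.2 hl.1⟩)
  have hφ : BM (fun z => |h z - h' z|) := (hb.sub hb').abs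
  have hφd : Dep ((idx D k : Finset _) : Set (V × ℕ)) (fun z => |h z - h' z|) := fun x x' e => by
    simp only [(Model.dep_sol (M := P.mdl D) (e := ord U) (idx D k) i) x x' e, hd'' x x' e, hh]
  have hφc : ∀ z : V × ℕ → ℝ, |h (fun l => cl (z l)) - h' (fun l => cl (z l))| = |h z - h' z| := by
    intro z
    have : h' (fun l => cl (z l)) = h' z := by
      have := hl'.diff_le _ hd'' (fun l => cl (z l)) z
      simp only [cl_idem, sub_self, abs_zero, mul_zero, Finset.sum_const_zero] at this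
      exact sub_eq_zero.1 (abs_eq_zero.1 (le_antisymm this (abs_nonneg _)))
    rw [this, show h (fun l => cl (z l)) = h z from congrFun (P.sol_cl D U _ z) i]
  have elaw := Model.law_innov (ord_irrefl U) (ord_trans U) hgood hts
    (fun a _ b _ => ord_total hU a b) hφ hφd hφc
  have hZm : Measurable Z := Model.measurable_innov hgood _ _
  -- rewrite both samplers through `h`
  have e1 : ∀ z, P.X D (U, z) i = h z := fun z => rfl
  have e2 : ∀ z, P.X M (U, z) i = h (Z z) := by
    intro z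
    have := Model.sol_innov (M := P.mdl M) (ord_irrefl U) (ord_trans U) hgood hts z i hiD
    rw [← P.sol_idx M U z hiM, ← this, hh]
    exact P.sol_consistent hD hM hDM U k _ i hiD
  simp only [e1, e2]
  set F : V × ℕ → (V × ℕ → ℝ) → ℝ := fun j z =>
    (P.mdl M).mean j (Model.pre (ord U) (idx D k) j) ((P.mdl M).sol (ord U) (idx M k) z)
    - (P.mdl M).mean j (Model.pre (ord U) (idx M k) j) ((P.mdl M).sol (ord U) (idx M k) z) with hF
  have hFb : ∀ j, BM (F j) := fun j =>
    ((Model.bm_mean hgood j _).comp (Model.measurable_sol hgood _)).sub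
      ((Model.bm_mean hgood j _).comp (Model.measurable_sol hgood _))
  have pt : ∀ z, |h z - h (Z z)| ≤ |h z - h' z| + |h (Z z) - h' (Z z)|
      + ∑ j ∈ idx D k ∩ R, P.infl i j * (η' / 2 + F j z ^ 2 / (2 * η')) := by
    intro z
    have a1 := abs_sub_le (h z) (h' z) (h (Z z))
    have a2 := abs_sub_le (h' z) (h' (Z z)) (h (Z z))
    rw [abs_sub_comm (h' (Z z)) (h (Z z))] at a2
    have a3 : |h' z - h' (Z z)|
        ≤ ∑ j ∈ idx D k ∩ R, P.infl i j * (η' / 2 + F j z ^ 2 / (2 * η')) := by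
      refine (hl'.diff_le _ hdR z (Z z)).trans (Finset.sum_le_sum (fun j hj => ?_))
      refine mul_le_mul_of_nonneg_left ?_ (P.infl_nn i j)
      have hjD := (Finset.mem_inter.1 hj).1
      have := Model.innov_close (ord_irrefl U) (ord_trans U) hgood hts z hjD
      rw [abs_sub_comm]
      refine this.trans ((mul_le_of_le_one_left (abs_nonneg _) ?_).trans (amgm _ _ hη'))
      have : (P.mdl M).ε = P.ε := rfl
      linarith [P.εle]
    linarith
  have iA : Integrable (fun z => |h z - h' z|) (PU (V × ℕ)) := hφ.integrable _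
  have iB : Integrable (fun z => |h (Z z) - h' (Z z)|) (PU (V × ℕ)) :=
    (hφ.comp hZm).integrable _
  have iS : ∀ j ∈ idx D k ∩ R,
      Integrable (fun z => P.infl i j * (η' / 2 + F j z ^ 2 / (2 * η'))) (PU (V × ℕ)) :=
    fun j _ => ((integrable_const (η' / 2)).add
      (((hFb j).sq.integrable _).div_const _)).const_mul _
  refine (integral_mono (((hb.sub (hb.comp hZm)).abs).integrable _)
    ((iA.add iB).add (integrable_finsetSum _ iS)) pt).trans ?_
  simp only [Pi.add_apply]
  rw [integral_add (by exact iA.add iB) (integrable_finsetSum _ iS), integral_add iA iB, elaw,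
    integral_finsetSum _ iS]
  refine add_le_add ?_ (Finset.sum_le_sum (fun j hj => ?_))
  · have hq : ∀ z, |h z - h' z| ≤ η / 2 + (h z - h' z) ^ 2 / (2 * η) := fun z => amgm _ _ hη
    have := integral_mono iA
      ((integrable_const (η / 2)).add (((hb.sub hb').sq.integrable _).div_const _)) hq
    simp only [Pi.add_apply] at this
    rw [integral_add (integrable_const _) (((hb.sub hb').sq.integrable _).div_const _)] at this
    simp only [integral_const, probReal_univ, one_smul] at this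
    simp only [integral_div] at this
    have h2 := div_le_div_of_nonneg_right hle (by linarith : (0:ℝ) ≤ 2 * η)
    have h3 : (∑ j ∈ idx D k \ R, P.infl i j ^ 2) / η
        = 2 * ((∑ j ∈ idx D k \ R, P.infl i j ^ 2) / (2 * η)) := by ring
    linarith
  · rw [integral_const_mul, integral_add (integrable_const _) (((hFb j).sq.integrable _).div_const _)]
    simp only [integral_const, probReal_univ, one_smul]
    simp only [integral_div]
    have hjD := mem_idx.1 (Finset.mem_inter.1 hj).1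
    rw [show (∫ z, F j z ^ 2 ∂PU (V × ℕ)) = P.en M U j - P.en D U j from
      P.mean_gap hD hM hDM hU hjD.1 hjD.2]

end pair

end Par

end Vale.Agent.P161
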