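import Mathlib
import Vale.Agent.P161.Sampler

/-!
The infinite-volume limit of the samplers.
-/

open MeasureTheory Set Function Filter
open scoped Classical Topology

noncomputable section

namespace Vale.Agent.P161

/-- the input space: ranks and observation inputs -/
abbrev Inputs (V : Type*) := (V → ℝ) × (V × ℕ → ℝ)

/-- law of the inputs -/
def PIn (V : Type*) : Measure (Inputs V) := (PU V).prod (PU (V × ℕ))

instance {V : Type*} : IsProbabilityMeasure (PIn V) := by unfold PIn; infer_instance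

lemma ae_summable_of_summable_integral {α : Type*} [MeasurableSpace α] (μ : Measure α)
    [IsFiniteMeasure μ] {f : ℕ → α → ℝ} (hf : ∀ n, BM (f n)) (h0 : ∀ n x, 0 ≤ f n x)
    {b : ℕ → ℝ} (hb : Summable b) (hle : ∀ n, ∫ x, f n x ∂μ ≤ b n) :
    ∀ᵐ x ∂μ, Summable (fun n => f n x) := by
  have hm : ∀ n, Measurable (fun x => ENNReal.ofReal (f n x)) := fun n => (hf n).1.ennreal_ofReal
  have h : ∫⁻ x, ∑' n, ENNReal.ofReal (f n x) ∂μ ≠ ⊤ := by
    rw [lintegral_tsum (fun n => (hm n).aemeasurable)]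
    refine ne_top_of_le_ne_top hb.tsum_ofReal_ne_top (ENNReal.tsum_le_tsum (fun n => ?_))
    rw [← ofReal_integral_eq_lintegral_ofReal ((hf n).integrable μ) (ae_of_all _ (h0 n))]
    exact ENNReal.ofReal_le_ofReal (hle n)
  filter_upwards [ae_lt_top (Measurable.ennreal_tsum hm) h] with x hx
  have := ENNReal.summable_toReal hx.ne
  refine this.congr (fun n => ?_)
  rw [ENNReal.toReal_ofReal (h0 n x)]

section

variable {V : Type*} [Countable V]

lemma ae_injective : ∀ᵐ U ∂PU V, Injective U := by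
  have : ∀ᵐ U ∂PU V, ∀ v w : V, v ≠ w → U v ≠ U w := by
    rw [ae_all_iff]
    intro v
    rw [ae_all_iff]
    intro w
    by_cases hvw : v = w
    · exact ae_of_all _ (fun U h => absurd hvw h)
    · have hS : MeasurableSet {U : V → ℝ | U v = U w} :=
        measurableSet_eq_fun (measurable_pi_apply v) (measurable_pi_apply w)
      have h0 : PU V {U | U v = U w} = 0 := by
        rw [← map_upd v, Measure.map_apply (measurable_upd v) hS,
          Measure.prod_apply ((measurable_upd v) hS)]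
        have : ∀ x : V → ℝ, (Prod.mk x ⁻¹' ((fun p : (V → ℝ) × ℝ => update p.1 v p.2) ⁻¹'
            {U | U v = U w})) = {x w} := by
          intro x
          ext y
          simp [update_of_ne (Ne.symm hvw)]
        rw [lintegral_congr (fun x => by rw [this x])]
        simp [lam]
      filter_upwards [measure_eq_zero_iff_ae_notMem.1 h0] with U hU _ h
      exact hU h
  filter_upwards [this] with U hU v w h
  by_contra hne
  exact hU v w hne h

namespace Par

variable (P : Par V)

lemma measurable_mean_param {D : Finset V}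
    (s : Finset (V × ℕ)) (i : V × ℕ) {x : Inputs V → (V × ℕ → ℝ)} (hx : Measurable x) :
    Measurable (fun ω : Inputs V =>
      (P.mdl D).mean i (Model.pre (ord ω.1) s i) (x ω)) := by
  have hL : ∀ η, Measurable (fun ω : Inputs V =>
      (P.mdl D).L (Model.pre (ord ω.1) s i) (x ω) η) := by
    intro η
    simp only [Model.L, Model.pre, Finset.prod_filter]
    refine Finset.measurable_prod _ (fun j _ => ?_)
    refine Measurable.ite ?_ ?_ measurable_const
    · unfold ord
      refine MeasurableSet.union (MeasurableSet.const _) (MeasurableSet.inter (MeasurableSet.const _)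
        (measurableSet_lt ((measurable_pi_apply j.1).comp measurable_fst)
          ((measurable_pi_apply i.1).comp measurable_fst)))
    · exact measurable_const.add (measurable_const.mul
        (measurable_cc.comp ((measurable_pi_apply j).comp hx)))
  exact (Finset.measurable_sum _ (fun η _ =>
      (measurable_const.mul (hL η)).mul measurable_const)).div
    (Finset.measurable_sum _ (fun η _ => measurable_const.mul (hL η)))

lemma measurable_sol_param (D : Finset V) (s : Finset (V × ℕ)) :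
    Measurable (fun ω : Inputs V => (P.mdl D).sol (ord ω.1) s ω.2) := by
  have h : ∀ n, Measurable (fun ω : Inputs V => ((P.mdl D).step (ord ω.1) s ω.2)^[n] (fun _ => 0)) := by
    intro n
    induction n with
    | zero => simp
    | succ n ih =>
      simp only [iterate_succ', comp_apply]
      apply measurable_pi_lambda
      intro i
      by_cases hi : i ∈ s
      · simp only [Model.step, if_pos hi]
        exact measurable_Qv (measurable_const.mul (P.measurable_mean_param s i ih))
          ((measurable_pi_apply i).comp measurable_snd)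
      · simp only [Model.step, if_neg hi]
        exact measurable_const
  exact h s.card

lemma X_mem (D : Finset V) (ω : Inputs V) (i : V × ℕ) : P.X D ω i ∈ Icc (0:ℝ) 1 := by
  by_cases hi : i ∈ idx D i.2
  · exact Model.sol_mem (ord_irrefl ω.1) (ord_trans ω.1) _ _ hi
  · have h : ∀ n, ((P.mdl D).step (ord ω.1) (idx D i.2) ω.2)^[n] (fun _ => (0:ℝ)) i = 0 := by
      intro n
      cases n with
      | zero => rfl
      | succ n =>
        rw [iterate_succ', comp_apply]
        simp [Model.step, hi]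
    show Model.sol _ _ _ _ i ∈ Icc (0:ℝ) 1
    rw [Model.sol, h]
    simp

lemma bm_X (D : Finset V) (i : V × ℕ) : BM (fun ω => P.X D ω i) :=
  ⟨(measurable_pi_apply i).comp (P.measurable_sol_param D _), 1, fun ω => by
    have := P.X_mem D ω i
    rw [abs_le]; constructor <;> linarith [this.1, this.2]⟩

lemma bm_en_integrand {D : Finset V} (hD : Geo P.G D) (hne : D.Nonempty) (j : V × ℕ) :
    BM (fun ω : Inputs V => (P.mdl D).mean j (Model.pre (ord ω.1) (idx D j.2) j)
      ((P.mdl D).sol (ord ω.1) (idx D j.2) ω.2) ^ 2) :=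
  ⟨(P.measurable_mean_param _ j (P.measurable_sol_param D _)).pow_const 2, 1, fun ω => by
    rw [abs_pow]
    exact pow_le_one₀ (abs_nonneg _) (Model.abs_mean_le (P.mdl_good hD hne) _ _ _)⟩

/-- squared posterior means, averaged over all the inputs -/
def avgEn (D : Finset V) (j : V × ℕ) : ℝ := ∫ U, P.en D U j ∂PU V

lemma bm_en {D : Finset V} (hD : Geo P.G D) (hne : D.Nonempty) (j : V × ℕ) :
    BM (fun U => P.en D U j) := by
  have hb := P.bm_en_integrand hD hne j
  refine ⟨(StronglyMeasurable.integral_prod_right' hb.1.stronglyMeasurable).measurable, 1,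
    fun U => ?_⟩
  unfold en
  refine (norm_integral_le_of_norm_le_const (μ := PU (V × ℕ)) (C := 1)
    (f := fun z => (P.mdl D).mean j (Model.pre (ord U) (idx D j.2) j)
      ((P.mdl D).sol (ord U) (idx D j.2) z) ^ 2) (ae_of_all _ (fun z => ?_))).trans
    (le_of_eq (by simp))
  rw [norm_pow, Real.norm_eq_abs]
  exact pow_le_one₀ (abs_nonneg _) (Model.abs_mean_le (P.mdl_good hD hne) _ _ _)

lemma avgEn_le_one {D : Finset V} (hD : Geo P.G D) (j : V × ℕ) (hj : j.1 ∈ D) :
    P.avgEn D j ≤ 1 := by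
  refine (integral_mono ((P.bm_en hD ⟨_, hj⟩ j).integrable _) (integrable_const 1) (fun U => ?_)).trans
    (le_of_eq (by simp))
  unfold en
  refine (integral_mono (((Model.bm_mean (P.mdl_good hD ⟨_, hj⟩) _ _).comp
    (Model.measurable_sol (P.mdl_good hD ⟨_, hj⟩) _)).sq.integrable _) (integrable_const 1)
    (fun z => ?_)).trans (le_of_eq (by simp))
  exact (sq_le_one_iff_abs_le_one _).2 (Model.abs_mean_le (P.mdl_good hD ⟨_, hj⟩) _ _ _)

lemma avgEn_mono {D M : Finset V} (hD : Geo P.G D) (hM : Geo P.G M) (hDM : D ⊆ M)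
    (j : V × ℕ) (hj : j.1 ∈ D) : P.avgEn D j ≤ P.avgEn M j := by
  refine integral_mono_ae ((P.bm_en hD ⟨_, hj⟩ j).integrable _)
    ((P.bm_en hM ⟨_, hDM hj⟩ j).integrable _) ?_
  filter_upwards [ae_injective] with U hU
  exact P.en_mono hD hM hDM hU hj

lemma stab_joint {D M : Finset V} (hD : Geo P.G D) (hM : Geo P.G M) (hDM : D ⊆ M)
    {i : V × ℕ} (hi : i.1 ∈ D) (R : Finset (V × ℕ)) (η η' : ℝ) (hη : 0 < η) (hη' : 0 < η') :
    ∫ ω, |P.X D ω i - P.X M ω i| ∂PIn V ≤
      η + (∑ j ∈ idx D i.2 \ R, P.infl i j ^ 2) / η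
        + ∑ j ∈ idx D i.2 ∩ R,
          P.infl i j * (η' / 2 + (P.avgEn M j - P.avgEn D j) / (2 * η')) := by
  have hb := ((P.bm_X D i).sub (P.bm_X M i)).abs
  unfold PIn
  rw [integral_prod _ (hb.integrable _)]
  have hj : ∀ j ∈ idx D i.2 ∩ R, j.1 ∈ D := fun j hj => (mem_idx.1 (Finset.mem_inter.1 hj).1).1
  have iT : ∀ j ∈ idx D i.2 ∩ R, Integrable (fun U =>
      P.infl i j * (η' / 2 + (P.en M U j - P.en D U j) / (2 * η'))) (PU V) := fun j h =>
    ((integrable_const (η' / 2)).add ((((P.bm_en hM ⟨_, hDM (hj j h)⟩ j).sub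
      (P.bm_en hD ⟨_, hj j h⟩ j)).integrable _).div_const _)).const_mul _
  have iC : Integrable (fun _ : V → ℝ => η + (∑ j ∈ idx D i.2 \ R, P.infl i j ^ 2) / η) (PU V) :=
    integrable_const _
  refine (integral_mono_ae (g := fun U => (η + (∑ j ∈ idx D i.2 \ R, P.infl i j ^ 2) / η)
      + ∑ j ∈ idx D i.2 ∩ R, P.infl i j * (η' / 2 + (P.en M U j - P.en D U j) / (2 * η')))
    ?_ (iC.add (integrable_finsetSum _ iT)) ?_).trans ?_
  · exact (hb.integrable ((PU V).prod (PU (V × ℕ)))).integral_prod_left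
  · filter_upwards [ae_injective] with U hU
    exact P.stab hD hM hDM hU hi R η η' hη hη'
  · rw [integral_add iC (integrable_finsetSum _ iT), integral_finsetSum _ iT, integral_const,
      probReal_univ, one_smul]
    refine add_le_add le_rfl (Finset.sum_le_sum (fun j h => le_of_eq ?_))
    have i1 := (P.bm_en hM ⟨_, hDM (hj j h)⟩ j).integrable (PU V)
    have i2 := (P.bm_en hD ⟨_, hj j h⟩ j).integrable (PU V)
    rw [integral_const_mul, integral_add (integrable_const _) ((i1.sub' i2).div_const _)]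
    simp only [integral_const, probReal_univ, one_smul]
    simp only [integral_div]
    rw [integral_sub i1 i2]
    rfl

lemma cauchy (i : V × ℕ) {δ : ℝ} (hδ : 0 < δ) :
    ∃ N, ∀ D M : Finset V, Geo P.G D → Geo P.G M → P.B i.1 N ⊆ D → D ⊆ M →
      ∫ ω, |P.X D ω i - P.X M ω i| ∂PIn V ≤ δ := by
  set η := δ / 3 with hη
  have hη0 : 0 < η := by positivity
  have hr := P.rpos
  have hq0 : (0:ℝ) < P.q := by exact_mod_cast P.qpos
  set b := (1 + 1 / ((P.q : ℝ) * P.r ^ 2)) / 2 with hb
  have hqr2 : 0 < (P.q : ℝ) * P.r ^ 2 := by positivity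
  have hone : 1 < 1 / ((P.q : ℝ) * P.r ^ 2) := by rw [lt_div_iff₀ hqr2]; simpa using P.qr
  have hb1 : 1 < b := by rw [hb]; linarith
  have hqb : (P.q : ℝ) * (P.r ^ 2 * b) < 1 := by
    have : (P.q : ℝ) * (P.r ^ 2 * b) = ((P.q : ℝ) * P.r ^ 2 + 1) / 2 := by rw [hb]; field_simp
    rw [this]; linarith [P.qr]
  set K := 2 / (1 - P.q * (P.r ^ 2 * b)) with hK
  have hK0 : 0 < K := div_pos two_pos (by linarith)
  set c := ((i.2 : ℝ) + 1) * (4 * 2 ^ i.2) ^ 2 with hc
  have hc0 : 0 < c := by positivity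
  obtain ⟨L, hL⟩ := exists_pow_lt_of_lt_one (show 0 < η * η / (c * K) by positivity)
    (inv_lt_one_of_one_lt₀ hb1)
  set R := idx (P.B i.1 L) i.2 with hR
  set S := ∑ j ∈ R, P.infl i j with hS
  have hS0 : 0 ≤ S := Finset.sum_nonneg (fun j _ => P.infl_nn i j)
  set η' := η / (S + 1) with hη'
  have hη'0 : 0 < η' := by positivity
  set a : ℕ → (V × ℕ) → ℝ := fun n j => P.avgEn (P.B i.1 n) j with ha
  have hsel : ∀ j ∈ R, ∃ n, L ≤ n ∧ ∀ m, n ≤ m → a m j ≤ a n j + η' * η' := by
    intro j hj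
    have hjB : ∀ n, L ≤ n → j.1 ∈ P.B i.1 n := fun n hn =>
      ball_mono P.tree P.fin i.1 hn (mem_idx.1 hj).1
    by_contra hcon
    push Not at hcon
    have : ∀ k : ℕ, ∃ n, L ≤ n ∧ a L j + k * (η' * η') ≤ a n j := by
      intro k
      induction k with
      | zero => exact ⟨L, le_rfl, by simp⟩
      | succ k ih =>
        obtain ⟨n, hn, hk⟩ := ih
        obtain ⟨m, hm, hlt⟩ := hcon n hn
        exact ⟨m, hn.trans hm, by push_cast; linarith⟩
    obtain ⟨k, hk⟩ := exists_nat_gt ((1 - a L j) / (η' * η'))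
    obtain ⟨n, hn, hle⟩ := this k
    have h1 := P.avgEn_le_one (P.geo_B i.1 n) j (hjB n hn)
    rw [div_lt_iff₀ (by positivity)] at hk
    simp only [ha] at hle hk
    linarith
  choose! n hn1 hn2 using hsel
  refine ⟨L + R.sup n, fun D M hD hM hBD hDM => ?_⟩
  have hBL : P.B i.1 L ⊆ D := (ball_mono P.tree P.fin i.1 (Nat.le_add_right _ _)).trans hBD
  have hiD : i.1 ∈ D := hBL (P.self_B i.1 L)
  refine (P.stab_joint hD hM hDM hiD R η η' hη0 hη'0).trans ?_
  have htail : (∑ j ∈ idx D i.2 \ R, P.infl i j ^ 2) / η ≤ η := by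
    rw [div_le_iff₀ hη0]
    set W := D.filter (fun u => u ∉ P.B i.1 L) with hW
    have hsub : idx D i.2 \ R ⊆ W ×ˢ Finset.range (i.2 + 1) := by
      intro j hj
      rw [Finset.mem_sdiff, hR, mem_idx, mem_idx] at hj
      refine Finset.mem_product.2 ⟨Finset.mem_filter.2 ⟨hj.1.1, fun h => hj.2 ⟨h, hj.1.2⟩⟩, ?_⟩
      exact Finset.mem_range.2 (Nat.lt_succ_of_le hj.1.2)
    refine (Finset.sum_le_sum_of_subset_of_nonneg hsub (fun j _ _ => sq_nonneg _)).trans ?_
    rw [Finset.sum_product]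
    have e : ∀ u, ∑ l ∈ Finset.range (i.2 + 1), P.infl i (u, l) ^ 2
        = c * (P.r ^ 2) ^ P.G.dist u i.1 := by
      intro u
      simp only [infl, Finset.sum_const, Finset.card_range, nsmul_eq_mul]
      rw [P.G.dist_comm, hc, mul_pow, ← pow_mul, ← pow_mul, Nat.mul_comm 2]
      push_cast
      ring
    rw [Finset.sum_congr rfl (fun u _ => e u), ← Finset.mul_sum]
    have h1 := sum_pow_dist_far_le P.tree P.deg P.qpos (show 0 < P.r ^ 2 by positivity) hb1 hqb
      i.1 L W (fun w hw => by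
        have := (Finset.mem_filter.1 hw).2
        rw [Par.B, mem_ball_iff P.tree] at this
        omega)
    rw [lt_div_iff₀ (by positivity)] at hL
    calc c * ∑ u ∈ W, (P.r ^ 2) ^ P.G.dist u i.1 ≤ c * (K * b⁻¹ ^ L) :=
          mul_le_mul_of_nonneg_left h1 hc0.le
      _ ≤ η * η := by linarith
  have hmain : ∑ j ∈ idx D i.2 ∩ R,
      P.infl i j * (η' / 2 + (P.avgEn M j - P.avgEn D j) / (2 * η')) ≤ η := by
    calc _ ≤ ∑ j ∈ idx D i.2 ∩ R, P.infl i j * η' := by
          refine Finset.sum_le_sum (fun j hj => ?_)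
          refine mul_le_mul_of_nonneg_left ?_ (P.infl_nn i j)
          have hjR := (Finset.mem_inter.1 hj).2
          obtain ⟨m, hm⟩ := exists_ball_superset P.tree P.fin i.1 M
          have hm' : M ⊆ P.B i.1 (max m (n j)) := hm _ (le_max_left _ _)
          have hnj : P.B i.1 (n j) ⊆ D :=
            (ball_mono P.tree P.fin i.1
              ((Finset.le_sup hjR).trans (Nat.le_add_left _ L))).trans hBD
          have hjn : j.1 ∈ P.B i.1 (n j) :=
            ball_mono P.tree P.fin i.1 (hn1 j hjR) (mem_idx.1 hjR).1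
          have h1 := P.avgEn_mono hM (P.geo_B i.1 _) hm' j (hDM (hnj hjn))
          have h2 := P.avgEn_mono (P.geo_B i.1 _) hD hnj j hjn
          have h3 := hn2 j hjR (max m (n j)) (le_max_right _ _)
          simp only [ha] at h3
          have : (P.avgEn M j - P.avgEn D j) / (2 * η') ≤ η' / 2 := by
            rw [div_le_iff₀ (by positivity)]
            calc _ ≤ η' * η' := by linarith
              _ = _ := by ring
          linarith
      _ ≤ S * η' := by
          rw [← Finset.sum_mul]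
          exact mul_le_mul_of_nonneg_right
            (Finset.sum_le_sum_of_subset_of_nonneg Finset.inter_subset_right
              (fun j _ _ => P.infl_nn i j)) hη'0.le
      _ ≤ η := by
          rw [hη', ← mul_div_assoc, div_le_iff₀ (by positivity)]
          nlinarith
  linarith

lemma exists_limit (i : V × ℕ) : ∃ Y : Inputs V → ℝ, BM Y ∧ (∀ ω, Y ω ∈ Icc (0:ℝ) 1) ∧
    ∀ δ > 0, ∃ N, ∀ D : Finset V, Geo P.G D → P.B i.1 N ⊆ D →
      ∫ ω, |P.X D ω i - Y ω| ∂PIn V ≤ δ := by
  choose N hN using fun j : ℕ => P.cauchy i (show (0:ℝ) < (1/2) ^ j by positivity)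
  set M : ℕ → ℕ := fun j => (Finset.range (j + 1)).sup N with hM
  have hMN : ∀ j l, j ≤ l → N j ≤ M l := fun j l h =>
    Finset.le_sup (Finset.mem_range.2 (Nat.lt_succ_of_le h))
  set f : ℕ → Inputs V → ℝ := fun j ω => P.X (P.B i.1 (M j)) ω i with hf
  have hfb : ∀ j, BM (f j) := fun j => P.bm_X _ i
  have hpair : ∀ j l, j ≤ l → ∀ D, Geo P.G D → P.B i.1 (N j) ⊆ D →
      ∫ ω, |P.X D ω i - f l ω| ∂PIn V ≤ 2 * (1/2) ^ j := by
    intro j l hjl D hD hBD
    obtain ⟨m, hm⟩ := exists_ball_superset P.tree P.fin i.1 D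
    set E := P.B i.1 (max m (M l))
    have hE := P.geo_B i.1 (max m (M l))
    have h1 := hN j D E hD hE hBD (hm _ (le_max_left _ _))
    have h2 := hN j (P.B i.1 (M l)) E (P.geo_B i.1 _) hE
      (ball_mono P.tree P.fin i.1 (hMN j l hjl)) (ball_mono P.tree P.fin i.1 (le_max_right _ _))
    have b1 := ((P.bm_X D i).sub (P.bm_X E i)).abs.integrable (PIn V)
    have b2 := ((P.bm_X (P.B i.1 (M l)) i).sub (P.bm_X E i)).abs.integrable (PIn V)
    refine (integral_mono (((P.bm_X D i).sub (hfb l)).abs.integrable _) (b1.add b2)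
      (fun ω => ?_)).trans ?_
    · simp only [Pi.add_apply, hf]
      have := abs_sub_le (P.X D ω i) (P.X E ω i) (P.X (P.B i.1 (M l)) ω i)
      rw [abs_sub_comm (P.X E ω i)] at this
      exact this
    · simp only [Pi.add_apply]
      rw [integral_add b1 b2]
      linarith
  have hae : ∀ᵐ ω ∂PIn V, ∃ l, Tendsto (fun j => f j ω) atTop (𝓝 l) := by
    have hs : Summable (fun j : ℕ => 2 * (1/2 : ℝ) ^ j) :=
      (summable_geometric_of_lt_one (by norm_num) (by norm_num)).mul_left 2
    filter_upwards [ae_summable_of_summable_integral (PIn V)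
      (f := fun j ω => |f j ω - f (j + 1) ω|)
      (fun j => ((hfb j).sub (hfb (j + 1))).abs) (fun j ω => abs_nonneg _) hs
      (fun j => hpair j (j + 1) (Nat.le_succ j) _ (P.geo_B i.1 _)
        (ball_mono P.tree P.fin i.1 (hMN j j le_rfl)))] with ω hω
    refine cauchySeq_tendsto_of_complete (cauchySeq_of_summable_dist ?_)
    simpa only [Real.dist_eq] using hω
  refine ⟨fun ω => cl (limsup (fun j => f j ω) atTop),
    ⟨continuous_cl.measurable.comp (Measurable.limsup (fun j => (hfb j).1)), 1, fun ω => ?_⟩,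
    fun ω => ⟨(cl_mem _).1, (cl_mem _).2⟩, fun δ hδ => ?_⟩
  · rw [abs_le]; constructor <;>
      linarith [(cl_mem (limsup (fun j => f j ω) atTop)).1, (cl_mem (limsup (fun j => f j ω) atTop)).2]
  obtain ⟨j, hj⟩ := exists_pow_lt_of_lt_one (show (0:ℝ) < δ / 2 by positivity)
    (show (1/2 : ℝ) < 1 by norm_num)
  refine ⟨N j, fun D hD hBD => ?_⟩
  have hlim : Tendsto (fun l => ∫ ω, |P.X D ω i - f l ω| ∂PIn V) atTop
      (𝓝 (∫ ω, |P.X D ω i - cl (limsup (fun j => f j ω) atTop)| ∂PIn V)) := by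
    refine tendsto_integral_of_dominated_convergence (fun _ => 1)
      (fun l => ((P.bm_X D i).sub (hfb l)).abs.1.aestronglyMeasurable) (integrable_const _)
      (fun l => ae_of_all _ (fun ω => ?_)) ?_
    · rw [Real.norm_eq_abs, abs_abs, abs_le]
      have h1 := P.X_mem D ω i
      have h2 := P.X_mem (P.B i.1 (M l)) ω i
      simp only [hf]
      constructor <;> linarith [h1.1, h1.2, h2.1, h2.2]
    · filter_upwards [hae] with ω hω
      obtain ⟨a, ha⟩ := hω
      have hmem : a ∈ Icc (0:ℝ) 1 :=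
        isClosed_Icc.mem_of_tendsto ha (Eventually.of_forall (fun l => P.X_mem _ ω i))
      rw [ha.limsup_eq, cl_of_mem hmem]
      exact ((tendsto_const_nhds.sub ha).abs)
  refine le_trans (le_of_tendsto hlim ?_) (show 2 * (1/2 : ℝ) ^ j ≤ δ by linarith)
  filter_upwards [Filter.eventually_ge_atTop j] with l hl
  exact hpair j l hl D hD hBD

/-- the infinite-volume observations -/
def lim (ω : Inputs V) (i : V × ℕ) : ℝ := (P.exists_limit i).choose ω

lemma bm_lim (i : V × ℕ) : BM (fun ω => P.lim ω i) := (P.exists_limit i).choose_spec.1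

lemma measurable_lim : Measurable P.lim :=
  measurable_pi_lambda _ (fun i => (P.bm_lim i).1)

lemma lim_mem (ω : Inputs V) (i : V × ℕ) : P.lim ω i ∈ Icc (0:ℝ) 1 :=
  (P.exists_limit i).choose_spec.2.1 ω

lemma lim_spec (i : V × ℕ) {δ : ℝ} (hδ : 0 < δ) : ∃ N, ∀ D : Finset V, Geo P.G D →
    P.B i.1 N ⊆ D → ∫ ω, |P.X D ω i - P.lim ω i| ∂PIn V ≤ δ :=
  (P.exists_limit i).choose_spec.2.2 δ hδ

/-- a sequence of volumes along which finitely many observations converge almost surely -/
lemma exists_seq (o : V) (E : Finset V) (S : Finset (V × ℕ)) :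
    ∃ M : ℕ → Finset V, (∀ j, Geo P.G (M j)) ∧ (∀ j, E ⊆ M j) ∧
      ∀ᵐ ω ∂PIn V, ∀ i : V × ℕ, i ∈ S →
        Tendsto (fun j => P.X (M j) ω i) atTop (𝓝 (P.lim ω i)) := by
  choose N hN using fun (i : V × ℕ) (j : ℕ) =>
    P.lim_spec i (show (0:ℝ) < (1/2) ^ j by positivity)
  choose m hm using fun j : ℕ => exists_ball_superset P.tree P.fin o
    (E ∪ S.biUnion (fun i => P.B i.1 (N i j)))
  refine ⟨fun j => P.B o (m j), fun j => P.geo_B o _,
    fun j => Finset.subset_union_left.trans (hm j _ le_rfl), ?_⟩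
  rw [ae_all_iff]
  intro i
  by_cases hiS : i ∈ S
  swap
  · exact ae_of_all _ (fun ω h => absurd h hiS)
  have hsub : ∀ j, P.B i.1 (N i j) ⊆ P.B o (m j) := fun j =>
    ((Finset.subset_biUnion_of_mem (fun i : V × ℕ => P.B i.1 (N i j)) hiS).trans
      Finset.subset_union_right).trans (hm j (m j) le_rfl)
  have hint : ∀ j, ∫ ω, |P.X (P.B o (m j)) ω i - P.lim ω i| ∂PIn V ≤ (1/2 : ℝ) ^ j := fun j =>
    hN i j (P.B o (m j)) (P.geo_B o _) (hsub j)
  have hbm : ∀ j, BM (fun ω => |P.X (P.B o (m j)) ω i - P.lim ω i|) := fun j =>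
    ((P.bm_X (P.B o (m j)) i).sub (P.bm_lim i)).abs
  have hs := ae_summable_of_summable_integral (PIn V)
    (f := fun j ω => |P.X (P.B o (m j)) ω i - P.lim ω i|) hbm (fun j ω => abs_nonneg _)
    (summable_geometric_of_lt_one (show (0:ℝ) ≤ 1/2 by norm_num) (by norm_num)) hint
  refine hs.mono (fun ω hω _ => ?_)
  rw [tendsto_iff_dist_tendsto_zero]
  simpa only [Real.dist_eq] using hω.tendsto_atTop_zero

lemma tendsto_local {S : Finset (V × ℕ)} {φ : (V × ℕ → ℝ) → ℝ} (hc : Continuous φ)
    (hd : Dep (S : Set (V × ℕ)) φ) {x : ℕ → V × ℕ → ℝ} {y : V × ℕ → ℝ}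
    (h : ∀ i ∈ S, Tendsto (fun j => x j i) atTop (𝓝 (y i))) :
    Tendsto (fun j => φ (x j)) atTop (𝓝 (φ y)) := by
  have e : ∀ x, φ x = φ (fun l => if l ∈ S then x l else 0) := fun x =>
    hd _ _ (fun l hl => by simp [Finset.mem_coe.1 hl])
  rw [e y]
  simp only [e (x _)]
  refine (hc.tendsto _).comp (tendsto_pi_nhds.2 (fun l => ?_))
  by_cases hl : l ∈ S
  · simpa [hl] using h l hl
  · simp only [if_neg hl]; exact tendsto_const_nhds

/-- expectations of local continuous functions pass to the limit -/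
lemma integral_lim_eq (o : V) (E : Finset V) (S : Finset (V × ℕ)) {φ : (V × ℕ → ℝ) → ℝ}
    (hφ : BM φ) (hc : Continuous φ) (hd : Dep (S : Set (V × ℕ)) φ) {c : ℝ}
    (h : ∀ M : Finset V, Geo P.G M → E ⊆ M → ∀ U, Injective U →
      ∫ z, φ (P.X M (U, z)) ∂PU (V × ℕ) = c) :
    ∫ ω, φ (P.lim ω) ∂PIn V = c := by
  obtain ⟨M, hG, hE, hae⟩ := P.exists_seq o E S
  have hb : ∀ j, BM (fun ω : Inputs V => φ (P.X (M j) ω)) := fun j =>
    BM.comp (F := φ) hφ (g := fun ω : Inputs V => P.X (M j) ω)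
      (measurable_pi_lambda _ (fun i => (P.bm_X _ i).1))
  have hint : ∀ j, ∫ ω, φ (P.X (M j) ω) ∂PIn V = c := by
    intro j
    have this : ∀ᵐ U ∂PU V, ∫ z, φ (P.X (M j) (U, z)) ∂PU (V × ℕ) = c := by
      filter_upwards [ae_injective] with U hU
      exact h _ (hG j) (hE j) U hU
    unfold PIn
    rw [integral_prod _ ((hb j).integrable _), integral_congr_ae this, integral_const,
      probReal_univ, one_smul]
  obtain ⟨C, hC⟩ := hφ.2
  have hlim : Tendsto (fun j => ∫ ω, φ (P.X (M j) ω) ∂PIn V) atTop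
      (𝓝 (∫ ω, φ (P.lim ω) ∂PIn V)) := by
    refine tendsto_integral_of_dominated_convergence (fun _ => C)
      (fun j => (hb j).1.aestronglyMeasurable) (integrable_const C)
      (fun j => ae_of_all _ (fun ω => (Real.norm_eq_abs _).le.trans (hC _))) ?_
    filter_upwards [hae] with ω hω
    exact tendsto_local hc hd hω
  rw [funext hint] at hlim
  exact tendsto_nhds_unique hlim tendsto_const_nhds

end Par

end

end Vale.Agent.P161
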