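import Mathlib
import Vale.Agent.P161.Limit

/-!
The law of the spins read off from the limiting observations.
-/

open MeasureTheory Set Function Filter
open scoped Classical Topology

noncomputable section

namespace Vale.Agent.P161

variable {V : Type*}

namespace Model

variable {ι κ : Type*} {M : Model ι κ} (hM : M.Good)

include hM

/-- `∫ ψ · cc(x_j) · L_s = (ε sg_j / 3) ∫ ψ · L_s` if `ψ` does not look at `x_j` -/
lemma integral_cc_L {s : Finset ι} {j : ι} (hj : j ∈ s) (η : κ) {ψ : (ι → ℝ) → ℝ} (hψ : BM ψ)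
    (hd : ∀ x y, ψ (update x j y) = ψ x) :
    ∫ x, ψ x * cc (x j) * M.L s x η ∂PU ι
      = M.ε * M.sg j η / 3 * ∫ x, ψ x * M.L s x η ∂PU ι := by
  have hd' : ∀ k ∈ s, k ∉ s.erase j → ∀ x y, ψ (update x k y) = ψ x := by
    intro k hk hk' x y
    have : k = j := by by_contra h; exact hk' (Finset.mem_erase.2 ⟨h, hk⟩)
    subst this; exact hd x y
  rw [integral_L_mono hM (Finset.erase_subset j s) η hψ hd']
  have e : ∀ x, ψ x * cc (x j) * M.L s x η
      = cc (x j) * (ψ x * M.L (s.erase j) x η)
        + (M.ε * M.sg j η) * (cc (x j) ^ 2 * (ψ x * M.L (s.erase j) x η)) := by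
    intro x
    rw [Model.L, ← Finset.mul_prod_erase _ _ hj, Model.L]
    ring
  simp only [e]
  have hb := hψ.mul (bm_L hM (s.erase j) η)
  have hind : ∀ x y, ψ (update x j y) * M.L (s.erase j) (update x j y) η
      = ψ x * M.L (s.erase j) x η := fun x y => by
    rw [hd, (dep_L (s.erase j) η).update (by simp) x y]
  rw [integral_add (((bm_cc_eval j).mul hb).integrable _)
      ((((bm_cc_eval j).sq).mul hb).integrable _ |>.const_mul _),
    integral_const_mul, integral_mul_eq_zero j (bm_cc_eval j) hb hind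
      (fun x => by simp [integral_cc]),
    integral_upd j ((bm_cc_eval j).sq.mul hb)]
  simp only [update_self, hind, integral_mul_const, integral_cc_sq, integral_const_mul]
  ring

lemma integral_L_one (s : Finset ι) (η : κ) : ∫ x, M.L s x η ∂PU ι = 1 := by
  have := integral_L_mono hM (Finset.empty_subset s) η (BM.const 1) (fun _ _ _ _ _ => rfl)
  simpa [Model.L] using this

end Model

/-- estimate of the spin at `v` from its first `n` observations -/
def Tn (ε : ℝ) (n : ℕ) (v : V) (x : V × ℕ → ℝ) : ℝ :=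
  (∑ k ∈ Finset.range n, 3 / ε * cc (x (v, k))) / n

lemma bm_Tn (ε : ℝ) (n : ℕ) (v : V) : BM (fun x : V × ℕ → ℝ => Tn ε n v x) := by
  have := (BM.sum (Finset.range n) (f := fun k (x : V × ℕ → ℝ) => 3 / ε * cc (x (v, k)))
    (fun k _ => (BM.const (3 / ε)).mul (bm_cc_eval (v, k)))).mul (BM.const ((n : ℝ)⁻¹))
  simpa [Tn, div_eq_mul_inv] using this

lemma continuous_Tn (ε : ℝ) (n : ℕ) (v : V) : Continuous (fun x : V × ℕ → ℝ => Tn ε n v x) := by
  unfold Tn cc
  refine Continuous.div_const (continuous_finsetSum _ (fun k _ => ?_)) _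
  exact continuous_const.mul ((continuous_const.mul (continuous_cl.comp (continuous_apply _))).sub
    continuous_const)

lemma dep_Tn (ε : ℝ) (n : ℕ) (v : V) {S : Set (V × ℕ)} (h : ∀ k < n, (v, k) ∈ S) :
    Dep S (fun x : V × ℕ → ℝ => Tn ε n v x) := by
  intro x x' e
  simp only [Tn]
  congr 1
  exact Finset.sum_congr rfl (fun k hk => by rw [e _ (h k (Finset.mem_range.1 hk))])

lemma abs_Tn_le {ε : ℝ} (hε : 0 < ε) (n : ℕ) (v : V) (x : V × ℕ → ℝ) :
    |Tn ε n v x| ≤ 3 / ε := by
  rcases Nat.eq_zero_or_pos n with hn | hn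
  · subst hn; simp [Tn]; positivity
  rw [Tn, abs_div, Nat.abs_cast, div_le_iff₀ (by exact_mod_cast hn)]
  refine (Finset.abs_sum_le_sum_abs _ _).trans ?_
  calc ∑ k ∈ Finset.range n, |3 / ε * cc (x (v, k))| ≤ ∑ _k ∈ Finset.range n, 3 / ε := by
        refine Finset.sum_le_sum (fun k _ => ?_)
        rw [abs_mul, abs_of_pos (by positivity : (0:ℝ) < 3 / ε)]
        exact mul_le_of_le_one_right (by positivity) (abs_cc _)
    _ = 3 / ε * n := by simp; ring

lemma Tn_consec {ε : ℝ} (hε : 0 < ε) (n m : ℕ) (hnm : n ≤ m) (hn : 0 < n) (v : V)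
    (x : V × ℕ → ℝ) : |Tn ε m v x - Tn ε n v x| ≤ 2 * (3 / ε) * ((m : ℝ) - n) / m := by
  have hn' : (0:ℝ) < n := by exact_mod_cast hn
  have hm : (0:ℝ) < m := by exact_mod_cast lt_of_lt_of_le hn hnm
  set f : ℕ → ℝ := fun k => 3 / ε * cc (x (v, k))
  have hsum : ∑ k ∈ Finset.range m, f k = ∑ k ∈ Finset.range n, f k + ∑ k ∈ Finset.Ico n m, f k :=
    (Finset.sum_range_add_sum_Ico f hnm).symm
  have e : Tn ε m v x - Tn ε n v x
      = ((∑ k ∈ Finset.Ico n m, f k) - ((m : ℝ) - n) * Tn ε n v x) / m := by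
    have hT : Tn ε n v x = (∑ k ∈ Finset.range n, f k) / n := rfl
    have hT' : Tn ε m v x = (∑ k ∈ Finset.range m, f k) / m := rfl
    rw [hT, hT', hsum]
    field_simp
    ring
  rw [e, abs_div, abs_of_pos hm]
  refine div_le_div_of_nonneg_right ?_ hm.le
  have hd : 0 ≤ (m : ℝ) - n := by
    have : (n : ℝ) ≤ m := by exact_mod_cast hnm
    linarith
  have h1 : |∑ k ∈ Finset.Ico n m, f k| ≤ 3 / ε * ((m : ℝ) - n) := by
    refine (Finset.abs_sum_le_sum_abs _ _).trans ((Finset.sum_le_sum (g := fun _ => 3 / ε)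
      (fun k _ => ?_)).trans (le_of_eq ?_))
    · simp only [f, abs_mul, abs_of_pos (by positivity : (0:ℝ) < 3 / ε)]
      exact mul_le_of_le_one_right (by positivity) (abs_cc _)
    · simp [Nat.cast_sub hnm]; ring
  have h2 : |((m : ℝ) - n) * Tn ε n v x| ≤ ((m : ℝ) - n) * (3 / ε) := by
    rw [abs_mul, abs_of_nonneg hd]
    exact mul_le_mul_of_nonneg_left (abs_Tn_le hε n v x) hd
  calc _ ≤ |∑ k ∈ Finset.Ico n m, f k| + |((m : ℝ) - n) * Tn ε n v x| := abs_sub _ _
    _ ≤ _ := by linarith

/-- `update` does not depend on the decidability instance -/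
lemma update_inst {ι : Type*} (i1 i2 : DecidableEq ι) (x : ι → ℝ) (j : ι) (y : ℝ) :
    @Function.update ι (fun _ => ℝ) i1 x j y = @Function.update ι (fun _ => ℝ) i2 x j y := by
  rw [Subsingleton.elim i1 i2]

namespace Par

variable (P : Par V)

lemma integral_prod_Tn {n : ℕ} (hn : 0 < n) {M : Finset V} (hM : Geo P.G M) (hne : M.Nonempty)
    (s : Finset (V × ℕ)) (η : Finset V) (c : V → ℝ) :
    ∀ D : Finset V, (∀ v ∈ D, ∀ k < n, (v, k) ∈ s) →
      ∀ ψ : (V × ℕ → ℝ) → ℝ, BM ψ → (∀ v ∈ D, ∀ k x y, ψ (update x (v, k) y) = ψ x) →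
      ∫ x, ψ x * (∏ v ∈ D, (1 + c v * Tn P.ε n v x) / 2) * (P.mdl M).L s x η ∂PU (V × ℕ)
        = (∏ v ∈ D, (1 + c v * sp η v) / 2)
          * ∫ x, ψ x * (P.mdl M).L s x η ∂PU (V × ℕ) := by
  have hg := P.mdl_good hM hne
  intro D
  induction D using Finset.induction with
  | empty => intro _ ψ _ _; simp
  | insert v D hv ih =>
    intro hs ψ hψ hd
    have ihh := ih (fun w hw => hs w (Finset.mem_insert_of_mem hw)) ψ hψ
      (fun w hw => hd w (Finset.mem_insert_of_mem hw))
    set Q : (V × ℕ → ℝ) → ℝ := fun x => ψ x * ∏ w ∈ D, (1 + c w * Tn P.ε n w x) / 2 with hQ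
    have hQb : BM Q := hψ.mul (BM.prod D (fun w _ => by
      have := (((BM.const (c w)).mul (bm_Tn P.ε n w)).add (BM.const 1)).mul (BM.const (1/2))
      convert this using 1
      funext x; ring))
    have hQd : ∀ k x y, Q (update x (v, k) y) = Q x := by
      intro k x y
      simp only [hQ]
      rw [hd v (Finset.mem_insert_self v D) k x y]
      congr 1
      refine Finset.prod_congr rfl (fun w hw => ?_)
      have hwv : w ≠ v := fun e => hv (e ▸ hw)
      have : Tn P.ε n w (update x (v, k) y) = Tn P.ε n w x := by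
        unfold Tn
        congr 1
        refine Finset.sum_congr rfl (fun l _ => ?_)
        rw [update_of_ne (by simp [hwv])]
      rw [this]
    have e : ∀ x, ψ x * (∏ w ∈ insert v D, (1 + c w * Tn P.ε n w x) / 2) * (P.mdl M).L s x η
        = 1/2 * (Q x * (P.mdl M).L s x η)
          + ∑ k ∈ Finset.range n, (c v * (3 / P.ε) / n / 2)
              * (Q x * cc (x (v, k)) * (P.mdl M).L s x η) := by
      intro x
      rw [Finset.prod_insert hv]
      have : ∑ k ∈ Finset.range n, (c v * (3 / P.ε) / n / 2)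
              * (Q x * cc (x (v, k)) * (P.mdl M).L s x η)
          = c v * Tn P.ε n v x / 2 * (Q x * (P.mdl M).L s x η) := by
        unfold Tn
        rw [Finset.sum_div, Finset.mul_sum, Finset.sum_div, Finset.sum_mul]
        exact Finset.sum_congr rfl (fun k _ => by ring)
      rw [this]
      simp only [hQ]
      ring
    simp only [e]
    have iS : ∀ k ∈ Finset.range n, Integrable (fun x => (c v * (3 / P.ε) / n / 2)
        * (Q x * cc (x (v, k)) * (P.mdl M).L s x η)) (PU (V × ℕ)) := fun k _ =>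
      (((hQb.mul (bm_cc_eval (v, k))).mul (Model.bm_L hg s η)).integrable _).const_mul _
    rw [integral_add (((hQb.mul (Model.bm_L hg s η)).integrable _).const_mul _)
      (integrable_finsetSum _ iS), integral_finsetSum _ iS]
    simp only [integral_const_mul]
    rw [Finset.sum_congr rfl (fun k hk => by
      rw [Model.integral_cc_L hg (hs v (Finset.mem_insert_self v D) k (Finset.mem_range.1 hk)) η
        hQb (fun x y => (congrArg Q (update_inst _ _ x (v, k) y)).trans (hQd k x y))]), Finset.prod_insert hv]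
    have hI : ∫ x, Q x * (P.mdl M).L s x η ∂PU (V × ℕ) = (∏ w ∈ D, (1 + c w * sp η w) / 2)
        * ∫ x, ψ x * (P.mdl M).L s x η ∂PU (V × ℕ) := ihh
    rw [hI]
    have h1 : (P.mdl M).ε = P.ε := rfl
    have h2 : ∀ k : ℕ, (P.mdl M).sg (v, k) η = sp η v := fun k => rfl
    simp only [h1, h2, Finset.sum_const, Finset.card_range, nsmul_eq_mul]
    have hε := P.εpos.ne'
    have hn' : (n : ℝ) ≠ 0 := by exact_mod_cast hn.ne'
    field_simp

/-- the law of finitely many observations in a finite volume -/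
lemma law_X {M : Finset V} (hM : Geo P.G M) (hne : M.Nonempty) {U : V → ℝ} (hU : Injective U)
    (n : ℕ) {φ : (V × ℕ → ℝ) → ℝ} (hφ : BM φ) (hd : Dep (idx M n : Set (V × ℕ)) φ) :
    ∫ z, φ (P.X M (U, z)) ∂PU (V × ℕ) = ∫ x, φ x * (P.mdl M).den (idx M n) x ∂PU (V × ℕ) := by
  rw [← Model.law_sol (ord_irrefl U) (ord_trans U) (P.mdl_good hM hne) (idx M n).card
    (idx M n) rfl (fun a _ b _ => ord_total hU a b) φ hφ hd]
  refine integral_congr_ae (ae_of_all _ (fun z => hd _ _ (fun i hi => ?_)))
  exact (P.sol_idx M U z (Finset.mem_coe.1 hi)).symm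

lemma integral_den_expand {M : Finset V} (hM : Geo P.G M) (hne : M.Nonempty)
    (s : Finset (V × ℕ)) {φ : (V × ℕ → ℝ) → ℝ} (hφ : BM φ) :
    ∫ x, φ x * (P.mdl M).den s x ∂PU (V × ℕ)
      = EI P.G P.θ M (fun η => ∫ x, φ x * (P.mdl M).L s x η ∂PU (V × ℕ)) := by
  have e : ∀ x, φ x * (P.mdl M).den s x
      = ∑ η ∈ M.powerset, wgt P.G P.θ M η * (φ x * (P.mdl M).L s x η) := by
    intro x
    rw [Model.den, Finset.mul_sum]
    exact Finset.sum_congr rfl (fun η _ => by simp only [mdl]; ring)
  simp only [e]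
  rw [integral_finsetSum _ (fun η _ =>
    ((hφ.mul (Model.bm_L (P.mdl_good hM hne) s η)).integrable _).const_mul _)]
  simp only [integral_const_mul]
  rfl

variable [Countable V]

/-- exact multilinear identity for the estimators -/
lemma integral_prod_lim {D : Finset V} (hD : Geo P.G D) (hne : D.Nonempty) (b : V → Bool)
    {n : ℕ} (hn : 0 < n) :
    ∫ ω, (∏ v ∈ D, (1 + spin (b v) * Tn P.ε n v (P.lim ω)) / 2) ∂PIn V
      = isingCylinder P.G P.θ D b := by
  obtain ⟨o, ho⟩ := hne
  set φ : (V × ℕ → ℝ) → ℝ := fun x => ∏ v ∈ D, (1 + spin (b v) * Tn P.ε n v x) / 2 with hφdef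
  have hφ : BM φ := BM.prod D (fun v _ => by
    have := (((BM.const (spin (b v))).mul (bm_Tn P.ε n v)).add (BM.const 1)).mul (BM.const (1/2))
    convert this using 1
    funext x; ring)
  have hc : Continuous φ := continuous_finsetProd _ (fun v _ =>
    (continuous_const.add (continuous_const.mul (continuous_Tn P.ε n v))).div_const _)
  have hd : Dep (idx D n : Set (V × ℕ)) φ := by
    intro x x' h
    refine Finset.prod_congr rfl (fun v hv => ?_)
    have e := dep_Tn P.ε n v (S := (idx D n : Set (V × ℕ)))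
      (fun k hk => Finset.mem_coe.2 (mem_idx.2 ⟨hv, hk.le⟩)) x x' h
    simp only at e
    rw [e]
  refine P.integral_lim_eq o D (idx D n) hφ hc hd (fun M hM hDM U hU => ?_)
  have hMne : M.Nonempty := ⟨o, hDM ho⟩
  have hsub : idx D n ⊆ idx M n := fun i hi => by
    rw [mem_idx] at hi ⊢; exact ⟨hDM hi.1, hi.2⟩
  rw [P.law_X hM hMne hU n hφ (hd.mono (Finset.coe_subset.2 hsub)),
    P.integral_den_expand hM hMne _ hφ]
  have e : ∀ η, ∫ x, φ x * (P.mdl M).L (idx M n) x η ∂PU (V × ℕ)
      = ∏ v ∈ D, (1 + spin (b v) * sp η v) / 2 := by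
    intro η
    have := P.integral_prod_Tn hn hM hMne (idx M n) η (fun v => spin (b v)) D
      (fun v hv k hk => mem_idx.2 ⟨hDM hv, hk.le⟩) (fun _ => 1) (BM.const 1) (fun _ _ _ _ _ => rfl)
    simp only [one_mul, Model.integral_L_one (P.mdl_good hM hMne), mul_one] at this
    exact this
  simp only [e]
  rw [EI_consistent P.tree _ D M rfl hDM hD hM ⟨o, ho⟩ _ (fun η η' h => by
    refine Finset.prod_congr rfl (fun v hv => ?_)
    have e := Loc.sp hv η η' h
    simp only at e
    rw [e])]
  unfold EI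
  set η₀ := D.filter (fun v => b v = true) with hη₀
  rw [Finset.sum_eq_single η₀]
  · have h1 : ∀ v ∈ D, decide (v ∈ η₀) = b v := by
      intro v hv; cases hb : b v <;> simp [hη₀, hv, hb]
    have h2 : ∏ v ∈ D, (1 + spin (b v) * sp η₀ v) / 2 = 1 := by
      refine Finset.prod_eq_one (fun v hv => ?_)
      rw [sp, h1 v hv]
      cases b v <;> norm_num [spin]
    simp only
    rw [h2, mul_one]
    unfold wgt isingCylinder
    congr 1
    refine Finset.prod_congr rfl (fun e he => ?_)
    induction e using Sym2.ind with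
    | _ u w =>
      rw [Finset.mem_filter, Finset.mk_mem_sym2_iff] at he
      rw [edgeFactor_mk, edgeFactor_mk, h1 u he.1.1, h1 w he.1.2]
  · intro η hη hne
    have : ∃ v ∈ D, decide (v ∈ η) ≠ b v := by
      by_contra hc
      push Not at hc
      apply hne
      ext v
      constructor
      · intro hv
        have hvD := Finset.mem_powerset.1 hη hv
        exact Finset.mem_filter.2 ⟨hvD, by rw [← hc v hvD]; simp [hv]⟩
      · intro hv
        obtain ⟨hvD, hb⟩ := Finset.mem_filter.1 hv
        have := hc v hvD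
        rw [hb] at this
        simpa using this
    obtain ⟨v, hv, hvb⟩ := this
    simp only
    rw [Finset.prod_eq_zero hv, mul_zero]
    rw [sp]
    cases hb : b v <;> cases hd : decide (v ∈ η) <;> simp_all [spin]
  · intro h
    exact absurd (Finset.mem_powerset.2 (Finset.filter_subset _ _)) h

lemma integral_sq_lim (v : V) {n : ℕ} (hn : 0 < n) :
    ∫ ω, (Tn P.ε n v (P.lim ω) ^ 2 - 1) ^ 2 ∂PIn V ≤ (3 / P.ε + 1) ^ 4 / n := by
  have hε := P.εpos
  set φ : (V × ℕ → ℝ) → ℝ := fun x => (Tn P.ε n v x ^ 2 - 1) ^ 2 with hφdef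
  have hφ : BM φ := ((bm_Tn P.ε n v).sq.sub (BM.const 1)).sq
  have hc : Continuous φ := (((continuous_Tn P.ε n v).pow 2).sub continuous_const).pow 2
  have hd : Dep (idx {v} n : Set (V × ℕ)) φ := fun x x' h => by
    have e := dep_Tn P.ε n v (S := (idx {v} n : Set (V × ℕ)))
      (fun k hk => Finset.mem_coe.2 (mem_idx.2 ⟨Finset.mem_singleton_self v, hk.le⟩)) x x' h
    simp only at e
    simp only [hφdef, e]
  have hs : idx ({v} : Finset V) n ⊆ idx {v} n := le_rfl
  have hgood := P.mdl_good (geo_singleton v) (Finset.singleton_nonempty v)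
  set cval := ∫ x, φ x * (P.mdl {v}).den (idx {v} n) x ∂PU (V × ℕ) with hcval
  have hmain : ∫ ω, φ (P.lim ω) ∂PIn V = cval := by
    refine P.integral_lim_eq v {v} (idx {v} n) hφ hc hd (fun M hM hDM U hU => ?_)
    have hMne : M.Nonempty := ⟨v, hDM (Finset.mem_singleton_self v)⟩
    have hsub : idx ({v} : Finset V) n ⊆ idx M n := fun i hi => by
      rw [mem_idx] at hi ⊢; exact ⟨hDM hi.1, hi.2⟩
    rw [P.law_X hM hMne hU n hφ (hd.mono (Finset.coe_subset.2 hsub)),
      Model.integral_den_mono (P.mdl_good hM hMne) hsub hφ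
        (fun j _ hj x y => hd.update (fun c => hj (Finset.mem_coe.1 c)) x y), hcval]
    refine integral_congr_ae (ae_of_all _ (fun x => ?_))
    simp only
    congr 1
    rw [P.den_eq_EI, P.den_eq_EI]
    exact EI_consistent P.tree _ {v} M rfl hDM (geo_singleton v) hM (Finset.singleton_nonempty v) _
      (P.loc_L {v} _ (fun j hj => (mem_idx.1 hj).1) x)
  have hle : cval ≤ (3 / P.ε + 1) ^ 4 / n := by
    rw [hcval, P.integral_den_expand (geo_singleton v) (Finset.singleton_nonempty v) _ hφ]
    have hb : ∀ η, ∫ x, φ x * (P.mdl {v}).L (idx {v} n) x η ∂PU (V × ℕ)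
        ≤ (3 / P.ε + 1) ^ 4 / n := by
      intro η
      set s := sp η v with hs'
      set L := fun x => (P.mdl {v}).L (idx {v} n) x η with hLdef
      have hLb : BM L := Model.bm_L hgood _ η
      set y : ℕ → (V × ℕ → ℝ) → ℝ := fun k x => 3 / P.ε * cc (x (v, k)) - s with hy
      have hyb : ∀ k, BM (y k) := fun k =>
        ((BM.const (3 / P.ε)).mul (bm_cc_eval (v, k))).sub (BM.const s)
      have hB : ∀ k x, |y k x| ≤ 3 / P.ε + 1 := by
        intro k x
        refine (abs_sub _ _).trans (add_le_add ?_ (abs_sp η v).le)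
        rw [abs_mul, abs_of_pos (by positivity : (0:ℝ) < 3 / P.ε)]
        exact mul_le_of_le_one_right (by positivity) (abs_cc _)
      have hoff : ∀ k < n, ∀ l, l ≠ k → ∫ x, y k x * y l x * L x ∂PU (V × ℕ) = 0 := by
        intro k hk l hlk
        have hyd : ∀ x z, y l (update x (v, k) z) = y l x := by
          intro x z
          simp only [hy]
          rw [update_of_ne (by simp [hlk])]
        have e : ∀ x, y k x * y l x * L x
            = 3 / P.ε * (y l x * cc (x (v, k)) * L x) - s * (y l x * L x) := by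
          intro x; simp only [hy]; ring
        simp only [e]
        rw [integral_sub ((((hyb l).mul (bm_cc_eval (v, k))).mul hLb).integrable _ |>.const_mul _)
          (((hyb l).mul hLb).integrable _ |>.const_mul _), integral_const_mul, integral_const_mul,
          Model.integral_cc_L hgood (mem_idx.2 ⟨Finset.mem_singleton_self v, hk.le⟩) η (hyb l) (fun x z => (congrArg (y l) (update_inst _ _ x (v, k) z)).trans (hyd x z))]
        have h1 : (P.mdl {v}).ε = P.ε := rfl
        have h2 : (P.mdl {v}).sg (v, k) η = s := rfl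
        rw [h1, h2]
        field_simp
        ring
      have hL1 : ∫ x, L x ∂PU (V × ℕ) = 1 := Model.integral_L_one hgood _ η
      have hL0 : ∀ x, 0 ≤ L x := fun x => (Model.L_pos hgood _ x η).le
      have hdiag : ∀ k, ∫ x, y k x * y k x * L x ∂PU (V × ℕ) ≤ (3 / P.ε + 1) ^ 2 := by
        intro k
        calc _ ≤ ∫ x, (3 / P.ε + 1) ^ 2 * L x ∂PU (V × ℕ) := by
              refine integral_mono ((((hyb k).mul (hyb k)).mul hLb).integrable _)
                ((hLb.integrable _).const_mul _) (fun x => mul_le_mul_of_nonneg_right ?_ (hL0 x))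
              rw [← pow_two]
              exact sq_le_sq' (abs_le.1 (hB k x)).1 (abs_le.1 (hB k x)).2
          _ = _ := by rw [integral_const_mul, hL1, mul_one]
      have hTs : ∀ x, Tn P.ε n v x - s = (∑ k ∈ Finset.range n, y k x) / n := by
        intro x
        have hn' : (n : ℝ) ≠ 0 := by exact_mod_cast hn.ne'
        simp only [Tn, hy, Finset.sum_sub_distrib, Finset.sum_const, Finset.card_range,
          nsmul_eq_mul]
        field_simp
      have hpt : ∀ x, φ x * L x ≤ (3 / P.ε + 1) ^ 2 / (n : ℝ) ^ 2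
          * ∑ k ∈ Finset.range n, ∑ l ∈ Finset.range n, y k x * y l x * L x := by
        intro x
        have e : ∑ k ∈ Finset.range n, ∑ l ∈ Finset.range n, y k x * y l x * L x
            = (∑ k ∈ Finset.range n, y k x) ^ 2 * L x := by
          rw [pow_two, Finset.sum_mul_sum, Finset.sum_mul]
          exact Finset.sum_congr rfl (fun k _ => (Finset.sum_mul _ _ _).symm)
        rw [e, ← mul_assoc]
        refine mul_le_mul_of_nonneg_right ?_ (hL0 x)
        rw [div_mul_eq_mul_div, mul_div_assoc, ← div_pow, ← hTs x]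
        have hs1 : s * s = 1 := sp_mul_self η v
        have : Tn P.ε n v x ^ 2 - 1 = (Tn P.ε n v x - s) * (Tn P.ε n v x + s) := by
          linear_combination hs1
        simp only [hφdef, this, mul_pow]
        rw [mul_comm ((Tn P.ε n v x - s) ^ 2)]
        refine mul_le_mul_of_nonneg_right ?_ (sq_nonneg _)
        have h3 := abs_le.1 (abs_Tn_le hε n v x)
        have h4 := abs_le.1 (abs_sp η v).le
        exact sq_le_sq' (by linarith) (by linarith)
      have iI : ∀ k ∈ Finset.range n, Integrable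
          (fun x => ∑ l ∈ Finset.range n, y k x * y l x * L x) (PU (V × ℕ)) := fun k _ =>
        integrable_finsetSum _ (fun l _ => (((hyb k).mul (hyb l)).mul hLb).integrable _)
      refine (integral_mono ((hφ.mul hLb).integrable _)
        ((integrable_finsetSum _ iI).const_mul _) hpt).trans ?_
      rw [integral_const_mul, integral_finsetSum _ iI]
      have h5 : ∑ k ∈ Finset.range n,
          ∫ x, (∑ l ∈ Finset.range n, y k x * y l x * L x) ∂PU (V × ℕ)
          ≤ n * (3 / P.ε + 1) ^ 2 := by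
        calc _ ≤ ∑ _k ∈ Finset.range n, (3 / P.ε + 1) ^ 2 := by
              refine Finset.sum_le_sum (fun k hk => ?_)
              rw [integral_finsetSum _ (fun l _ => (((hyb k).mul (hyb l)).mul hLb).integrable _),
                Finset.sum_eq_single k (fun l _ hl => hoff k (Finset.mem_range.1 hk) l hl)
                  (fun h => absurd hk h)]
              exact hdiag k
          _ = _ := by simp
      calc _ ≤ (3 / P.ε + 1) ^ 2 / (n : ℝ) ^ 2 * (n * (3 / P.ε + 1) ^ 2) :=
            mul_le_mul_of_nonneg_left h5 (by positivity)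
        _ = _ := by
            have hn' : (n : ℝ) ≠ 0 := by exact_mod_cast hn.ne'
            field_simp
    refine (EI_mono P.θnn P.θlt _ hb).trans (le_of_eq ?_)
    rw [EI_singleton]; ring
  exact hmain.trans_le hle

/-- the spins -/
def spins (ω : Inputs V) (v : V) : Bool :=
  decide (∃ J, ∀ j ≥ J, 0 < Tn P.ε ((j + 1) ^ 2) v (P.lim ω))

omit [Countable V] in
lemma measurable_spins_aux [Countable V] : Measurable P.spins := by
  apply measurable_pi_lambda
  intro v
  apply measurable_to_bool
  have : (fun ω => P.spins ω v) ⁻¹' {true}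
      = ⋃ J : ℕ, ⋂ j ∈ Ici J, {ω | 0 < Tn P.ε ((j + 1) ^ 2) v (P.lim ω)} := by
    ext ω; simp [spins]
  rw [this]
  exact MeasurableSet.iUnion (fun J => MeasurableSet.biInter (Ici J).to_countable
    (fun j _ => measurableSet_lt measurable_const
      ((bm_Tn P.ε _ v).1.comp P.measurable_lim)))

lemma ae_tendsto_Tn : ∀ᵐ ω ∂PIn V, ∀ v : V,
    Tendsto (fun j : ℕ => Tn P.ε ((j + 1) ^ 2) v (P.lim ω)) atTop (𝓝 (spin (P.spins ω v))) := by
  rw [ae_all_iff]
  intro v
  have hs : Summable (fun j : ℕ => (3 / P.ε + 1) ^ 4 * (1 / ((j : ℝ) + 1) ^ 2)) := by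
    refine Summable.mul_left _ ?_
    have := (summable_nat_add_iff 1).2 (Real.summable_one_div_nat_pow.2 one_lt_two)
    simpa using this
  filter_upwards [ae_summable_of_summable_integral (PIn V)
    (f := fun j ω => (Tn P.ε ((j + 1) ^ 2) v (P.lim ω) ^ 2 - 1) ^ 2)
    (fun j => (((bm_Tn P.ε _ v).sq.sub (BM.const 1)).sq).comp P.measurable_lim)
    (fun j ω => sq_nonneg _) hs (fun j => (P.integral_sq_lim v (by positivity)).trans
      (le_of_eq (by push_cast; ring)))] with ω hω
  set t : ℕ → ℝ := fun j => Tn P.ε ((j + 1) ^ 2) v (P.lim ω) with ht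
  have h1 : Tendsto (fun j => (t j ^ 2 - 1) ^ 2) atTop (𝓝 0) := hω.tendsto_atTop_zero
  have h2 : Tendsto (fun j => |t j|) atTop (𝓝 1) := by
    have e : Tendsto (fun j => t j ^ 2 - 1) atTop (𝓝 0) := by
      rw [tendsto_zero_iff_abs_tendsto_zero]
      have := h1.sqrt
      simpa [Real.sqrt_sq_eq_abs, Function.comp_def] using this
    have := (e.add_const 1).sqrt
    simpa [Real.sqrt_sq_eq_abs] using this
  have h3 : Tendsto (fun j => |t (j + 1) - t j|) atTop (𝓝 0) := by
    refine squeeze_zero (fun j => abs_nonneg _) (g := fun j : ℕ => 2 * (3 / P.ε) * 3 / ((j : ℝ) + 1))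
      (fun j => ?_) ?_
    · refine (Tn_consec P.εpos _ _ (Nat.pow_le_pow_left (by omega) 2) (by positivity) v _).trans ?_
      have hε := P.εpos
      push_cast
      rw [div_le_div_iff₀ (by positivity) (by positivity)]
      have : (((j:ℝ) + 1 + 1) ^ 2 - ((j:ℝ) + 1) ^ 2) * ((j:ℝ) + 1) ≤ 3 * ((j:ℝ) + 1 + 1) ^ 2 := by
        nlinarith [sq_nonneg (j:ℝ), (Nat.cast_nonneg j : (0:ℝ) ≤ j)]
      calc 2 * (3 / P.ε) * (((j:ℝ) + 1 + 1) ^ 2 - ((j:ℝ) + 1) ^ 2) * ((j:ℝ) + 1)
          = 2 * (3 / P.ε) * ((((j:ℝ) + 1 + 1) ^ 2 - ((j:ℝ) + 1) ^ 2) * ((j:ℝ) + 1)) := by ring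
        _ ≤ 2 * (3 / P.ε) * (3 * ((j:ℝ) + 1 + 1) ^ 2) :=
            mul_le_mul_of_nonneg_left this (by positivity)
        _ = _ := by ring
    · have := (tendsto_one_div_add_atTop_nhds_zero_nat).const_mul (2 * (3 / P.ε) * 3)
      simpa [mul_zero, mul_one_div, div_eq_mul_inv] using this
  obtain ⟨J, hJ⟩ := eventually_atTop.1 ((h2.eventually (lt_mem_nhds (show (1/2:ℝ) < 1 by norm_num))).and
    (h3.eventually (gt_mem_nhds (show (0:ℝ) < 1/2 by norm_num))))
  have hsign : ∀ j ≥ J, (0 < t j ↔ 0 < t J) := by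
    intro j hj
    induction j, hj using Nat.le_induction with
    | base => rfl
    | succ j hj ih =>
      rw [← ih]
      obtain ⟨a1, a2⟩ := hJ j hj
      obtain ⟨a3, -⟩ := hJ (j + 1) (by omega)
      have := abs_lt.1 a2
      constructor
      · intro h
        rcases lt_or_ge 0 (t j) with h' | h'
        · exact h'
        · rw [abs_of_pos h] at a3; linarith
      · intro h
        rcases lt_or_ge 0 (t (j + 1)) with h' | h'
        · exact h'
        · rw [abs_of_pos h] at a1; linarith
  by_cases hpos : 0 < t J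
  · have hsp : P.spins ω v = true := by
      simp only [spins, decide_eq_true_eq]
      exact ⟨J, fun j hj => (hsign j hj).2 hpos⟩
    rw [hsp]
    refine h2.congr' ?_
    filter_upwards [eventually_ge_atTop J] with j hj using abs_of_pos ((hsign j hj).2 hpos)
  · have hneg : ∀ j ≥ J, t j ≤ 0 := fun j hj => not_lt.1 (fun h => hpos ((hsign j hj).1 h))
    have hsp : P.spins ω v = false := by
      simp only [spins, decide_eq_false_iff_not]
      rintro ⟨K, hK⟩
      have := hK (max J K) (le_max_right _ _)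
      have := hneg (max J K) (le_max_left _ _)
      simp only [ht] at this
      linarith
    rw [hsp, show spin false = -1 from rfl]
    refine h2.neg.congr' ?_
    filter_upwards [eventually_ge_atTop J] with j hj
    rw [abs_of_nonpos (hneg j hj), neg_neg]

/-- finite marginals of the spins -/
lemma spins_cylinder {D : Finset V} (hD : Geo P.G D) (hne : D.Nonempty) (b : V → Bool) :
    (PIn V) {ω | ∀ v ∈ D, P.spins ω v = b v} = ENNReal.ofReal (isingCylinder P.G P.θ D b) := by
  have hms : MeasurableSet {ω | ∀ v ∈ D, P.spins ω v = b v} := by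
    have : {ω | ∀ v ∈ D, P.spins ω v = b v} = ⋂ v ∈ D, (fun ω => P.spins ω v) ⁻¹' {b v} := by
      ext ω; simp
    rw [this]
    exact Finset.measurableSet_biInter D (fun v _ =>
      ((measurable_pi_apply v).comp P.measurable_spins_aux) (measurableSet_singleton _))
  set φ : ℕ → Inputs V → ℝ := fun j ω =>
    ∏ v ∈ D, (1 + spin (b v) * Tn P.ε ((j + 1) ^ 2) v (P.lim ω)) / 2 with hφ
  have hbd : ∀ (j : ℕ) (ω : Inputs V), |φ j ω| ≤ ((1 + 3 / P.ε) / 2) ^ D.card := by
    intro j ω
    simp only [hφ, Finset.abs_prod]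
    refine (Finset.prod_le_prod (fun v _ => abs_nonneg _) (fun v _ => ?_)).trans
      (le_of_eq (Finset.prod_const _))
    rw [abs_div, abs_two]
    refine div_le_div_of_nonneg_right ((abs_add_le _ _).trans (add_le_add abs_one.le ?_)) zero_le_two
    rw [abs_mul]
    have : |spin (b v)| = 1 := by cases b v <;> simp [spin]
    rw [this, one_mul]
    exact abs_Tn_le P.εpos _ v _
  have hm : ∀ j, Measurable (φ j) := fun j => Finset.measurable_prod _ (fun v _ =>
    ((measurable_const.add (measurable_const.mul ((bm_Tn P.ε _ v).1.comp P.measurable_lim))).div_const _))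
  have hlim : Tendsto (fun j => ∫ ω, φ j ω ∂PIn V) atTop
      (𝓝 (∫ ω, Set.indicator {ω | ∀ v ∈ D, P.spins ω v = b v} (fun _ => (1:ℝ)) ω ∂PIn V)) := by
    refine tendsto_integral_of_dominated_convergence _ (fun j => (hm j).aestronglyMeasurable)
      (integrable_const _) (fun j => ae_of_all _ (fun ω => (Real.norm_eq_abs _).le.trans (hbd j ω))) ?_
    filter_upwards [P.ae_tendsto_Tn] with ω hω
    have : Tendsto (fun j => φ j ω) atTop
        (𝓝 (∏ v ∈ D, (1 + spin (b v) * spin (P.spins ω v)) / 2)) :=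
      tendsto_finsetProd _ (fun v _ => (((hω v).const_mul _).const_add 1).div_const 2)
    refine this.trans (le_of_eq ?_)
    congr 1
    by_cases h : ω ∈ {ω | ∀ v ∈ D, P.spins ω v = b v}
    · rw [Set.indicator_of_mem h]
      refine Finset.prod_eq_one (fun v hv => ?_)
      rw [h v hv]
      cases b v <;> norm_num [spin]
    · rw [Set.indicator_of_notMem h]
      simp only [Set.mem_ofPred_eq] at h
      push Not at h
      obtain ⟨v, hv, hvb⟩ := h
      refine Finset.prod_eq_zero hv ?_
      cases hb : b v <;> cases hs : P.spins ω v <;> simp_all [spin]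
  have e : ∀ j, ∫ ω, φ j ω ∂PIn V = isingCylinder P.G P.θ D b :=
    fun j => P.integral_prod_lim hD hne b (by positivity)
  rw [funext e, integral_indicator_const _ hms, smul_eq_mul, mul_one] at hlim
  rw [tendsto_nhds_unique tendsto_const_nhds hlim]
  exact (ofReal_measureReal (measure_ne_top _ _)).symm

end Par

end Vale.Agent.P161
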