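import Mathlib
import Vale.Agent.P161.Law

/-!
The construction commutes with automorphisms.
-/

open MeasureTheory Set Function Filter
open scoped Classical Topology

noncomputable section

namespace Vale.Agent.P161

variable {V : Type*}

/-- automorphisms preserve the distance -/
lemma iso_dist {G : SimpleGraph V} (hT : G.IsTree) (g : G ≃g G) (a b : V) :
    G.dist (g a) (g b) = G.dist a b := by
  have key : ∀ (g : G ≃g G) (a b : V), G.dist (g a) (g b) ≤ G.dist a b := by
    intro g a b
    obtain ⟨p, hp⟩ := hT.connected.exists_walk_length_eq_dist a b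
    rw [← hp, ← SimpleGraph.Walk.length_map g.toHom p]
    exact SimpleGraph.dist_le _
  refine le_antisymm (key g a b) ?_
  conv_lhs => rw [← g.symm_apply_apply a, ← g.symm_apply_apply b]
  exact key g.symm (g a) (g b)

/-- the action of an automorphism on the inputs -/
def act {G : SimpleGraph V} (g : G ≃g G) (ω : Inputs V) : Inputs V :=
  (fun v => ω.1 (g.symm v), fun i => ω.2 (g.symm i.1, i.2))

lemma measurePreserving_act {G : SimpleGraph V} (g : G ≃g G) :
    MeasurePreserving (act g) (PIn V) (PIn V) := by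
  have key : ∀ {α : Type _} (e : α ≃ α),
      MeasurePreserving (fun (x : α → ℝ) a => x (e a)) (PU α) (PU α) := by
    intro α e
    refine ⟨measurable_pi_lambda _ (fun a => measurable_pi_apply (e a)), ?_⟩
    refine Measure.eq_infinitePi _ (fun s t ht => ?_)
    rw [Measure.map_apply (measurable_pi_lambda _ (fun a => measurable_pi_apply (e a)))
      (.pi s.countable_toSet (fun i _ => ht i))]
    have : (fun (x : α → ℝ) a => x (e a)) ⁻¹' (Set.pi (s : Set α) t)
        = Set.pi ((s.map e.toEmbedding : Finset α) : Set α) (fun b => t (e.symm b)) := by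
      ext x
      simp only [mem_preimage, Set.mem_pi, Finset.mem_coe, Finset.mem_map, Equiv.coe_toEmbedding,
        forall_exists_index, and_imp]
      constructor
      · rintro h b a ha rfl; simpa using h a ha
      · intro h a ha; simpa using h (e a) a ha rfl
    rw [this, PU, Measure.infinitePi_pi _ (fun b _ => ht _), Finset.prod_map]
    simp
  exact (key g.symm.toEquiv).prod (key (Equiv.prodCongr g.symm.toEquiv (Equiv.refl ℕ)))

namespace Par

variable (P : Par V)

lemma geo_image (g : P.G ≃g P.G) {D : Finset V} (hD : Geo P.G D) : Geo P.G (D.image g) := by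
  intro x hx u hu y ha hy
  obtain ⟨x', hx', rfl⟩ := Finset.mem_image.1 hx
  obtain ⟨u', hu', rfl⟩ := Finset.mem_image.1 hu
  have ha' : P.G.Adj x' (g.symm y) := by
    have := (g.symm.map_adj_iff).2 ha
    simpa using this
  refine Finset.mem_image.2 ⟨g.symm y, hD x' hx' u' hu' _ ha' ?_, by simp⟩
  rw [← iso_dist P.tree g (g.symm y) u', ← iso_dist P.tree g x' u']
  simpa using hy

lemma image_B (g : P.G ≃g P.G) (v : V) (n : ℕ) : (P.B v n).image g = P.B (g v) n := by
  ext x
  simp only [Finset.mem_image, Par.B, mem_ball_iff P.tree]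
  constructor
  · rintro ⟨y, hy, rfl⟩; rwa [iso_dist P.tree]
  · intro h
    refine ⟨g.symm x, ?_, by simp⟩
    rw [← iso_dist P.tree g]
    simpa using h

lemma wgt_image (g : P.G ≃g P.G) (D η : Finset V) :
    wgt P.G P.θ (D.image g) (η.image g) = wgt P.G P.θ D η := by
  have h1 : (D.image g).sym2.filter (fun e => e ∈ P.G.edgeSet)
      = (D.sym2.filter (fun e => e ∈ P.G.edgeSet)).image (Sym2.map g) := by
    rw [Finset.sym2_image, Finset.filter_image]
    congr 1
    refine Finset.filter_congr (fun e _ => ?_)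
    induction e using Sym2.ind with
    | _ a b => simp [Sym2.map_mk, g.map_adj_iff]
  unfold wgt isingCylinder
  rw [h1, Finset.prod_image (fun a _ b _ h => Sym2.map.injective g.injective h)]
  congr 1
  refine Finset.prod_congr rfl (fun e _ => ?_)
  induction e using Sym2.ind with
  | _ a b => simp [Sym2.map_mk, edgeFactor_mk, g.injective.eq_iff]

lemma mean_image (g : P.G ≃g P.G) (D : Finset V) (i : V × ℕ) (a : Finset (V × ℕ))
    (x : V × ℕ → ℝ) :
    (P.mdl (D.image g)).mean (g i.1, i.2) (a.image (fun l => (g l.1, l.2))) x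
      = (P.mdl D).mean i a (fun l => x (g l.1, l.2)) := by
  have hinj : Injective (fun l : V × ℕ => (g l.1, l.2)) := fun a b h => by
    simp only [Prod.mk.injEq] at h
    exact Prod.ext (g.injective h.1) h.2
  have hS : (P.mdl (D.image g)).S = (P.mdl D).S.image (fun η => η.image g) := Finset.powerset_image
  have hsp : ∀ η v, sp (η.image g) (g v) = sp η v := fun η v => by
    simp [sp, g.injective.eq_iff]
  have hL : ∀ η, (P.mdl (D.image g)).L (a.image (fun l => (g l.1, l.2))) x (η.image g)
      = (P.mdl D).L a (fun l => x (g l.1, l.2)) η := by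
    intro η
    rw [Model.L, Model.L, Finset.prod_image hinj.injOn]
    exact Finset.prod_congr rfl (fun l _ => by simp only [mdl, hsp])
  have himg : Injective (fun η : Finset V => η.image g) := Finset.image_injective g.injective
  simp only [Model.mean, Model.num, Model.den, hS]
  rw [Finset.sum_image himg.injOn, Finset.sum_image himg.injOn]
  congr 1
  · refine Finset.sum_congr rfl (fun η _ => ?_)
    rw [hL]
    show wgt _ _ _ _ * _ * sp _ _ = wgt _ _ _ _ * _ * sp _ _
    rw [P.wgt_image, hsp]
  · refine Finset.sum_congr rfl (fun η _ => ?_)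
    rw [hL]
    show wgt _ _ _ _ * _ = wgt _ _ _ _ * _
    rw [P.wgt_image]

lemma X_image (g : P.G ≃g P.G) (D : Finset V) (ω : Inputs V) (i : V × ℕ) (hi : i.1 ∈ D) :
    P.X (D.image g) (act g ω) (g i.1, i.2) = P.X D ω i := by
  set U' := (act g ω).1 with hU'
  set k := i.2
  have hord : ∀ a b : V × ℕ, ord U' (g a.1, a.2) (g b.1, b.2) ↔ ord ω.1 a b := by
    intro a b; simp [ord, hU', act]
  have hidx : idx (D.image g) k = (idx D k).image (fun l => (g l.1, l.2)) := by
    ext l
    simp only [mem_idx, Finset.mem_image]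
    constructor
    · rintro ⟨⟨w, hw, hwl⟩, hl⟩
      exact ⟨(w, l.2), ⟨hw, hl⟩, Prod.ext hwl rfl⟩
    · rintro ⟨m, ⟨hm, hm'⟩, rfl⟩
      exact ⟨⟨m.1, hm, rfl⟩, hm'⟩
  have hiD : i ∈ idx D k := mem_idx.2 ⟨hi, le_rfl⟩
  refine (Model.sol_eq_of_fixed (M := P.mdl D) (ord_irrefl ω.1) (ord_trans ω.1) ω.2
    (x := fun l => (P.mdl (D.image g)).sol (ord U') (idx (D.image g) k) (act g ω).2 (g l.1, l.2))
    (fun l hl => ?_) i hiD).symm
  have hgl : (g l.1, l.2) ∈ idx (D.image g) k := by
    rw [hidx]; exact Finset.mem_image_of_mem _ hl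
  rw [Model.sol_fixed (ord_irrefl U') (ord_trans U') _ _ _ hgl]
  simp only [Model.step, if_pos hl, if_pos hgl]
  have hpre : Model.pre (ord U') (idx (D.image g) k) (g l.1, l.2)
      = (Model.pre (ord ω.1) (idx D k) l).image (fun m => (g m.1, m.2)) := by
    unfold Model.pre
    rw [hidx, Finset.filter_image]
    congr 1
    exact Finset.filter_congr (fun m _ => hord m l)
  rw [hpre, P.mean_image]
  simp only [act, RelIso.symm_apply_apply]
  rfl

variable [Countable V]

lemma lim_act (g : P.G ≃g P.G) (i : V × ℕ) :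
    ∀ᵐ ω ∂PIn V, P.lim (act g ω) (g i.1, i.2) = P.lim ω i := by
  set F : Inputs V → ℝ := fun ω => P.lim (act g ω) (g i.1, i.2) - P.lim ω i with hF
  have hmp := measurePreserving_act g
  have hFb : BM F := ((P.bm_lim _).comp hmp.measurable).sub (P.bm_lim i)
  have h0 : ∫ ω, |F ω| ∂PIn V ≤ 0 := by
    refine le_of_forall_pos_le_add (fun δ hδ => ?_)
    obtain ⟨N1, h1⟩ := P.lim_spec (g i.1, i.2) (half_pos hδ)
    obtain ⟨N2, h2⟩ := P.lim_spec i (half_pos hδ)
    set D := P.B i.1 (max N1 N2)
    have hsub1 : P.B (g i.1) N1 ⊆ D.image g := by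
      rw [P.image_B]; exact ball_mono P.tree P.fin _ (le_max_left _ _)
    have e1 := h1 (D.image g) (P.geo_image g (P.geo_B _ _)) hsub1
    have e2 := h2 D (P.geo_B _ _) (ball_mono P.tree P.fin _ (le_max_right _ _))
    have hb : BM (fun ω => |P.X (D.image g) ω (g i.1, i.2) - P.lim ω (g i.1, i.2)|) :=
      ((P.bm_X _ _).sub (P.bm_lim _)).abs
    have e3 : ∫ ω, |P.X (D.image g) (act g ω) (g i.1, i.2) - P.lim (act g ω) (g i.1, i.2)| ∂PIn V
        ≤ δ / 2 := by
      have := integral_map (μ := PIn V) hmp.measurable.aemeasurable hb.1.aestronglyMeasurable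
      rw [hmp.map_eq] at this
      rw [← this]
      exact e1
    have i1 := (hb.comp hmp.measurable).integrable (PIn V)
    have i2 := ((P.bm_X D i).sub (P.bm_lim i)).abs.integrable (PIn V)
    calc ∫ ω, |F ω| ∂PIn V ≤ ∫ ω, (|P.X (D.image g) (act g ω) (g i.1, i.2)
          - P.lim (act g ω) (g i.1, i.2)| + |P.X D ω i - P.lim ω i|) ∂PIn V := by
          refine integral_mono (hFb.abs.integrable _) (i1.add i2) (fun ω => ?_)
          simp only [hF]
          rw [P.X_image g D ω i (P.self_B _ _)]
          calc _ ≤ |P.lim (act g ω) (g i.1, i.2) - P.X D ω i| + |P.X D ω i - P.lim ω i| :=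
                abs_sub_le _ _ _
            _ = _ := by rw [abs_sub_comm (P.lim (act g ω) (g i.1, i.2))]
      _ ≤ 0 + δ := by rw [integral_add i1 i2]; linarith
  have h1 : ∫ ω, |F ω| ∂PIn V = 0 := le_antisymm h0 (integral_nonneg (fun ω => abs_nonneg _))
  filter_upwards [(integral_eq_zero_iff_of_nonneg (fun ω => abs_nonneg _)
    (hFb.abs.integrable _)).1 h1] with ω hω
  have : F ω = 0 := by simpa using hω
  exact sub_eq_zero.1 this

lemma spins_act (g : P.G ≃g P.G) :
    ∀ᵐ ω ∂PIn V, P.spins (act g ω) = fun v => P.spins ω (g.symm v) := by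
  filter_upwards [ae_all_iff.2 (fun i => P.lim_act g i)] with ω hω
  funext v
  have e : ∀ n, Tn P.ε n v (P.lim (act g ω)) = Tn P.ε n (g.symm v) (P.lim ω) := by
    intro n
    unfold Tn
    congr 1
    refine Finset.sum_congr rfl (fun k _ => ?_)
    rw [← hω (g.symm v, k)]
    simp
  simp only [spins, e]

end Par

end Vale.Agent.P161
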