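import Mathlib
import Vale.Agent.P161.Equivariance

/-!
The free Ising state is a factor of i.i.d. below the Kesten-Stigum threshold.
-/

open MeasureTheory Set Function Filter
open scoped Classical Topology

noncomputable section

namespace Vale.Agent.P161

variable {V : Type*} {G : SimpleGraph V}

lemma connected_of_geo (hT : G.IsTree) {D : Finset V} (hD : Geo G D) {o : V} (ho : o ∈ D) :
    (G.induce (D : Set V)).Connected := by
  have key : ∀ (n : ℕ) (x : V) (hx : x ∈ D), G.dist x o = n →
      (G.induce (D : Set V)).Reachable ⟨x, hx⟩ ⟨o, ho⟩ := by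
    intro n
    induction n with
    | zero =>
      intro x hx h
      rw [hT.connected.dist_eq_zero_iff] at h
      subst h
      exact SimpleGraph.Reachable.refl _
    | succ n ih =>
      intro x hx h
      have hne : x ≠ o := by intro e; subst e; simp at h
      obtain ⟨y, ha, hy⟩ := exists_toward hT hne
      have hyD := hD x hx o ho y ha hy
      refine SimpleGraph.Reachable.trans (SimpleGraph.Adj.reachable ?_) (ih y hyD (by omega))
      exact ha
  rw [SimpleGraph.connected_iff]
  refine ⟨fun a b => (key _ a.1 a.2 rfl).trans (key _ b.1 b.2 rfl).symm, ⟨⟨o, ho⟩⟩⟩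

lemma map_comp_equiv {α β : Type*} (e : α ≃ β) :
    (PU β).map (fun x a => x (e a)) = PU α := by
  refine Measure.eq_infinitePi _ (fun s t ht => ?_)
  rw [Measure.map_apply (measurable_pi_lambda _ (fun a => measurable_pi_apply (e a)))
    (.pi s.countable_toSet (fun i _ => ht i))]
  have : (fun (x : β → ℝ) a => x (e a)) ⁻¹' (Set.pi (s : Set α) t)
      = Set.pi ((s.map e.toEmbedding : Finset β) : Set β) (fun b => t (e.symm b)) := by
    ext x
    simp only [mem_preimage, Set.mem_pi, Finset.mem_coe, Finset.mem_map, Equiv.coe_toEmbedding,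
      forall_exists_index, and_imp]
    constructor
    · rintro h b a ha rfl; simpa using h a ha
    · intro h a ha; simpa using h (e a) a ha rfl
  rw [this, PU, Measure.infinitePi_pi _ (fun b _ => ht _), Finset.prod_map]
  simp

lemma map_split {α β : Type*} :
    (PU (α ⊕ β)).map (fun x => ((fun a => x (Sum.inl a)), fun b => x (Sum.inr b)))
      = (PU α).prod (PU β) := by
  have hm : Measurable (fun p : (α → ℝ) × (β → ℝ) => Sum.elim p.1 p.2) := by
    refine measurable_pi_lambda _ (fun c => ?_)
    cases c with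
    | inl a => exact (measurable_pi_apply a).comp measurable_fst
    | inr b => exact (measurable_pi_apply b).comp measurable_snd
  have h : ((PU α).prod (PU β)).map (fun p => Sum.elim p.1 p.2) = PU (α ⊕ β) := by
    refine Measure.eq_infinitePi _ (fun s t ht => ?_)
    rw [Measure.map_apply hm (.pi s.countable_toSet (fun i _ => ht i))]
    have : (fun p : (α → ℝ) × (β → ℝ) => Sum.elim p.1 p.2) ⁻¹' (Set.pi (s : Set (α ⊕ β)) t)
        = (Set.pi (s.toLeft : Set α) (fun a => t (Sum.inl a)))
          ×ˢ (Set.pi (s.toRight : Set β) (fun b => t (Sum.inr b))) := by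
      ext p
      simp only [mem_preimage, Set.mem_pi, Finset.mem_coe, mem_prod, Finset.mem_toLeft,
        Finset.mem_toRight]
      constructor
      · intro h; exact ⟨fun a ha => h _ ha, fun b hb => h _ hb⟩
      · rintro ⟨h1, h2⟩ (a | b) hc
        · exact h1 a hc
        · exact h2 b hc
    rw [this, Measure.prod_prod, PU, PU, Measure.infinitePi_pi _ (fun a _ => ht _),
      Measure.infinitePi_pi _ (fun b _ => ht _), Finset.prod_sum_eq_prod_toLeft_mul_prod_toRight]
  rw [← h, Measure.map_map (by fun_prop) hm]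
  exact Measure.map_id

/-- reindexing of the sources -/
def srcEquiv (V : Type*) : (V ⊕ V × ℕ) ≃ (V × ℕ) where
  toFun := Sum.elim (fun v => (v, 0)) (fun i => (i.1, i.2 + 1))
  invFun := fun i => if i.2 = 0 then Sum.inl i.1 else Sum.inr (i.1, i.2 - 1)
  left_inv := by rintro (v | i) <;> simp
  right_inv := by
    rintro ⟨v, k⟩
    by_cases h : k = 0
    · simp [h]
    · simp [h, Nat.sub_add_cancel (Nat.one_le_iff_ne_zero.2 h)]

lemma exists_decode (V : Type*) : ∃ h : unitInterval → (ℕ → ℝ), Measurable h ∧
    (iidUniform V).map (fun U => ((fun v => h (U v) 0), fun i : V × ℕ => h (U i.1) (i.2 + 1)))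
      = PIn V := by
  obtain ⟨h, hh, hmap⟩ := (PU ℕ).exists_measurable_map_eq
  refine ⟨h, hh, ?_⟩
  have h1 : (iidUniform V).map (fun U v => h (U v))
      = Measure.infinitePi (fun _ : V => PU ℕ) := by
    unfold iidUniform
    rw [Measure.infinitePi_map_pi _ (fun _ => hh), hmap]
  have h2 : (Measure.infinitePi (fun _ : V => PU ℕ)).map (MeasurableEquiv.curry V ℕ ℝ).symm
      = PU (V × ℕ) := Measure.infinitePi_map_curry_symm (fun _ _ => lam)
  have h3 := map_comp_equiv (srcEquiv V)
  have h4 := map_split (α := V) (β := V × ℕ)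
  have m1 : Measurable (fun U : V → unitInterval => fun v => h (U v)) :=
    measurable_pi_lambda _ (fun v => hh.comp (measurable_pi_apply v))
  have m3 : Measurable (fun (x : V × ℕ → ℝ) a => x (srcEquiv V a)) :=
    measurable_pi_lambda _ (fun a => measurable_pi_apply _)
  have m4 : Measurable (fun x : V ⊕ V × ℕ → ℝ =>
      ((fun a => x (Sum.inl a)), fun b => x (Sum.inr b))) := by fun_prop
  rw [PIn, ← h4, ← h3, ← h2, ← h1, Measure.map_map (MeasurableEquiv.measurable _) m1,
    Measure.map_map m3 ((MeasurableEquiv.measurable _).comp m1),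
    Measure.map_map m4 (m3.comp ((MeasurableEquiv.measurable _).comp m1))]
  rfl

lemma exists_par (hT : G.IsTree) {d : ℕ} (hd : ∀ v, (G.neighborSet v).ncard = d) (h3 : 3 ≤ d)
    {θ : ℝ} (h0 : 0 ≤ θ) (hlt : θ * Real.sqrt ((d : ℝ) - 1) < 1) :
    ∃ P : Par V, P.G = G ∧ P.θ = θ := by
  set q := d - 1 with hq
  have hdq : d = q + 1 := by omega
  have hqR : (d : ℝ) - 1 = (q : ℝ) := by rw [hdq]; push_cast; ring
  rw [hqR] at hlt
  have hq1 : (1:ℝ) ≤ q := by exact_mod_cast (show 1 ≤ q by omega)
  set σ := Real.sqrt q with hσ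
  have hσ1 : 1 ≤ σ := Real.one_le_sqrt.2 hq1
  have hσ2 : σ ^ 2 = q := Real.sq_sqrt (by linarith)
  have hσ0 : 0 < σ := by linarith
  have hθσ : θ < 1 / σ := by rwa [lt_div_iff₀ hσ0]
  set r := (θ + 1 / σ) / 2 with hr
  have hθr : θ < r := by rw [hr]; linarith
  have hrσ : r < 1 / σ := by rw [hr]; linarith
  have hr0 : 0 < r := lt_of_le_of_lt h0 hθr
  have hqr : (q : ℝ) * r ^ 2 < 1 := by
    have : r * σ < 1 := by rwa [lt_div_iff₀ hσ0] at hrσ
    rw [← hσ2, ← mul_pow]
    exact pow_lt_one₀ (by positivity) (by linarith) two_ne_zero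
  have hθ1 : θ < 1 := lt_of_lt_of_le hθσ (by rw [div_le_one hσ0]; exact hσ1)
  have hqtr : (q : ℝ) * (θ * r) < 1 := by
    refine lt_of_le_of_lt ?_ hqr
    rw [pow_two]
    exact mul_le_mul_of_nonneg_left (mul_le_mul_of_nonneg_right hθr.le hr0.le) (by linarith)
  set C := 2 / (1 - q * (θ * r)) / (1 - θ / r) with hC
  have hsr : 0 < 1 - θ / r := by rw [sub_pos, div_lt_one hr0]; exact hθr
  have hC0 : 0 < C := div_pos (div_pos two_pos (by linarith)) hsr
  set ε := min (1/4) (1 / (4 * (C + 1))) with hε
  have hε0 : 0 < ε := lt_min (by norm_num) (by positivity)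
  have hεC : 8 * ε ^ 2 * C ≤ 1/2 := by
    have a1 : ε ≤ 1/4 := min_le_left _ _
    have a2 : ε * (4 * (C + 1)) ≤ 1 := by
      have := min_le_right (1/4 : ℝ) (1 / (4 * (C + 1)))
      rwa [← hε, le_div_iff₀ (by positivity)] at this
    nlinarith
  let P : Par V :=
    { G := G
      q := q
      θ := θ
      r := r
      C := C
      ε := ε
      tree := hT
      deg := fun v => by rw [hd v, hdq]
      qpos := by omega
      θnn := h0
      θlt := hθ1
      θr := hθr
      qr := hqr
      εpos := hε0
      εle := (min_le_left _ _).trans (by norm_num)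
      εC := hεC
      conv := fun v u W => sum_conv_le hT (fun v => by rw [hd v, hdq]) (by omega) h0 hθr hqtr _ v u
        rfl W }
  exact ⟨P, rfl, rfl⟩

lemma isFreeIsing_unique (hT : G.IsTree) (hf : ∀ v, (G.neighborSet v).Finite) {θ : ℝ}
    {μ ν : Measure (V → Bool)} (hμ : IsFreeIsing G θ μ) (hν : IsFreeIsing G θ ν) : μ = ν := by
  obtain ⟨o⟩ := hT.connected.nonempty
  have hconn : ∀ n, (G.induce ((ball G hf o n : Finset V) : Set V)).Connected := fun n =>
    connected_of_geo hT (geo_ball hT hf o n) (self_mem_ball hT hf o n)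
  have hball : ∀ (κ : Measure (V → Bool)), IsFreeIsing G θ κ → ∀ n (b : ball G hf o n → Bool),
      κ.map (ball G hf o n).restrict {b}
        = ENNReal.ofReal (isingCylinder G θ (ball G hf o n)
            (fun v => if h : v ∈ ball G hf o n then b ⟨v, h⟩ else false)) := by
    intro κ hκ n b
    rw [Measure.map_apply (Finset.measurable_restrict _) (measurableSet_singleton _)]
    rw [← hκ _ (hconn n)]
    congr 1
    ext σ
    simp only [mem_preimage, mem_singleton_iff, funext_iff, Subtype.forall, Finset.restrict,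
      Set.mem_ofPred_eq]
    refine forall₂_congr (fun v hv => ?_)
    simp [hv]
  have hball2 : ∀ n, μ.map (ball G hf o n).restrict = ν.map (ball G hf o n).restrict := fun n =>
    Measure.ext_of_singleton (fun b => by rw [hball μ hμ n b, hball ν hν n b])
  have hall : ∀ S : Finset V, μ.map S.restrict = ν.map S.restrict := by
    intro S
    obtain ⟨N, hN⟩ := exists_ball_superset hT hf o S
    have hS := hN N le_rfl
    rw [← Finset.restrict₂_comp_restrict (π := fun _ : V => Bool) hS,
      ← Measure.map_map (Finset.measurable_restrict₂ hS) (Finset.measurable_restrict _),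
      ← Measure.map_map (Finset.measurable_restrict₂ hS) (Finset.measurable_restrict _), hball2]
  have hfin : IsFiniteMeasure ν := by
    refine ⟨?_⟩
    have h1 : ν Set.univ = ∑ b : ball G hf o 0 → Bool, ν.map (ball G hf o 0).restrict {b} := by
      rw [sum_measure_singleton, Finset.coe_univ,
        Measure.map_apply (Finset.measurable_restrict _) MeasurableSet.univ, preimage_univ]
    rw [h1]
    exact ENNReal.sum_lt_top.2 (fun b _ => by rw [hball ν hν]; exact ENNReal.ofReal_lt_top)
  have : ∀ S : Finset V, IsFiniteMeasure (ν.map S.restrict) := fun S => Measure.isFiniteMeasure_map ν _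
  exact IsProjectiveLimit.unique (P := fun S : Finset V => ν.map S.restrict)
    (fun S => hall S) (fun S => rfl)

/-- the free Ising state exists and is a factor of i.i.d. below the Kesten-Stigum threshold -/
theorem fiid_below_threshold (hT : G.IsTree) {d : ℕ} (hd : ∀ v, (G.neighborSet v).ncard = d)
    (h3 : 3 ≤ d) {θ : ℝ} (h0 : 0 ≤ θ) (hlt : θ * Real.sqrt ((d : ℝ) - 1) < 1) :
    (∃ ν, IsFreeIsing G θ ν) ∧ ∀ ν, IsFreeIsing G θ ν → IsFactorOfIID G ν := by
  obtain ⟨P, rfl, rfl⟩ := exists_par hT hd h3 h0 hlt
  have : Countable V := countable_verts P.tree P.fin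
  obtain ⟨h, hh, hmap⟩ := exists_decode V
  set dec : (V → unitInterval) → Inputs V :=
    fun U => ((fun v => h (U v) 0), fun i : V × ℕ => h (U i.1) (i.2 + 1)) with hdec
  have hdm : Measurable dec := Measurable.prodMk
    (measurable_pi_lambda _ (fun v => ((measurable_pi_apply 0).comp hh).comp (measurable_pi_apply v)))
    (measurable_pi_lambda _ (fun i => ((measurable_pi_apply _).comp hh).comp (measurable_pi_apply i.1)))
  have hΦm : Measurable (fun U => P.spins (dec U)) := P.measurable_spins_aux.comp hdm
  set ν₀ := (iidUniform V).map (fun U => P.spins (dec U)) with hν₀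
  have hν : IsFreeIsing P.G P.θ ν₀ := by
    intro D hD b
    have hne : D.Nonempty := by
      obtain ⟨⟨v, hv⟩⟩ := hD.nonempty
      exact ⟨v, hv⟩
    have hms : MeasurableSet {σ : V → Bool | ∀ v ∈ D, σ v = b v} := by
      have : {σ : V → Bool | ∀ v ∈ D, σ v = b v} = ⋂ v ∈ D, (fun σ => σ v) ⁻¹' {b v} := by
        ext σ; simp
      rw [this]
      exact Finset.measurableSet_biInter D (fun v _ =>
        measurable_pi_apply v (measurableSet_singleton _))
    rw [← P.spins_cylinder (geo_of_connected P.tree hD) hne b, hν₀,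
      show (fun U => P.spins (dec U)) = P.spins ∘ dec from rfl,
      ← Measure.map_map P.measurable_spins_aux hdm, hmap,
      Measure.map_apply P.measurable_spins_aux hms]
    rfl
  refine ⟨⟨ν₀, hν⟩, fun ν hν' => ⟨fun U => P.spins (dec U), hΦm, fun g => ?_,
    isFreeIsing_unique P.tree P.fin hν hν'⟩⟩
  have := ae_of_ae_map hdm.aemeasurable (p := fun ω => P.spins (act g ω) = fun v => P.spins ω (g.symm v))
    (hmap.symm ▸ P.spins_act g)
  filter_upwards [this] with U hU
  exact hU

end Vale.Agent.P161
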