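import Vale.Agent.P161.Ising

/-!
Existence of the free Ising state for every `θ ∈ [0,1]`: a root spin and independent flips
along the edges pointing to the root.
-/

open MeasureTheory Finset
open scoped Classical

noncomputable section

namespace Vale.Agent.P161

variable {V : Type*} {G : SimpleGraph V}

namespace FreeState

variable (hT : G.IsTree) (o : V)

/-- the neighbour towards the root -/
def par (v : V) : V := if h : v = o then o else Classical.choose (exists_toward hT h)

lemma par_spec {v : V} (h : v ≠ o) :
    G.Adj v (par hT o v) ∧ G.dist (par hT o v) o + 1 = G.dist v o := by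
  rw [par, dif_neg h]
  exact Classical.choose_spec (exists_toward hT h)

/-- the spins obtained from the edge bits, computed to depth `n` -/
def spinsTo : ℕ → V → (V → Bool) → Bool
  | 0, _, b => b o
  | n + 1, v, b => if v = o then b o else
      if b v then spinsTo n (par hT o v) b else !(spinsTo n (par hT o v) b)

/-- the spins -/
def spins (b : V → Bool) : V → Bool := fun v => spinsTo hT o (G.dist v o) v b

lemma measurable_spinsTo : ∀ n v, Measurable (spinsTo hT o n v) := by
  intro n
  induction n with
  | zero => intro v; exact measurable_pi_apply o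
  | succ n ih =>
    intro v
    simp only [spinsTo]
    split_ifs
    · exact measurable_pi_apply o
    · refine Measurable.ite ((measurableSet_singleton (true : Bool)).preimage (measurable_pi_apply v))
        (ih _) ?_
      exact (Measurable.of_discrete (f := fun x : Bool => !x)).comp (ih _)

lemma spins_root (b : V → Bool) : spins hT o b o = b o := by
  simp [spins, spinsTo]

lemma spins_step (b : V → Bool) {v : V} (h : v ≠ o) : spins hT o b v
    = if b v then spins hT o b (par hT o v) else !(spins hT o b (par hT o v)) := by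
  have hd := (par_spec hT o h).2
  rw [spins, ← hd, spinsTo, if_neg h]
  rfl

/-- the edge bits of a configuration -/
def bits (η : V → Bool) : V → Bool := fun v => if v = o then η o else η v == η (par hT o v)

lemma agree_iff (D : Finset V) (ho : o ∈ D) (hD : Geo G D) (η b : V → Bool) :
    (∀ v ∈ D, spins hT o b v = η v) ↔ ∀ v ∈ D, b v = bits hT o η v := by
  have hpar : ∀ v ∈ D, v ≠ o → par hT o v ∈ D := fun v hv h =>
    hD v hv o ho _ (par_spec hT o h).1 (par_spec hT o h).2
  constructor
  · intro h v hv
    by_cases hvo : v = o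
    · subst hvo
      rw [bits, if_pos rfl, ← h v hv, spins_root]
    · rw [bits, if_neg hvo, ← h v hv, ← h _ (hpar v hv hvo), spins_step hT o b hvo]
      cases b v <;> cases spins hT o b (par hT o v) <;> rfl
  · intro h
    suffices ∀ n, ∀ v ∈ D, G.dist v o = n → spins hT o b v = η v from
      fun v hv => this _ v hv rfl
    intro n
    induction n with
    | zero =>
      intro v hv hn
      rw [hT.connected.dist_eq_zero_iff] at hn
      subst hn
      rw [spins_root, h v hv, bits, if_pos rfl]
    | succ n ih =>
      intro v hv hn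
      have hvo : v ≠ o := fun e => by subst e; simp at hn
      rw [spins_step hT o b hvo, ih _ (hpar v hv hvo) (by have := (par_spec hT o hvo).2; omega),
        h v hv, bits, if_neg hvo]
      cases η v <;> cases η (par hT o v) <;> rfl

lemma edges_eq (D : Finset V) (ho : o ∈ D) (hD : Geo G D) :
    D.sym2.filter (fun e => e ∈ G.edgeSet)
      = (D.erase o).image (fun v => s(v, par hT o v)) := by
  have hpar : ∀ v ∈ D, v ≠ o → par hT o v ∈ D := fun v hv h =>
    hD v hv o ho _ (par_spec hT o h).1 (par_spec hT o h).2
  have hup : ∀ a c : V, G.Adj a c → G.dist c o + 1 = G.dist a o →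
      a ≠ o ∧ par hT o a = c := by
    intro a c hac hd
    have hao : a ≠ o := fun e => by subst e; simp at hd
    exact ⟨hao, toward_unique hT (par_spec hT o hao).1 hac (par_spec hT o hao).2 hd⟩
  ext e
  induction e using Sym2.ind with
  | _ a c =>
    simp only [Finset.mem_filter, Finset.mk_mem_sym2_iff, SimpleGraph.mem_edgeSet,
      Finset.mem_image, Finset.mem_erase]
    constructor
    · rintro ⟨⟨ha, hc⟩, hac⟩
      rcases adj_cases hT hac o with hd | hd
      · exact ⟨a, ⟨(hup a c hac hd).1, ha⟩, by rw [(hup a c hac hd).2]⟩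
      · exact ⟨c, ⟨(hup c a hac.symm hd).1, hc⟩, by rw [(hup c a hac.symm hd).2, Sym2.eq_swap]⟩
    · rintro ⟨v, ⟨hvo, hv⟩, he⟩
      rcases Sym2.eq_iff.1 he with ⟨h1, h2⟩ | ⟨h1, h2⟩ <;> subst h1 <;> subst h2
      · exact ⟨⟨hv, hpar v hv hvo⟩, (par_spec hT o hvo).1⟩
      · exact ⟨⟨hpar v hv hvo, hv⟩, (par_spec hT o hvo).1.symm⟩

/-- the law of one bit -/
def bitLaw (θ : ℝ) (v : V) : Measure Bool :=
  if v = o then ENNReal.ofReal (1 / 2) • Measure.dirac true + ENNReal.ofReal (1 / 2) • Measure.dirac false
  else ENNReal.ofReal ((1 + θ) / 2) • Measure.dirac true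
    + ENNReal.ofReal ((1 - θ) / 2) • Measure.dirac false

lemma bitLaw_singleton (θ : ℝ) (v : V) (x : Bool) : bitLaw o θ v {x}
    = ENNReal.ofReal (if v = o then 1 / 2 else (1 + θ * spin x) / 2) := by
  unfold bitLaw
  split_ifs <;> cases x <;> simp [spin, sub_eq_add_neg]

lemma isProb_bitLaw {θ : ℝ} (h0 : 0 ≤ θ) (h1 : θ ≤ 1) (v : V) :
    IsProbabilityMeasure (bitLaw o θ v) := by
  constructor
  unfold bitLaw
  split_ifs
  · simp only [Measure.coe_add, Measure.coe_smul, Pi.add_apply, Pi.smul_apply, measure_univ,
      smul_eq_mul, mul_one]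
    rw [← ENNReal.ofReal_add (by norm_num) (by norm_num)]
    norm_num
  · simp only [Measure.coe_add, Measure.coe_smul, Pi.add_apply, Pi.smul_apply, measure_univ,
      smul_eq_mul, mul_one]
    rw [← ENNReal.ofReal_add (by linarith) (by linarith),
      show (1 + θ) / 2 + (1 - θ) / 2 = 1 by ring, ENNReal.ofReal_one]

end FreeState

open FreeState

/-- The free Ising state exists on every regular tree for `θ ∈ [0,1]`. -/
theorem exists_freeIsing (hT : G.IsTree) {q : ℕ} (hd : ∀ v, (G.neighborSet v).ncard = q + 1)
    {θ : ℝ} (h0 : 0 ≤ θ) (h1 : θ ≤ 1) : ∃ ν : Measure (V → Bool), IsFreeIsing G θ ν := by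
  obtain ⟨o⟩ := hT.connected.nonempty
  have hf : ∀ v, (G.neighborSet v).Finite := fun v =>
    Set.finite_of_ncard_ne_zero (by rw [hd v]; omega)
  have hp : ∀ v, IsProbabilityMeasure (bitLaw o θ v) := isProb_bitLaw o h0 h1
  have hm : Measurable (spins hT o) :=
    measurable_pi_lambda _ fun v => measurable_spinsTo hT o _ v
  refine ⟨(Measure.infinitePi (bitLaw o θ)).map (spins hT o), fun D hconn η => ?_⟩
  have hgeo := geo_of_connected hT hconn
  have hne : D.Nonempty := by
    obtain ⟨x⟩ := hconn.nonempty
    exact ⟨x.1, x.2⟩
  -- the value on finite root-containing convex sets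
  have hball : ∀ M : Finset V, o ∈ M → Geo G M → ∀ ζ : V → Bool,
      (Measure.infinitePi (bitLaw o θ)).map (spins hT o) {σ | ∀ v ∈ M, σ v = ζ v}
        = ENNReal.ofReal (isingCylinder G θ M ζ) := by
    intro M ho hM ζ
    have hs : MeasurableSet {σ : V → Bool | ∀ v ∈ M, σ v = ζ v} := by
      have : {σ : V → Bool | ∀ v ∈ M, σ v = ζ v}
          = Set.pi (M : Set V) fun v => {ζ v} := by ext; simp
      rw [this]
      exact MeasurableSet.pi (Finset.countable_toSet M) fun v _ => measurableSet_singleton _
    rw [Measure.map_apply hm hs]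
    have : spins hT o ⁻¹' {σ | ∀ v ∈ M, σ v = ζ v}
        = Set.pi (M : Set V) fun v => {bits hT o ζ v} := by
      ext b
      simp [agree_iff hT o M ho hM ζ b]
    rw [this, Measure.infinitePi_pi _ fun v _ => measurableSet_singleton _]
    simp only [bitLaw_singleton]
    rw [← ENNReal.ofReal_prod_of_nonneg]
    · congr 1
      rw [isingCylinder, edges_eq hT o M ho hM, ← Finset.mul_prod_erase M _ ho, if_pos rfl,
        Finset.prod_image]
      · congr 1
        refine Finset.prod_congr rfl fun v hv => ?_
        rw [if_neg (Finset.mem_erase.1 hv).1, edgeFactor_mk, bits,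
          if_neg (Finset.mem_erase.1 hv).1]
        cases ζ v <;> cases ζ (par hT o v) <;> simp [spin]
      · intro a ha c hc he
        rcases Sym2.eq_iff.1 he with ⟨h, -⟩ | ⟨h, h'⟩
        · exact h
        · exfalso
          have e1 := (par_spec hT o (Finset.mem_erase.1 ha).1).2
          have e2 := (par_spec hT o (Finset.mem_erase.1 hc).1).2
          rw [h'] at e1
          rw [← h] at e2
          omega
    · intro v _
      split_ifs
      · norm_num
      · unfold spin
        split_ifs <;> linarith
  -- a ball containing `D`, and the partition by the configuration on it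
  obtain ⟨N, hN⟩ := exists_ball_superset hT hf o D
  set M := ball G hf o N
  have hDM : D ⊆ M := hN N le_rfl
  have hoM : o ∈ M := self_mem_ball hT hf o N
  have hMg : Geo G M := geo_ball hT hf o N
  set P0 : Finset (Finset V) := M.powerset.filter fun P => ∀ v ∈ D, decide (v ∈ P) = η v
  have hset : {σ : V → Bool | ∀ v ∈ D, σ v = η v}
      = ⋃ P ∈ P0, {σ : V → Bool | ∀ v ∈ M, σ v = decide (v ∈ P)} := by
    ext σ
    simp only [Set.mem_ofPred_eq, Set.mem_iUnion, P0, Finset.mem_filter, Finset.mem_powerset,
      exists_prop]
    constructor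
    · intro h
      refine ⟨M.filter fun v => σ v = true, ⟨Finset.filter_subset _ _, fun v hv => ?_⟩, fun v hv => ?_⟩
      · rw [← h v hv]; simp [hDM hv]
      · simp [hv]
    · rintro ⟨P, ⟨-, hP⟩, hσ⟩ v hv
      rw [hσ v (hDM hv), hP v hv]
  rw [hset, measure_biUnion_finset, Finset.sum_congr rfl fun P _ => hball M hoM hMg _,
    ← ENNReal.ofReal_sum_of_nonneg]
  · congr 1
    have hc := EI_consistent (θ := θ) hT _ D M rfl hDM hgeo hMg hne
      (fun P => if ∀ v ∈ D, decide (v ∈ P) = η v then (1:ℝ) else 0) (fun P P' h => by
        refine if_congr ?_ rfl rfl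
        exact forall₂_congr fun v hv => by rw [decide_eq_decide.2 (h v hv)])
    simp only [EI, mul_ite, mul_one, mul_zero, ← Finset.sum_filter] at hc
    refine hc.trans ?_
    have : D.powerset.filter (fun P => ∀ v ∈ D, decide (v ∈ P) = η v)
        = {D.filter fun v => η v = true} := by
      ext P
      simp only [Finset.mem_filter, Finset.mem_powerset, Finset.mem_singleton]
      constructor
      · rintro ⟨hP, h⟩
        ext v
        simp only [Finset.mem_filter]
        refine ⟨fun hv => ⟨hP hv, ?_⟩, fun ⟨hv, he⟩ => ?_⟩
        · rw [← h v (hP hv)]; simp [hv]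
        · have := h v hv; rw [he] at this; simpa using this
      · rintro rfl
        exact ⟨Finset.filter_subset _ _, fun v hv => by simp [hv]⟩
    rw [this, Finset.sum_singleton, wgt, isingCylinder, isingCylinder]
    congr 1
    refine Finset.prod_congr rfl fun e he => ?_
    induction e using Sym2.ind with
    | _ a c =>
      rw [Finset.mem_filter, Finset.mk_mem_sym2_iff] at he
      simp [edgeFactor_mk, he.1.1, he.1.2]
  · intro P _
    refine mul_nonneg (by norm_num) (Finset.prod_nonneg fun e _ => ?_)
    induction e using Sym2.ind with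
    | _ u v =>
      rw [edgeFactor_mk]
      unfold spin
      split_ifs <;> linarith
  · intro P hP Q hQ hPQ
    simp only [Function.onFun, Set.disjoint_left, Set.mem_ofPred_eq]
    intro σ hσ hσ'
    refine hPQ ?_
    ext v
    have hPM := Finset.mem_powerset.1 (Finset.mem_filter.1 hP).1
    have hQM := Finset.mem_powerset.1 (Finset.mem_filter.1 hQ).1
    constructor <;> intro hv
    · have h := (hσ v (hPM hv)).symm.trans (hσ' v (hPM hv))
      simpa [hv] using h
    · have h := (hσ v (hQM hv)).symm.trans (hσ' v (hQM hv))
      simpa [hv] using h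
  · intro P _
    have : {σ : V → Bool | ∀ v ∈ M, σ v = decide (v ∈ P)}
        = Set.pi (M : Set V) fun v => {decide (v ∈ P)} := by ext; simp
    rw [this]
    exact MeasurableSet.pi (Finset.countable_toSet M) fun v _ => measurableSet_singleton _

end Vale.Agent.P161
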