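import Mathlib
import Vale.Agent.P161.Main
import Vale.Agent.P161.Converse
import Vale.Agent.P161.Crit.Critical
import Vale.Agent.P161.Exists

/-!
The factor-of-i.i.d. threshold of the free Ising state on regular trees.
-/

open MeasureTheory
open scoped Classical

noncomputable section

namespace Vale.Agent.P161

variable {V : Type*} {G : SimpleGraph V}

/-- at or below the threshold the free Ising state exists and is a factor of i.i.d. -/
theorem fiid_upto_threshold (hT : G.IsTree) {d : ℕ} (hd : ∀ v, (G.neighborSet v).ncard = d)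
    (h3 : 3 ≤ d) {θ : ℝ} (h0 : 0 ≤ θ) (hle : θ * Real.sqrt ((d : ℝ) - 1) ≤ 1) :
    (∃ ν, IsFreeIsing G θ ν) ∧ ∀ ν, IsFreeIsing G θ ν → IsFactorOfIID G ν := by
  rcases lt_or_eq_of_le hle with h | h
  · exact fiid_below_threshold hT hd h3 h0 h
  · obtain ⟨q, rfl⟩ : ∃ q, d = q + 1 := ⟨d - 1, by omega⟩
    have hq : (((q + 1 : ℕ) : ℝ) - 1) = q := by push_cast; ring
    rw [hq] at h
    have hθ : 0 < θ := by
      rcases lt_or_eq_of_le h0 with h' | h'
      · exact h'
      · rw [← h', zero_mul] at h; exact absurd h zero_ne_one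
    have : Countable V := countable_verts hT (nb_finite hd)
    refine Crit.fiid_at_threshold hT hd (by omega) hθ ?_
    calc (q : ℝ) * θ ^ 2 = (θ * Real.sqrt q) ^ 2 := by
          rw [mul_pow, Real.sq_sqrt (Nat.cast_nonneg q), mul_comm]
      _ = 1 := by rw [h, one_pow]

/-- the free Ising state is a factor of i.i.d. exactly up to the Kesten-Stigum threshold -/
theorem fiid_iff_threshold (hT : G.IsTree) {d : ℕ} (hd : ∀ v, (G.neighborSet v).ncard = d)
    (h3 : 3 ≤ d) {θ : ℝ} (h0 : 0 ≤ θ) (h1 : θ ≤ 1) :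
    (∃ ν, IsFreeIsing G θ ν) ∧
      ∀ ν, IsFreeIsing G θ ν → (IsFactorOfIID G ν ↔ θ * Real.sqrt ((d : ℝ) - 1) ≤ 1) := by
  refine ⟨exists_freeIsing hT (q := d - 1) (fun v => by rw [hd v]; omega) h0 h1,
    fun ν hν => ⟨fun hf => ?_, fun h => (fiid_upto_threshold hT hd h3 h0 h).2 ν hν⟩⟩
  by_contra hc
  exact not_fiid_above hT hd h3 (not_le.1 hc) h1 ν hν hf

end Vale.Agent.P161
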